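import Vale.Agent.P352X.R.CONK.Norm
import Vale.Agent.P352L.Wt

/-!
# P352L, block CONK: norms with the logarithmic weight, the analytic part (helper57)
-/

set_option linter.all false

open MeasureTheory Filter Topology Set
open scoped SchwartzMap ENNReal ContDiff Real

namespace Vale.Agent.P352L.NC

open Vale.Agent.P352 Vale.Agent.P352.GF Vale.Agent.P352.BW Vale.Agent.P352.H246
open Vale.Agent.P352.H496 Vale.Agent.P352.H755 Vale.Agent.P352.H15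
open Vale.Agent.P352X Vale.Agent.P352X.CK Vale.Agent.P352X.CK.Norm Vale.Agent.P352L.Wt

noncomputable section

/-- the `L^1` norm -/
def n1 (φ : ℝ → ℂ) : ℝ := ∫ t, ‖φ t‖
/-- profiles at the scale `B` -/
def N1 (B : ℝ) (φ : ℝ → ℂ) : ℝ := n1 φ / √B + √B * n1 (deriv φ)
/-- functions on the plane at the scale `A` -/
def N3 (A : ℝ) (g : P3 → ℂ) : ℝ := n2 g / A + A * n2 (da (da g))
/-- the weight `x ^ d + x ^ (-d)` -/
def wd (d x : ℝ) : ℝ := x ^ d + x ^ (-d)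

variable {g : P3 → ℂ} {φ : ℝ → ℂ} {A B d x y : ℝ}

theorem n1_nonneg (φ : ℝ → ℂ) : 0 ≤ n1 φ := integral_nonneg fun _ => norm_nonneg _

theorem N1_nonneg (B : ℝ) (φ : ℝ → ℂ) : 0 ≤ N1 B φ :=
  add_nonneg (div_nonneg (n1_nonneg _) (Real.sqrt_nonneg _))
    (mul_nonneg (Real.sqrt_nonneg _) (n1_nonneg _))

theorem N3_nonneg (hA : 0 < A) (g : P3 → ℂ) : 0 ≤ N3 A g :=
  add_nonneg (div_nonneg (n2_nonneg _) hA.le) (mul_nonneg hA.le (n2_nonneg _))

theorem wd_pos (hx : 0 < x) (d : ℝ) : 0 < wd d x :=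
  add_pos (Real.rpow_pos_of_pos hx _) (Real.rpow_pos_of_pos hx _)

theorem one_le_wd (hx : 0 < x) (d : ℝ) : 1 ≤ wd d x := by
  have a := Real.rpow_pos_of_pos hx d
  rw [wd, Real.rpow_neg hx.le]
  rcases le_total 1 (x ^ d) with h | h
  · linarith [inv_pos.2 a]
  · linarith [(one_le_inv₀ a).2 h]

theorem wd_mul (hx : 0 < x) (hy : 0 < y) (d : ℝ) : wd d (x * y) ≤ wd d x * wd d y := by
  have a1 := Real.rpow_pos_of_pos hx d
  have a2 := Real.rpow_pos_of_pos hx (-d)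
  have a3 := Real.rpow_pos_of_pos hy d
  have a4 := Real.rpow_pos_of_pos hy (-d)
  rw [wd, wd, wd, Real.mul_rpow hx.le hy.le, Real.mul_rpow hx.le hy.le]
  nlinarith [mul_pos a1 a4, mul_pos a2 a3]

theorem wd_inv (hx : 0 < x) (d : ℝ) : wd d x⁻¹ = wd d x := by
  rw [wd, wd, Real.inv_rpow hx.le, Real.inv_rpow hx.le, ← Real.rpow_neg hx.le,
    ← Real.rpow_neg hx.le, neg_neg, add_comm]

theorem wd_large (hx : 1 ≤ x) (hd : 0 ≤ d) : wd d x ≤ 2 * x ^ d := by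
  have := Real.rpow_le_rpow_of_exponent_le hx (show -d ≤ d by linarith)
  rw [wd]
  linarith

theorem wd_small (hx : 0 < x) (h : x ≤ 1) (hd : 0 ≤ d) : wd d x ≤ 2 * x ^ (-d) := by
  have := Real.rpow_le_rpow_of_exponent_ge hx h (show -d ≤ d by linarith)
  rw [wd]
  linarith

theorem wd_mono {e : ℝ} (hx : 0 < x) (hd : 0 ≤ d) (h : d ≤ e) : wd d x ≤ 2 * wd e x := by
  have a1 := Real.rpow_pos_of_pos hx e
  have a2 := Real.rpow_pos_of_pos hx (-e)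
  rcases le_total 1 x with k | k
  · have := Real.rpow_le_rpow_of_exponent_le k h
    refine (wd_large k hd).trans ?_
    rw [wd]
    linarith
  · have := Real.rpow_le_rpow_of_exponent_ge hx k (show -e ≤ -d by linarith)
    refine (wd_small hx k hd).trans ?_
    rw [wd]
    linarith

/-- change of the reference scale -/
theorem wd_le_Lm {e l m : ℝ} (he : 0 < e) (hl : 0 < l) (hm : 0 < m) (hd : 0 ≤ d) (h : d ≤ 1 / 4) :
    wd d (e * m) ≤ 2 * wd d (e / l) * Lm (l * m) := by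
  have h1 := wd_mul (div_pos he hl) (mul_pos hl hm) d
  rw [show e / l * (l * m) = e * m by field_simp] at h1
  have h2 : wd d (l * m) ≤ 2 * Lm (l * m) := wd_mono (mul_pos hl hm) hd h
  exact h1.trans ((mul_le_mul_of_nonneg_left h2 (wd_pos (div_pos he hl) d).le).trans_eq (by ring))

theorem Lm_sq (hx : 0 < x) : x ^ 2 * Lm x ≤ 2 * (1 + x ^ 4) := by
  rcases le_total x 1 with h | h
  · have e : x ^ (-(1 / 4) : ℝ) ≤ x ^ (-2 : ℝ) :=
      Real.rpow_le_rpow_of_exponent_ge hx h (by norm_num)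
    rw [Real.rpow_neg hx.le 2, Real.rpow_two] at e
    have := mul_le_mul_of_nonneg_left ((Lm_small hx h).trans (mul_le_mul_of_nonneg_left e two_pos.le))
      (sq_nonneg x)
    rw [mul_left_comm, mul_inv_cancel₀ (by positivity)] at this
    linarith [pow_pos hx 4]
  · have e : x ^ (1 / 4 : ℝ) ≤ x ^ (2 : ℝ) := Real.rpow_le_rpow_of_exponent_le h (by norm_num)
    rw [Real.rpow_two] at e
    have := mul_le_mul_of_nonneg_left ((Lm_large h).trans (mul_le_mul_of_nonneg_left e two_pos.le))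
      (sq_nonneg x)
    nlinarith

/-- decay of the Fourier transform of a profile of bounded variation -/
theorem ft1_bv (hφ : Dc φ) (hB : 0 < B) {t : ℝ} (ht : 0 < t) :
    ‖ft1 φ t‖ ^ 2 ≤ 2 * N1 B φ ^ 2 * (B * ((1 + B * t) ^ 2)⁻¹) := by
  have a : ‖ft1 φ t‖ ≤ n1 φ := norm_ft1_le φ t
  have b : t * ‖ft1 φ t‖ ≤ n1 (deriv φ) := by
    have := norm_ft1_le (deriv φ) t
    rwa [ft1_der hφ, abs_of_pos ht] at this
  have s := Real.sqrt_pos.2 hB
  have e : N1 B φ ^ 2 * B = (n1 φ + B * n1 (deriv φ)) ^ 2 := by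
    rw [N1]
    nth_rw 3 [← Real.sq_sqrt hB.le]
    rw [← mul_pow]
    congr 1
    field_simp
    rw [Real.sq_sqrt hB.le, mul_comm B]
  have n := norm_nonneg (ft1 φ t)
  have h : (1 + B * t) * ‖ft1 φ t‖ ≤ n1 φ + B * n1 (deriv φ) := by
    nlinarith [mul_le_mul_of_nonneg_left b hB.le]
  rw [mul_assoc, ← mul_assoc _ B, e, ← mul_assoc, ← div_eq_mul_inv, le_div_iff₀ (by positivity),
    ← mul_pow, mul_comm ‖_‖]
  have := pow_le_pow_left₀ (by positivity) h 2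
  nlinarith [sq_nonneg (n1 φ + B * n1 (deriv φ))]

/-- the constant of the profile -/
def KB : ℝ := 2 * Lm 2 * ∫ t in Ioi 0, B1 t

theorem KB_nonneg : 0 ≤ KB := mul_nonneg (mul_nonneg zero_le_two (Lm_nonneg zero_le_two))
  (setIntegral_nonneg measurableSet_Ioi fun t (ht : 0 < t) => B1_nonneg ht.le)

/-- **the core estimate** -/
theorem core {Γ : P3 → ℝ} (hΓ : IntegrableOn Γ Pp) (Γ0 : ∀ k ∈ Pp, 0 ≤ Γ k) (hφ : Dc φ) (hA : 0 < A)
    (hB : 0 < B) : ∃ F : V → ℝ, IntegrableOn F Fc ∧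
      ∫ p in Fc, F p = KB * (∫ k in Pp, Γ k) * N1 B φ ^ 2 ∧ (∀ p ∈ Fc, 0 ≤ F p) ∧
      ∀ p ∈ Fc, ∀ a, 0 ≤ a → Lm (A * be p) * a ≤ Γ (pm p) →
        Lm (A * B * mu p) * (a * ‖ft1 φ (al p)‖ ^ 2) ≤ F p := by
  have i1 : IntegrableOn (fun k => 2 * Lm 2 * N1 B φ ^ 2 * Γ k) Pp := hΓ.const_mul _
  have l3 := Lm_pos two_pos
  refine ⟨_, int_Fc_mul i1 (int_B1s hB).1, ?_, fun p hp => mul_nonneg (mul_nonneg (by positivity)
    (Γ0 _ ((mem_Fc p).1 hp).1)) (mul_nonneg hB.le (B1_nonneg (mul_pos hB (y_pos hp).1).le)),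
    fun p hp a a0 ha => ?_⟩
  · rw [integral_Fc_mul (fun k => 2 * Lm 2 * N1 B φ ^ 2 * Γ k) fun t => B * B1 (B * t),
      (int_B1s hB).2, integral_const_mul, KB]
    ring
  obtain ⟨b1, b2⟩ := (mem_Fc p).1 hp
  obtain ⟨y0, y1⟩ := y_pos hp
  set y := mu p / (2 * be p) with hy
  have e : A * B * mu p = 2 * (A * be p * (B * y)) := by
    rw [hy]
    field_simp
  have sy := mul_pos hB y0
  have sa := mul_pos hA b1
  have h1 : Lm (A * B * mu p) ≤ Lm 2 * (Lm (A * be p) * Lm (B * y)) := by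
    rw [e]
    exact (Lm_mul two_pos (mul_pos sa sy)).trans (mul_le_mul_of_nonneg_left (Lm_mul sa sy) l3.le)
  have h2 := ft1_bv hφ hB (y0.trans_le y1)
  have h3 : ((1 + B * al p) ^ 2)⁻¹ ≤ ((1 + B * y) ^ 2)⁻¹ := inv_anti₀ (by positivity) (by gcongr)
  have l1 := Lm_pos sa
  have l2 := Lm_pos sy
  calc _ ≤ Lm 2 * (Lm (A * be p) * Lm (B * y)) *
        (a * (2 * N1 B φ ^ 2 * (B * ((1 + B * y) ^ 2)⁻¹))) := by
        gcongr
        exact h2.trans (by gcongr)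
    _ = 2 * Lm 2 * N1 B φ ^ 2 * (Lm (A * be p) * a) * (B * B1 (B * y)) := by
        rw [B1]
        ring
    _ ≤ _ := mul_le_mul_of_nonneg_right (mul_le_mul_of_nonneg_left ha (by positivity))
        (mul_nonneg hB.le (B1_nonneg sy.le))

/-- from densities to measures -/
theorem meas_le {ν : Measure V} {w F : V → ℝ} {S : Set V} (hS : MeasurableSet S)
    (h : ν ≤ (volume.restrict Fc).withDensity fun p => ENNReal.ofReal (w p))
    (hF : IntegrableOn F Fc) (F0 : ∀ p ∈ Fc, 0 ≤ F p) (hw : ∀ᵐ p, p ∈ Fc → p ∈ S → w p ≤ F p) :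
    ν S ≤ ENNReal.ofReal (∫ p in Fc, F p) := by
  refine (h S).trans ?_
  rw [withDensity_apply _ hS, ofReal_integral_eq_lintegral_ofReal hF
    ((ae_restrict_mem meas_Fc).mono F0)]
  refine le_trans (lintegral_mono_ae ?_) (setLIntegral_le_lintegral S _)
  filter_upwards [ae_restrict_of_ae (ae_restrict_of_ae hw), ae_restrict_mem hS,
    ae_restrict_of_ae (ae_restrict_mem meas_Fc)] with p a b e
  exact ENNReal.ofReal_le_ofReal (a e b)

/-- the scale invariant form -/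
theorem core3 (hg : Dc g) (hφ : Dc φ) (hA : 0 < A) (hB : 0 < B) : ∃ F : V → ℝ, IntegrableOn F Fc ∧
    ∫ p in Fc, F p ≤ 2 * (2 * π) ^ 3 * KB * (N3 A g * N1 B φ) ^ 2 ∧ (∀ p ∈ Fc, 0 ≤ F p) ∧
      ∀ p ∈ Fc, Lm (A * B * mu p) * (be p * ‖ft (pf g φ) p‖) ^ 2 ≤ F p := by
  obtain ⟨i1, i2⟩ := pl3 hg
  obtain ⟨j1, j2⟩ := pl3 (dc_da (dc_da hg))
  have i := (i1.const_mul (2 * (A ^ 2)⁻¹)).add (j1.const_mul (2 * A ^ 2))
  obtain ⟨F, h1, h2, h3, h4⟩ := core (Γ := fun k => 2 * (A ^ 2)⁻¹ * ‖ft3 g k‖ ^ 2 +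
    2 * A ^ 2 * ‖ft3 (da (da g)) k‖ ^ 2) i.integrableOn (fun k _ => by positivity) hφ hA hB
  refine ⟨F, h1, h2.trans_le ?_, h3, fun p hp => le_trans (le_of_eq ?_)
    (h4 p hp ((be p * ‖ft3 g (pm p)‖) ^ 2) (sq_nonneg _) ?_)⟩
  · have k := setIntegral_le_integral (s := Pp) i (.of_forall fun k => by
      simp only [Pi.add_apply, Pi.zero_apply]
      positivity)
    rw [integral_add' (i1.const_mul _) (j1.const_mul _), integral_const_mul, integral_const_mul, i2,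
      j2] at k
    have n := KB_nonneg
    have a1 := n2_nonneg g
    have a2 := n2_nonneg (da (da g))
    calc _ ≤ KB * (2 * (2 * π) ^ 3 * N3 A g ^ 2) * N1 B φ ^ 2 := by
          gcongr
          refine k.trans ?_
          have : (n2 g / A) ^ 2 + (A * n2 (da (da g))) ^ 2 ≤ N3 A g ^ 2 := by
            rw [N3]
            nlinarith [mul_nonneg (div_nonneg a1 hA.le) (mul_nonneg hA.le a2)]
          exact le_trans (le_of_eq (by field_simp)) (mul_le_mul_of_nonneg_left this (by positivity))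
      _ = _ := by ring
  · rw [ft_pf, norm_mul]
    ring
  · have b := ((mem_Fc p).1 hp).1
    have k := mul_le_mul_of_nonneg_right (Lm_sq (mul_pos hA b))
      (show 0 ≤ (A ^ 2)⁻¹ * ‖ft3 g (pm p)‖ ^ 2 by positivity)
    rw [ft3_da (dc_da hg), ft3_da hg, pm_1, abs_of_pos b]
    refine le_trans (le_of_eq ?_) (k.trans_eq ?_) <;> field_simp

/-- the constant of the norms -/
def KN : ℝ := √(2 * (2 * π) ^ 3 * KB)

theorem KN_nonneg : 0 ≤ KN := Real.sqrt_nonneg _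

theorem one_le {ν : Measure V} {w : V → ℝ} {C : ℝ} (hg : Dc g) (hφ : Dc φ) (hA : 0 < A)
    (hB : 0 < B) (hC : 0 ≤ C)
    (h : ν ≤ (volume.restrict Fc).withDensity fun p => ENNReal.ofReal (w p))
    (hw : ∀ p ∈ Fc, w p ≤ C * (Lm (A * B * mu p) * (be p * ‖ft (pf g φ) p‖) ^ 2)) :
    ν univ ≤ ENNReal.ofReal (C * (KN * N3 A g * N1 B φ) ^ 2) := by
  obtain ⟨F, h1, h2, h3, h4⟩ := core3 hg hφ hA hB
  refine (meas_le (F := fun p => C * F p) MeasurableSet.univ h (h1.const_mul C)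
    (fun p hp => mul_nonneg hC (h3 p hp)) (.of_forall fun p hp _ => (hw p hp).trans
      (mul_le_mul_of_nonneg_left (h4 p hp) hC))).trans (ENNReal.ofReal_le_ofReal ?_)
  rw [integral_const_mul, mul_assoc KN, mul_pow, KN,
    Real.sq_sqrt (mul_nonneg (by positivity) KB_nonneg)]
  exact mul_le_mul_of_nonneg_left h2 hC

/-- weights of the type of `T_aa` -/
theorem taa_le {ν : Measure V} {w : V → ℝ} {C : ℝ} (hg : Dc g) (hφ : Dc φ) (hA : 0 < A)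
    (hB : 0 < B) (hC : 0 ≤ C)
    (h : ν ≤ (volume.restrict Fc).withDensity fun p => ENNReal.ofReal (w p))
    (hw : ∀ p ∈ Fc, w p ≤ C * (Lm (A * B * mu p) * (be p ^ 2 * ‖ft (pf g φ) p‖) ^ 2)) :
    ν univ ≤ ENNReal.ofReal (C * (KN * N3 A (da g) * N1 B φ) ^ 2) := by
  refine one_le (dc_da hg) hφ hA hB hC h fun p hp => (hw p hp).trans_eq ?_
  simp only [ft_pf, norm_mul, ft3_da hg, pm_1, abs_of_pos ((mem_Fc p).1 hp).1]
  ring

/-- weights of the type of the trace -/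
theorem th_le {ν : Measure V} {w : V → ℝ} {C : ℝ} (hg : Dc g) (hφ : Dc φ) (hA : 0 < A)
    (hB : 0 < B) (hC : 0 ≤ C)
    (h : ν ≤ (volume.restrict Fc).withDensity fun p => ENNReal.ofReal (w p))
    (hw : ∀ p ∈ Fc, w p ≤ C * (Lm (A * B * mu p) * (al p * be p * ‖ft (pf g φ) p‖) ^ 2)) :
    ν univ ≤ ENNReal.ofReal (C * (KN * N3 A g * N1 B (deriv φ)) ^ 2) := by
  refine one_le hg (φ := deriv φ) (Ap.cs_deriv hφ) hA hB hC h fun p hp => (hw p hp).trans_eq ?_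
  simp only [ft_pf, norm_mul, ft1_der hφ, abs_of_pos ((mem_Fc' p).1 hp).1]
  ring

/-- a fixed function on the plane, no power of `p_a` -/
theorem fix_le (hg : Dc g) : ∃ K, 0 ≤ K ∧ ∀ (φ : ℝ → ℂ) (B : ℝ), Dc φ → 0 < B → ∃ F : V → ℝ,
    IntegrableOn F Fc ∧ ∫ p in Fc, F p = (K * N1 B φ) ^ 2 ∧ (∀ p ∈ Fc, 0 ≤ F p) ∧
      ∀ p ∈ Fc, Lm (B * mu p) * ‖ft (pf g φ) p‖ ^ 2 ≤ F p := by
  obtain ⟨G, rfl⟩ := Ap.dc_sw hg
  obtain ⟨m, C, C0, hC⟩ := ft3_decay 5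
  set M := C * sn m G
  have i1 : IntegrableOn (fun k : P3 => M ^ 2 * (B1 k.1 * w3 k.2)) Pp := by
    refine Integrable.const_mul ?_ _
    rw [vol_Pp]
    exact Integrable.mul_prod int_B1 int_w3
  have Γ0 : ∀ k ∈ Pp, 0 ≤ M ^ 2 * (B1 k.1 * w3 k.2) := fun k (hk : 0 < k.1) =>
    mul_nonneg (sq_nonneg _) (mul_nonneg (B1_nonneg hk.le) (w3_pos _).le)
  refine ⟨√(KB * ∫ k in Pp, M ^ 2 * (B1 k.1 * w3 k.2)), Real.sqrt_nonneg _, fun φ B hφ hB => ?_⟩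
  obtain ⟨F, h1, h2, h3, h4⟩ := core i1 Γ0 hφ one_pos hB
  refine ⟨F, h1, ?_, h3, fun p hp => le_trans (le_of_eq ?_)
    (h4 p hp (‖ft3 G (pm p)‖ ^ 2) (sq_nonneg _) ?_)⟩
  · rw [h2, mul_pow (√_), Real.sq_sqrt (mul_nonneg KB_nonneg (setIntegral_nonneg meas_Pp Γ0))]
  · rw [ft_pf, norm_mul, one_mul, mul_pow]
  · have b := ((mem_Fc p).1 hp).1
    have n := norm_nonneg (pm p)
    have k1 : be p ≤ ‖pm p‖ := (le_abs_self _).trans (norm_fst_le (pm p))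
    have k2 : ‖tx p‖ ≤ ‖pm p‖ := norm_snd_le (pm p)
    have k3 : ‖ft3 G (pm p)‖ ≤ M * ((1 + ‖pm p‖) ^ 5)⁻¹ := by
      rw [← div_eq_mul_inv, le_div_iff₀' (by positivity)]
      exact hC G _
    have k4 : ((1 + ‖pm p‖) ^ 5)⁻¹ ≤ ((1 + be p) ^ 2)⁻¹ * w3 (tx p) := by
      rw [w3, ← mul_inv]
      refine inv_anti₀ (by positivity) ?_
      calc _ ≤ (1 + ‖pm p‖) ^ 2 * (1 + ‖pm p‖) ^ 3 := by gcongr
        _ = _ := by ring
    have k5 : ((1 + ‖pm p‖) ^ 5)⁻¹ ≤ 1 := inv_le_one_of_one_le₀ (one_le_pow₀ (by linarith))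
    have l := Lm_pos b
    calc _ ≤ Lm (1 * be p) * (M ^ 2 * (((1 + ‖pm p‖) ^ 5)⁻¹ * ((1 + ‖pm p‖) ^ 5)⁻¹)) := by
          rw [one_mul]
          gcongr
          exact (pow_le_pow_left₀ (norm_nonneg _) k3 2).trans_eq (by ring)
      _ ≤ Lm (be p) * (M ^ 2 * (1 * (((1 + be p) ^ 2)⁻¹ * w3 (tx p)))) := by
          rw [one_mul]
          gcongr
      _ = _ := by
          simp only [B1, pm_1, pm_2]
          ring

/-- small `p_b` -/
theorem low_le (hg : Dc g) : ∃ K, 0 ≤ K ∧ ∀ (ν : Measure V) (w : V → ℝ) (φ : ℝ → ℂ) (C s : ℝ),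
    0 ≤ C → 0 < s → s ≤ 1 → (ν ≤ (volume.restrict Fc).withDensity fun p => ENNReal.ofReal (w p)) →
    (∀ p ∈ Fc, w p ≤ C * (Lm (mu p) * (be p ^ 2 * ‖ft (pf g φ) p‖) ^ 2)) →
    ν {p | al p < s} ≤ ENNReal.ofReal (C * (K * n1 φ) ^ 2 * s) := by
  obtain ⟨G, e⟩ := Ap.dc_sw (dc_da (dc_da hg))
  obtain ⟨m, C1, C0, hC⟩ := ft3_decay 4
  obtain ⟨K, K0, hK⟩ := lowI (l := al) (.inl rfl)
  set M := C1 * sn m G
  refine ⟨√K * (3 ^ 4 * M), mul_nonneg (Real.sqrt_nonneg _) (mul_nonneg (by positivity)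
    ((by positivity : (0 : ℝ) ≤ _).trans (hC G 0))), fun ν w φ C s hC0 s0 s1 h hw => ?_⟩
  obtain ⟨F, h1, h2, h3, h4⟩ := hK s s0
  refine (meas_le (F := fun p => C * (3 ^ 4 * M * n1 φ) ^ 2 * F p)
    (measurableSet_lt meas_al measurable_const) h (h1.const_mul _)
    (fun p hp => mul_nonneg (by positivity) (h3 p hp)) (ae_tx.mono fun p hq hp (k : al p < s) =>
      (hw p hp).trans ?_)).trans (ENNReal.ofReal_le_ofReal (le_of_eq ?_))
  · have a := ((mem_Fc' p).1 hp).1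
    obtain ⟨b, b'⟩ := (mem_Fc p).1 hp
    have n := norm_nonneg (pm p)
    have k1 : |be p| ≤ ‖pm p‖ := norm_fst_le (pm p)
    have k2 : ‖tx p‖ ≤ ‖pm p‖ := norm_snd_le (pm p)
    have k3 : 1 + ‖p‖ ≤ 3 * (1 + ‖pm p‖) := by
      have := norm_pt_le (α := al p) (β := be p) (u := tx p)
      rw [pt_eta, abs_of_pos a] at this
      linarith
    have k4 := hC G (pm p)
    rw [show (G : P3 → ℂ) = _ from e, ft3_da (dc_da hg), ft3_da hg, pm_1, abs_of_pos b] at k4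
    have k5 : (1 + ‖p‖) ^ 4 * (be p ^ 2 * ‖ft (pf g φ) p‖) ≤ 3 ^ 4 * M * n1 φ := by
      rw [ft_pf, norm_mul]
      calc _ ≤ (3 * (1 + ‖pm p‖)) ^ 4 * (be p ^ 2 * (‖ft3 g (pm p)‖ * n1 φ)) := by
            gcongr
            exact norm_ft1_le φ _
        _ = 3 ^ 4 * ((1 + ‖pm p‖) ^ 4 * (be p * (be p * ‖ft3 g (pm p)‖))) * n1 φ := by ring
        _ ≤ _ := by
            gcongr
            exact n1_nonneg φ
    have k6 : (be p ^ 2 * ‖ft (pf g φ) p‖) ^ 2 ≤ (3 ^ 4 * M * n1 φ) ^ 2 * ((1 + ‖p‖) ^ 8)⁻¹ := by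
      rw [← div_eq_mul_inv, le_div_iff₀ (by positivity)]
      exact le_trans (le_of_eq (by ring)) (pow_le_pow_left₀ (by positivity) k5 2)
    have l := Lm_pos b'
    calc _ ≤ C * (Lm (mu p) * ((3 ^ 4 * M * n1 φ) ^ 2 * ((1 + ‖p‖) ^ 8)⁻¹)) := by gcongr
      _ = C * (3 ^ 4 * M * n1 φ) ^ 2 * (Lm (mu p) * ((1 + ‖p‖) ^ 8)⁻¹) := by ring
      _ ≤ _ := mul_le_mul_of_nonneg_left (h4 p hp hq k) (by positivity)
  · rw [integral_const_mul, h2, mul_assoc (√K), mul_pow (√K), Real.sq_sqrt K0]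
    ring

end

end Vale.Agent.P352L.NC
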