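import Vale.Agent.P352X.R.CONK.Spec
import Vale.Agent.P352L.Spec2
import Vale.Agent.P352L.CK.NCore

/-!
# P352L, block CONK: vocabulary and sub-rows (helper57)

The crossing leg is `W`; the spectator is a tensor source in the rows `UF`, `GOODT`.
-/

set_option linter.all false

open MeasureTheory Filter Topology
open scoped SchwartzMap ComplexConjugate ENNReal ContDiff

namespace Vale.Agent.P352L.CK

open Vale.Agent.P352X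

export Vale.Agent.P352X.CK (pol qol wt sq2 sqm thn n2 da eu U1 U2 swp VIT PRIM ANN)

open Vale.Agent.P352 Vale.Agent.P352.GF Vale.Agent.P352.BW Vale.Agent.P352.H246
open Vale.Agent.P352.H496 Vale.Agent.P352.H755 Vale.Agent.P352.H15
open UniformSpace (Completion)
open Complex (I)

noncomputable section

/-! ## vocabulary -/

/-- tensors of test functions -/
abbrev TS := I2 → Sch
def evT (G : TS) : Ix → Ix → Fn := fun m n => ev (G (m, n))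
def barT (F : Ix → Ix → Fn) : Ix → Ix → Fn := fun m n => bar (F m n)
def snT (m : ℕ) (G : TS) : ℝ := ∑ I, sn m (G I)
def InT (O : Set V) (F : Ix → Ix → Fn) : Prop := ∀ m n, In O (F m n)
def TsT (F : Ix → Ix → Fn) : Prop := ∀ m n, IsTest (F m n)

variable {D : Type*} [NormedAddCommGroup D] [InnerProductSpace ℂ D]

section base

variable (c : Base D)

/-- the component orthogonal to the vacuum -/
def perp0 (v : Completion D) : Completion D := v - inner ℂ c.Om v • c.Om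

/-- covariance under translations, up to multiples of the vacuum -/
def Tra0 (R : S2 →L[ℂ] Completion D) : Prop := ∀ a (F G : S2),
  (∀ x y, G (x, y) = F (x + a, y + a)) → ∃ κ : ℂ, R F = Ut c.Q a (R G) + κ • c.Om

/-- covariance of the type of `T_aa W`, up to multiples of the vacuum -/
structure Cv0 (R : S2 →L[ℂ] Completion D) (R' : ℝ → S2 →L[ℂ] Completion D) : Prop where
  tra : Tra0 c R
  sca : ∀ s (F G : S2), 0 < s → (∀ x y, G (x, y) = F (scp 1 s x, scp 1 s y)) →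
    ∃ κ : ℂ, R' s F = (s : ℂ) • Usc c.Q 1 s (R G) + κ • c.Om

/-- bounds for `w`, `M^b w`, `P_b w`, `M^b P_b w` -/
structure Lw0 (w : Completion D) (Λ : ℝ) : Prop where
  dg : Dm (Gb c.Q) w
  dp : Dm (Pb c.Q) w
  dgp : Dm (Gb c.Q) (gen (Pb c.Q) w)
  n0 : ‖w‖ ≤ Λ
  ng : ‖gen (Gb c.Q) w‖ ≤ Λ
  np : ‖gen (Pb c.Q) w‖ ≤ Λ
  ngp : ‖gen (Gb c.Q) (gen (Pb c.Q) w)‖ ≤ Λ

/-- bounds for the powers of `P_b` -/
def Pk0 (k : ℕ) (ψ : Completion D) (Λ : ℝ) : Prop :=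
  (∀ j < k, Dm (Pb c.Q) ((gen (Pb c.Q))^[j] ψ)) ∧ ∀ j ≤ k, ‖(gen (Pb c.Q))^[j] ψ‖ ≤ Λ

/-- the domains of `K`, `M`, `P` -/
def DK0 (ψ : Completion D) : Prop := Dm c.SK ψ ∧ (∀ i, Dm (Mi c.Q i) ψ) ∧ Dm (Pa c.Q) ψ

/-- smooth vectors for the group generated by `B`, `P_b`, `M^b` -/
def Sm0 (v : Completion D) : Prop := ContDiff ℝ ∞ fun q => c.gq q v

/-- the sum of the norms of the derivatives of order at most `k` -/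
def nq0 (k : ℕ) (v : Completion D) : ℝ :=
  ∑ j ∈ Finset.range (k + 1), ‖iteratedFDeriv ℝ j (fun q => c.gq q v) 0‖

/-- a good operator below the plane and to the right of the crossing leg -/
structure RX0 (a0 u0 : ℝ) (X : Completion D →L[ℂ] Completion D) : Prop where
  loc : ∃ y r, 0 < r ∧ dc y r ⊆ {z | be z < -u0 ∧ a0 + 2 < al z} ∧ X ∈ c.N (dc y r)
  good : c.Good X
  perp : inner ℂ c.Om (X c.Om) = 0

/-- row KP: pairs in a double cone below the plane and the operators `K_y` -/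
structure KP0 : Prop where
  dom : ∀ y r (u0 d0 : ℝ), 0 < r → 0 < u0 → 0 < d0 → dc y r ⊆ {z | be z < -u0 ∧ d0 < al z} →
    ∃ C : ℝ, 0 ≤ C ∧ ∀ ψ ψ', Pr (c.N (dc y r)) c.Om ψ ψ' → Dm (Bo c.Q) ψ →
      DK0 c ψ ∧ ‖gen c.SK ψ‖ ≤ C * (‖ψ‖ + ‖ψ'‖ + ‖gen (Bo c.Q) ψ‖)
  shift : ∀ y r (u0 d0 : ℝ) X (x : R2), 0 < r → 0 < u0 → 0 < d0 →
    dc y r ⊆ {z | be z < -u0 ∧ d0 < al z} → X ∈ c.N (dc y r) → c.Good X →
    ContinuousOn (fun u : ℝ => gen (c.Ky (tv x + u • vb)) (X c.Om)) (Set.Ioo (-u0) u0) ∧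
    ∀ η > 0, ∀ᶠ u in 𝓝 (0 : ℝ),
      ‖gen (c.Ky (tv x + u • vb)) (X c.Om) - gen (c.Ky (tv x)) (X c.Om)‖ ≤ η * Real.sqrt |u|

/-- row FLOW: thin tubes -/
def FLOW0 : Prop := ∀ R R' (m : R2 → ℝ) (κ f : P3 → ℝ) (ρ θ1 θ : ℝ → ℝ)
  (A : ℝ), Cv0 c R R' → Tst m → Tst κ → Tst f → Tst ρ → Tst θ1 → Tst θ → 0 < A →
  Tendsto (fun δ : ℝ => perp0 c (R' δ (pairF (sqm m (Real.sqrt (δ * A))) κ f ρ (thn θ1 θ δ) δ A)))
    (𝓝[>] 0) (𝓝 0)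

/-- row NEAR: the near part, uniformly in the width of the profile -/
structure NEAR0 : Prop where
  bd : ∀ R : S2 →L[ℂ] Completion D, Tra0 c R → ∃ k m : ℕ, ∀ (κ f : P3 → ℝ) (θ1 : ℝ → ℝ),
    Tst κ → Tst f → Tst θ1 → ∃ C : ℝ, 0 ≤ C ∧ ∀ ρ (δ A : ℝ) ψ (Λ : ℝ), Tst ρ →
    tsupport ρ ⊆ Set.Icc (-1) 1 → 0 < δ → δ ≤ 1 → 1 ≤ A → inner ℂ c.Om ψ = 0 → Pk0 c k ψ Λ →
    ‖inner ℂ (R (pairF sq2 κ f ρ θ1 δ A)) ψ‖ ≤ C * A ^ m * (∫ t, |ρ t|) * Λ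
  cau : ∀ R : S2 →L[ℂ] Completion D, Tra0 c R → ∃ k m : ℕ, ∀ (κ f : P3 → ℝ) (ρ θ1 : ℝ → ℝ),
    Tst κ → Tst f → Tst ρ → tsupport ρ ⊆ Set.Icc (-1) 1 → Tst θ1 → ∃ C : ℝ, 0 ≤ C ∧
    ∀ (δ δ' A : ℝ) ψ (Λ : ℝ), 0 < δ' → δ' ≤ δ → δ ≤ 1 → 1 ≤ A → inner ℂ c.Om ψ = 0 → Pk0 c k ψ Λ →
    ‖inner ℂ (R (pairF sq2 κ f ρ θ1 δ A)) ψ - inner ℂ (R (pairF sq2 κ f ρ θ1 δ' A)) ψ‖ ≤
      C * A ^ m * δ * Λ

end base

abbrev perp (c : Ctx D) := perp0 c.toBase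
abbrev Tra (c : Ctx D) := Tra0 c.toBase
abbrev Cv (c : Ctx D) := Cv0 c.toBase
abbrev Lw (c : Ctx D) := Lw0 c.toBase
abbrev Pk (c : Ctx D) := Pk0 c.toBase
abbrev DK (c : Ctx D) := DK0 c.toBase
abbrev Sm (c : Ctx D) := Sm0 c.toBase
abbrev nq (c : Ctx D) := nq0 c.toBase
abbrev RX (c : Ctx D) := RX0 c.toBase
abbrev KP (c : Ctx D) := KP0 c.toBase
abbrev FLOW (c : Ctx D) := FLOW0 c.toBase
abbrev NEAR (c : Ctx D) := NEAR0 c.toBase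

variable (c : Ctx D)

/-- the order prescribed by `w`; the first point carries `T_aa`, the second `W` -/
def R0 (w : ℝ → ℝ → I2 → I2 → S2 →L[ℂ] Completion D) : S2 →L[ℂ] Completion D :=
  ww0 (w c.tau c.tau)

/-- the order `W T_aa` of a kernel; the first point carries `T_aa` -/
def R1 (W : ℝ → ℝ → I2 → I2 → S2 →L[ℂ] Completion D) : S2 →L[ℂ] Completion D :=
  ww0 fun I J => W c.tau c.tau J I ∘L swp

/-- the first two parts of row `WK` for a given kernel -/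
def IsW (W : ℝ → ℝ → I2 → I2 → S2 →L[ℂ] Completion D) : Prop :=
  (∀ α β K M (f g : Sch) (F : S2), (∀ x y, F (x, y) = f x * g y) → W α β K M F =
    ((c.TT α K.1 K.2 (ev f) (c.TT β M.1 M.2 (ev g) c.Q.vac) : D) : Completion D)) ∧
  ∀ α β s L a K M (F G : S2), 0 < s → IsLor L →
    (∀ x y, G (x, y) = F (sim s L a x, sim s L a y)) →
    W (α + Real.log s) (β + Real.log s) K M F =
      ∑ K', ∑ M', (L2 L K' K * L2 L M' M) • Ug c.Q s L a (W α β K' M' G)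

/-- `T_aa` -/
def Taa (h : Fn) (v : D) : D := c.Tf (hk va va h) v

/-- the running member -/
abbrev rn (δ : ℝ) : Ctx D := c.sh (Real.log δ / 2)

/-- the error term of row `CONK` -/
def Err (w : ℝ → ℝ → I2 → I2 → S2 →L[ℂ] Completion D) (κ f : P3 → ℝ) (ρ θ1 θ : ℝ → ℝ) (δ L : ℝ)
    (ψ : Completion D) : ℂ :=
  inner ℂ (R0 c w (pairF sq2 κ f ρ θ1 δ L)) ψ - (∫ t, ρ t : ℝ) * c.AbW f (abv θ1 θ δ) ψ

/-- the data of row `CONK`; the crossing leg is supported in `al < a0`, `-u0 < be` -/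
structure Dat (w W : ℝ → ℝ → I2 → I2 → S2 →L[ℂ] Completion D) (κ f : P3 → ℝ) (ρ θ1 θ : ℝ → ℝ)
    (a0 u0 : ℝ) : Prop where
  tp : TP2 c.Q c.TT false w
  isW : IsW c W
  cut : Cut κ
  tf : Tst f
  tr : Tst ρ
  sr : tsupport ρ ⊆ Set.Icc (-1 / 2) (1 / 2)
  t1 : Tst θ1
  bump : Bump θ
  ha : a0 = -1
  hu : 0 < u0
  sf : tsupport f ⊆ {y | y.1 < a0}
  s1 : tsupport θ1 ⊆ Set.Ioi (-u0)

theorem Dat.sh {c : Ctx D} {w W κ f ρ θ1 θ a0 u0} (d : Dat c w W κ f ρ θ1 θ a0 u0) (x : ℝ) :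
    Dat (c.sh x) w W κ f ρ θ1 θ a0 u0 :=
  ⟨d.tp, d.isW, d.cut, d.tf, d.tr, d.sr, d.t1, d.bump, d.ha, d.hu, d.sf, d.s1⟩

/-- the spectator `ψ` can be moved past the two legs -/
structure Tri (f : P3 → ℝ) (θ1 : ℝ → ℝ) (a u0 : ℝ) (ψ : Completion D)
    (wR wL : Fin 4 → Completion D) : Prop where
  right : ∀ j h, In Set.univ h →
    inner ℂ ((c.Wf (pr (wt (pol j) f) θ1) (Taa c h c.Q.vac) : D) : Completion D) ψ =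
      inner ℂ ((Taa c h c.Q.vac : D) : Completion D) (wR j)
  left : ∀ j h, In {z | al z < -a ∧ -u0 < be z} h →
    inner ℂ ((Taa c h (c.Wf (pr (wt (pol j) f) θ1) c.Q.vac) : D) : Completion D) ψ =
      inner ℂ (wL j) ((Taa c (bar h) c.Q.vac : D) : Completion D)

/-! ## tools -/

/-- row NORM: norms of vectors created by one field -/
structure NORM : Prop where
  taa : ∀ d : ℝ, 0 < d → d ≤ 1 / 4 → ∃ C : ℝ, 0 ≤ C ∧ ∀ (x A B : ℝ) (g : P3 → ℂ) (φ : ℝ → ℂ),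
    Dc g → Dc φ → 0 < A → 0 < B → ‖(c.sh x).Tv (hk va va (pf g φ))‖ ≤
      C * NC.wd d (Real.exp (2 * (c.tau + x)) / (A * B)) * NC.N3 A (da g) * NC.N1 B φ
  low : ∀ g : P3 → ℂ, Dc g → ∃ C : ℝ, 0 ≤ C ∧ ∀ (φ : ℝ → ℂ) (s : ℝ), Dc φ → 0 < s → s ≤ 1 →
    c.nu (c.Tv (hk va va (pf g φ))) {p | al p < s} ≤ ENNReal.ofReal ((C * NC.n1 φ) ^ 2 * s)
  w : ∃ C : ℝ, 0 ≤ C ∧ ∀ (g : P3 → ℂ) (φ : ℝ → ℂ), Dc g → Dc φ →
    ‖c.Wv (pf g φ)‖ ≤ C * n2 (da (da (da g))) * n2 (deriv φ)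

/-- row TAIL: far annuli of the plane, uniformly in the profile and in the member -/
def TAIL : Prop := ∃ σ : ℝ, 0 < σ ∧ ∀ g, Tst g → ∃ C : ℝ, 0 ≤ C ∧
  ∀ x j ρ (A : ℝ) w (Λ : ℝ), Tst ρ → tsupport ρ ⊆ Set.Icc (-1) 1 → 1 ≤ A → Lw c w Λ →
    ‖inner ℂ ((Taa (c.sh x) (pr (wt (qol j) (kL g A)) ρ) c.Q.vac : D) : Completion D) w‖ ≤
      C * (1 + |x|) ^ c.n0 * A ^ (-σ) * (∫ t, |ρ t|) * Λ

/-- row CV: covariance and orderings -/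
structure CV : Prop where
  cvw : ∀ e w, TP2 c.Q c.TT e w → Cv c (R0 c w) fun s => R0 (rn c s) w
  cvW : ∀ W, IsW c W → Cv c (R1 c W) fun s => R1 (rn c s) W
  poly : ∀ e w, TP2 c.Q c.TT e w → ∃ J, ∀ F ψ, inner ℂ c.Om ψ = 0 →
    IsPol J fun x => inner ℂ (R0 (c.sh x) w F) ψ
  late : ∀ w W (F : S2), TP2 c.Q c.TT false w → IsW c W → tsupport F ⊆ U1 → R0 c w F = R1 c W F
  early : ∀ w W (F : S2), TP2 c.Q c.TT false w → IsW c W → tsupport F ⊆ U2 → R0 c w F = R0 c W F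
  prod : ∀ W (h g : Fn) (F : S2), IsW c W → IsTest h → IsTest g → (∀ x y, F (x, y) = h x * g y) →
    R0 c W F = ((Taa c h (c.Wf g c.Q.vac) : D) : Completion D) ∧
    R1 c W F = ((c.Wf g (Taa c h c.Q.vac) : D) : Completion D)
  pair : ∀ W (κ f : P3 → ℝ) (ρ θ1 : ℝ → ℝ) (δ L : ℝ), IsW c W → Tst κ → Tst f → Tst ρ → Tst θ1 →
    0 < δ → 0 < L →
    R0 c W (pairF sq2 κ f ρ θ1 δ L) = ∑ j, ((Taa c (pr (wt (qol j) (kL κ L)) (dlt δ ρ))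
      (c.Wf (pr (wt (pol j) f) θ1) c.Q.vac) : D) : Completion D) ∧
    R1 c W (pairF sq2 κ f ρ θ1 δ L) = ∑ j, ((c.Wf (pr (wt (pol j) f) θ1)
      (Taa c (pr (wt (qol j) (kL κ L)) (dlt δ ρ)) c.Q.vac) : D) : Completion D)

/-- row AB: the form above the plane is bounded -/
def AB : Prop := ∀ (f : P3 → ℝ) (θ1 θ : ℝ → ℝ), Tst f → Tst θ1 → Bump θ →
  ∃ C δ0 : ℝ, 0 ≤ C ∧ 0 < δ0 ∧ ∀ δ ψ, 0 < δ → δ ≤ δ0 → DK c ψ →
    ‖c.AbW f (abv θ1 θ δ) ψ‖ ≤ C * (‖ψ‖ + ‖gen c.SK ψ‖)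

/-- row GOODT: bounded approximants of the field with a tensor source -/
def GOODT : Prop := ∀ y r (F : TS) (m : ℕ) (η : ℝ), InT (dc y r) (evT F) → 0 < η → ∃ (F' : TS)
  (X : ℕ → Completion D →L[ℂ] Completion D), InT (dc y r) (evT F') ∧ snT m (F' - F) < η ∧
  (∀ n, X n ∈ c.N (dc y r) ∧ c.Good (X n)) ∧ ∀ (v : D) (k : ℕ),
    TendstoLocallyUniformly (fun n => iteratedFDeriv ℝ k fun q => c.gq q (X n v))
      (iteratedFDeriv ℝ k fun q => c.gq q (c.Tf (evT F') v : D)) atTop ∧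
    TendstoLocallyUniformly (fun n => iteratedFDeriv ℝ k fun q => c.gq q (star (X n) v))
      (iteratedFDeriv ℝ k fun q => c.gq q (c.Tf (barT (evT F')) v : D)) atTop

/-- row SMV: smooth vectors and good operators -/
structure SMV : Prop where
  sub : ∀ v w : Completion D, Sm c v → Sm c w → Sm c (v - w)
  dom : ∀ v : Completion D, Sm c v → Dm (Bo c.Q) v ∧ Dm (Pb c.Q) v ∧ Dm (Gb c.Q) v ∧ Sm c (gen (Bo c.Q) v) ∧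
    Sm c (gen (Pb c.Q) v) ∧ Sm c (gen (Gb c.Q) v)
  lw : ∀ v : Completion D, Sm c v →
    Lw c v (nq c 2 v) ∧ ‖gen (Bo c.Q) v‖ ≤ nq c 1 v ∧ ∀ k, Pk c k v (nq c k v)
  adj : ∀ X, c.Good X → c.Good (star X)
  scal : ∀ X (a : ℂ), c.Good X → c.Good (X - a • 1)
  app : ∀ X (v : Completion D), c.Good X → Sm c v → Sm c (X v)
  vac : Sm c c.Om
  lwx : ∀ X, c.Good X → ∃ C : ℝ, 0 ≤ C ∧ ∀ (v : Completion D) Λ, Lw c v Λ → Lw c (X v) (C * Λ)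
  fld : ∀ y r (F : TS) (m : ℕ) (η : ℝ), InT (dc y r) (evT F) → 0 < η → ∃ (F' : TS)
    (X : ℕ → Completion D →L[ℂ] Completion D), InT (dc y r) (evT F') ∧ snT m (F' - F) < η ∧
    (∀ n, X n ∈ c.N (dc y r) ∧ c.Good (X n) ∧ inner ℂ c.Om (X n c.Om) = 0) ∧ ∀ (v : D) (k : ℕ),
      Tendsto (fun n => nq c k (X n v - (c.Tf (evT F') v : D))) atTop (𝓝 0) ∧
      Tendsto (fun n => nq c k (star (X n) v - (c.Tf (barT (evT F')) v : D))) atTop (𝓝 0)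

/-- row LWF: the same bounds for vectors created by fields -/
structure LWF : Prop where
  one : ∃ (m : ℕ) (C : ℝ), 0 ≤ C ∧ ∀ g : Sch, Lw c (c.Wv (ev g)) (C * sn m g)
  pk : ∀ k, ∃ (m : ℕ) (C : ℝ), 0 ≤ C ∧ ∀ G : TS, Pk c k (c.Tv (evT G)) (C * snT m G)
  two : ∃ (m : ℕ) (C : ℝ), 0 ≤ C ∧ ∀ (f : Sch) (G : TS),
    Lw c ((c.Wf (ev f) (c.Tf (evT G) c.Q.vac) : D) : Completion D) (C * sn m f * snT m G) ∧
    Lw c ((c.Tf (evT G) (c.Wf (ev f) c.Q.vac) : D) : Completion D) (C * sn m f * snT m G)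

/-- row TRI: hermiticity and locality -/
structure TRI : Prop where
  com : ∀ (a u0 : ℝ) G H (v : D), InT {z | al z < a ∧ -u0 < be z} H →
    InT {z | be z ≤ -u0 ∧ a ≤ al z} G → c.Tf G (c.Tf H v) = c.Tf H (c.Tf G v)
  op : ∀ (a u0 : ℝ) y r X h (u v : D), dc y r ⊆ {z | be z < -u0 ∧ a < al z} → X ∈ c.N (dc y r) →
    In {z | al z < a ∧ -u0 < be z} h →
    inner ℂ ((c.Wf (bar h) u : D) : Completion D) (X (v : Completion D)) =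
      inner ℂ (u : Completion D) (X ((c.Wf h v : D) : Completion D)) ∧
    inner ℂ ((Taa c (bar h) u : D) : Completion D) (X (v : Completion D)) =
      inner ℂ (u : Completion D) (X ((Taa c h v : D) : Completion D))
  fld : ∀ (f : P3 → ℝ) (θ1 : ℝ → ℝ) (a u0 : ℝ) G, Tst f → Tst θ1 →
    InT {z | be z ≤ -u0 ∧ -a ≤ al z} G → Tri c f θ1 a u0 (c.Tv G)
      (fun j => (c.Wf (pr (wt (pol j) f) θ1) (c.Tf G c.Q.vac) : D))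
      (fun j => (c.Tf (barT G) (c.Wf (pr (wt (pol j) f) θ1) c.Q.vac) : D))
  opt : ∀ (f : P3 → ℝ) (θ1 : ℝ → ℝ) (a a0 u0 : ℝ) y r X, Tst f → Tst θ1 →
    tsupport f ⊆ {y | y.1 < a0} → tsupport θ1 ⊆ Set.Ioi (-u0) → -a ≤ a0 →
    dc y r ⊆ {z | be z < -u0 ∧ a0 < al z} → X ∈ c.N (dc y r) → Tri c f θ1 a u0 (X c.Om)
      (fun j => X (c.Wv (pr (wt (pol j) f) θ1))) (fun j => star X (c.Wv (pr (wt (pol j) f) θ1)))

/-- row `CONK` for a crossing leg to the left of the centre of the cut off -/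
def CONK0 : Prop := ∀ w (κ f : P3 → ℝ) (ρ θ1 θ : ℝ → ℝ) (f3 : Fn),
  TP2 c.Q c.TT false w → Cut κ → Tst f → tsupport f ⊆ {y | y.1 < -1} → Tst ρ →
  tsupport ρ ⊆ Set.Icc (-1 / 2) (1 / 2) → Tst θ1 →
  Bump θ → In {z | be z < 0} f3 → ∀ η > 0, ∀ᶠ δ in 𝓝[>] (0 : ℝ), ∀ᶠ L in atTop,
    ‖Err c w κ f ρ θ1 θ δ L (c.Wv f3)‖ ≤ η

/-- the tools of the block -/
structure Tools : Prop extends T3 c

theorem Tools.sh {c : Ctx D} (t : Tools c) (x : ℝ) : Tools (c.sh x) := ⟨t.toT3.sh x⟩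

/-! ## the proof -/

/-- row A1: the part above the plane, and the order `W T` -/
structure A1 : Prop where
  above : ∀ w W κ f ρ θ1 θ a0 u0 X, Dat c w W κ f ρ θ1 θ a0 u0 → RX c a0 u0 X → ∀ η > 0,
    ∀ᶠ δ in 𝓝[>] (0 : ℝ), ∀ x, ∀ᶠ L in atTop,
      ‖inner ℂ (R0 (c.sh x) w (pairF sq2 κ f ρ (abv θ1 θ δ) δ L)) (X c.Om) -
        (∫ t, ρ t : ℝ) * c.AbW f (abv θ1 θ δ) (X c.Om)‖ ≤ η
  order : ∀ w W κ f ρ θ1 θ a0 u0 X (φ : ℝ → ℝ) (δ x : ℝ), Dat c w W κ f ρ θ1 θ a0 u0 →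
    RX c a0 u0 X → Tst φ → tsupport φ ⊆ Set.Ioi (-u0) → 0 < δ → δ ≤ 1 →
    Tendsto (fun L => inner ℂ (R1 (c.sh x) W (pairF sq2 κ f ρ φ δ L)) (X c.Om)) atTop (𝓝 0)

/-- row A3: the far tubes, for the running member -/
def A3 : Prop := ∀ w W κ f ρ θ1 θ a0 u0 X (g : P3 → ℝ) (c0 : ℝ), Dat c w W κ f ρ θ1 θ a0 u0 →
  RX c a0 u0 X → Tst g → 0 < c0 → tsupport g ⊆ {y | y.1 ≤ -c0} →
  ∃ C σ A0 δ0 : ℝ, 0 < σ ∧ 0 < δ0 ∧ ∀ δ A, 0 < δ → δ ≤ δ0 → A0 ≤ A →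
    ‖inner ℂ ((R0 (rn c δ) w - R1 (rn c δ) W) (pairF sq2 g f ρ (thn θ1 θ δ) δ A)) (X c.Om)‖ ≤
      C * A ^ (-σ)

/-- row AR: the statement for good operators and the running member -/
def AR : Prop := ∀ w W κ f ρ θ1 θ a0 u0 X, Dat c w W κ f ρ θ1 θ a0 u0 → RX c a0 u0 X → ∀ η > 0,
  ∀ᶠ δ in 𝓝[>] (0 : ℝ), ∀ᶠ L in atTop,
    ‖inner ℂ (R0 (rn c δ) w (pairF sq2 κ f ρ θ1 δ L)) (X c.Om) -
      (∫ t, ρ t : ℝ) * c.AbW f (abv θ1 θ δ) (X c.Om)‖ ≤ η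

/-- row AA: the statement for good operators -/
def AA : Prop := ∀ w W κ f ρ θ1 θ a0 u0 X, Dat c w W κ f ρ θ1 θ a0 u0 → RX c a0 u0 X → ∀ η > 0,
  ∀ᶠ δ in 𝓝[>] (0 : ℝ), ∀ᶠ L in atTop, ‖Err c w κ f ρ θ1 θ δ L (X c.Om)‖ ≤ η

/-- row UB: uniform bounds -/
def UB : Prop := ∀ w W κ f ρ θ1 θ a0 u0, Dat c w W κ f ρ θ1 θ a0 u0 →
  ∃ (k m : ℕ) (C δ0 : ℝ), 0 ≤ C ∧ 0 < δ0 ∧ ∀ (a : ℝ) ψ wR wL (Λ δ L : ℝ), 1 ≤ a →
    inner ℂ c.Om ψ = 0 → Pk c k ψ Λ → DK c ψ → ‖gen c.SK ψ‖ ≤ Λ → Tri c f θ1 a u0 ψ wR wL →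
    (∀ j, Lw c (wR j) Λ ∧ Lw c (wL j) Λ) → 0 < δ → δ ≤ δ0 → 1 ≤ L →
    ‖Err c w κ f ρ θ1 θ δ L ψ‖ ≤ C * a ^ m * Λ

/-- row UF: uniform bounds for fields below the plane -/
def UF : Prop := ∀ w W κ f ρ θ1 θ a0 u0 (b1 : ℝ), Dat c w W κ f ρ θ1 θ a0 u0 →
  ∃ (m : ℕ) (C δ0 : ℝ), 0 ≤ C ∧ 0 < δ0 ∧ ∀ (a : ℝ) (G : TS) (δ L : ℝ), 1 ≤ a →
    InT {z | b1 ≤ be z ∧ be z ≤ -u0 ∧ -a ≤ al z} (evT G) → 0 < δ → δ ≤ δ0 → 1 ≤ L →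
    DK c (c.Tv (evT G)) ∧ ‖Err c w κ f ρ θ1 θ δ L (c.Tv (evT G))‖ ≤ C * a ^ m * snT m G

/-- row UW: the same for `W` -/
def UW : Prop := ∀ w W κ f ρ θ1 θ a0 u0 (b1 : ℝ), Dat c w W κ f ρ θ1 θ a0 u0 →
  ∃ (m : ℕ) (C δ0 : ℝ), 0 ≤ C ∧ 0 < δ0 ∧ ∀ (a : ℝ) (g : Sch) (δ L : ℝ), 1 ≤ a →
    In {z | b1 ≤ be z ∧ be z ≤ -u0 ∧ -a ≤ al z} (ev g) → 0 < δ → δ ≤ δ0 → 1 ≤ L →
    DK c (c.Wv (ev g)) ∧ ‖Err c w κ f ρ θ1 θ δ L (c.Wv (ev g))‖ ≤ C * a ^ m * sn m g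

/-- row RF: the statement for fields to the right -/
def RF : Prop := ∀ w W κ f ρ θ1 θ a0 u0 (g : Fn), Dat c w W κ f ρ θ1 θ a0 u0 →
  In {z | be z < -u0 ∧ a0 + 2 < al z} g → ∀ η > 0,
  ∀ᶠ δ in 𝓝[>] (0 : ℝ), ∀ᶠ L in atTop, ‖Err c w κ f ρ θ1 θ δ L (c.Wv g)‖ ≤ η

end

end Vale.Agent.P352L.CK
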