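import Vale.Agent.P352X.R.CONK.Tri
import Vale.Agent.P352X.R.CONK.LWF
import Vale.Agent.P352X.Api2c
import Vale.Agent.P352X.Api4
import Vale.Agent.P352L.CK.Spec
import Vale.Agent.P352L.R.GEN
import Vale.Agent.P352L.R.GRP.C
import Vale.Agent.P352L.Api1C

/-!
# P352L, block CONK: tensor sources, the field `W`, row TRI (helper57)
-/

set_option linter.all false

open MeasureTheory Filter Topology Set
open scoped ContDiff SchwartzMap

namespace Vale.Agent.P352L.CK

open Vale.Agent.P352X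
open Vale.Agent.P352 Vale.Agent.P352.GF Vale.Agent.P352.BW Vale.Agent.P352.H246
open Vale.Agent.P352.H496 Vale.Agent.P352.H755
open H148 (Od)
open UniformSpace (Completion)

export Vale.Agent.P352X.CK (smooth_pol smooth_qol tst_wt tsupport_wt comm_sum sep_of)

noncomputable section

/-! ### tensors -/

variable {O O' : Set V} {F G : Ix → Ix → Fn} {f g : Fn}

theorem InT.tst (h : InT O F) : TsT F := fun m n => (h m n).1

theorem InT.mono (h : InT O F) (e : O ⊆ O') : InT O' F := fun m n => Ap.in_mono (h m n) e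

theorem InT.bar (h : InT O F) : InT O (barT F) := fun m n => Ap.in_bar (h m n)

theorem TsT.bar (h : TsT F) : TsT (barT F) := fun m n => Ap.test_bar (h m n)

theorem barT_barT (F : Ix → Ix → Fn) : barT (barT F) = F := by
  funext m n
  exact Ap.bar_bar _

theorem tsT_ev (G : TS) : TsT (evT G) := fun _ _ => ⟨_, rfl⟩

theorem TsT.ex (h : TsT F) : ∃ G : TS, evT G = F := by
  choose G hG using h
  exact ⟨fun I => G I.1 I.2, funext fun m => funext fun n => hG m n⟩

theorem inT_hk (h : In O f) (a b : V) : InT O (hk a b f) := Ap.in_hk a b h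

theorem tsT_hk (h : IsTest f) (a b : V) : TsT (hk a b f) := Ap.test_hk a b h

theorem barT_hk (a b : V) (f : Fn) : barT (hk a b f) = hk a b (bar f) := by
  funext m n
  exact Ap.bar_hk a b f m n

theorem inT_hW (h : In O f) : InT O (hW f) := fun m n =>
  Ap.in_add (Ap.in_cmul _ (Ap.in_dv _ (Ap.in_dv _ h))) (Ap.in_cmul _ (Ap.in_box h))

theorem tsT_hW (h : IsTest f) : TsT (hW f) := test_hW h

theorem dv_bar' (h : IsTest f) (a : V) : dv a (bar f) = bar (dv a f) :=
  funext fun x => Ap.dv_bar (Ap.sw_diff h x) a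

theorem box_bar (h : IsTest f) : box (bar f) = bar (box f) := by
  funext x
  simp only [box, ← Ap.dv_bas, dv_bar' h, dv_bar' (Ap.test_dv _ h), bar, star_sum, star_mul',
    Complex.star_def, Complex.conj_ofReal]

theorem barT_hW (h : IsTest f) : barT (hW f) = hW (bar f) := by
  funext m n x
  simp only [barT, hW, dv_bar' h, dv_bar' (Ap.test_dv _ h), box_bar h]
  simp only [bar, hW, star_add, star_mul', Complex.star_def, Complex.conj_ofReal]

theorem hW_tr (a : V) (f : Fn) (m n : Ix) :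
    hW (fun x => f (x + a)) m n = fun x => hW f m n (x + a) := by
  have e : ∀ h (f : Fn), dv h (fun x => f (x + a)) = fun x => dv h f (x + a) := fun h f =>
    funext (Ap.dv_tr a h f)
  funext x
  simp only [hW, box, ← Ap.dv_bas, e]

/-- the source of `W` -/
def hWS : Sch →L[ℂ] TS := ContinuousLinearMap.pi fun I => hD i0 I

theorem evT_hWS (g : Sch) : evT (hWS g) = hW (ev g) := by
  funext m n
  exact ev_hD (m, n) g

theorem snT_nonneg (m : ℕ) (G : TS) : 0 ≤ snT m G :=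
  Finset.sum_nonneg fun _ _ => Lie.sn_nonneg _ _

theorem le_snT (m : ℕ) (G : TS) (I : I2) : sn m (G I) ≤ snT m G :=
  Finset.single_le_sum (f := fun I => sn m (G I)) (fun _ _ => Lie.sn_nonneg _ _) (Finset.mem_univ I)

theorem snT_mono {k m : ℕ} (h : k ≤ m) (G : TS) : snT k G ≤ snT m G :=
  Finset.sum_le_sum fun _ _ => Lie.sn_mono h _

theorem sn_clm (A : Sch →L[ℂ] Sch) (m : ℕ) :
    ∃ (k : ℕ) (C : ℝ), 0 ≤ C ∧ ∀ g, sn m (A g) ≤ C * sn k g :=
  have h : Continuous fun g : Sch => sn m (A g) := by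
    simp only [Api4.sn_eq]
    exact (ST.continuous_sn m).comp A.continuous
  let q : Seminorm ℂ Sch := (Finset.Iic (m, m)).sup fun k => SchwartzMap.seminorm ℂ k.1 k.2
  Lie.clm (q.comp A.toLinearMap) h

theorem snT_hWS (m : ℕ) : ∃ (k : ℕ) (C : ℝ), 0 ≤ C ∧ ∀ g, snT m (hWS g) ≤ C * sn k g := by
  choose k C C0 h using fun I => sn_clm (hD i0 I) m
  refine ⟨Finset.univ.sup k, ∑ I, C I, Finset.sum_nonneg fun I _ => C0 I, fun g => ?_⟩
  rw [Finset.sum_mul]
  exact Finset.sum_le_sum fun I _ => (h I g).trans (mul_le_mul_of_nonneg_left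
    (Lie.sn_mono (Finset.le_sup (Finset.mem_univ I)) g) (C0 I))

variable {D : Type*} [NormedAddCommGroup D] [InnerProductSpace ℂ D] {c : Ctx D}

/-! ### the field with a tensor source -/

theorem T_fld (c : Ctx D) (m n : Ix) : c.Q.fld (c.T m n) := Grp.T_fld c.hT m n

theorem Tf_eq (F : Ix → Ix → Fn) (v : D) : c.Tf F v = ∑ I : I2, c.T I.1 I.2 (F I.1 I.2) v := by
  rw [Fintype.sum_prod_type, Ctx.Tf]

/-- the field as a continuous linear map -/
def TfL (c : Ctx D) (v : D) : TS →L[ℂ] D :=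
  ∑ I : I2, Grp.fC (T_fld c I.1 I.2) v ∘L ContinuousLinearMap.proj I

theorem TfL_apply (v : D) (G : TS) : TfL c v G = c.Tf (evT G) v := by
  rw [Tf_eq, TfL, ContinuousLinearMap.sum_apply]
  rfl

/-- the same with values in the Hilbert space -/
def TL (c : Ctx D) (v : D) : TS →L[ℂ] Completion D := Completion.toComplL ∘L TfL c v

theorem TL_apply (v : D) (G : TS) : TL c v G = (c.Tf (evT G) v : D) :=
  congrArg (fun u : D => (u : Completion D)) (TfL_apply v G)

theorem Tv_sub (G G' : TS) : c.Tv (evT (G - G')) = c.Tv (evT G) - c.Tv (evT G') := by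
  simp only [Ctx.Tv, ← TL_apply, map_sub]

theorem Tf_lin (a : ℂ) (hF : TsT F) (hG : TsT G) (v : D) :
    c.Tf (fun m n x => F m n x + a * G m n x) v = c.Tf F v + a • c.Tf G v := by
  simp only [Ctx.Tf, c.Q.lin _ _ _ a _ (T_fld c _ _) (hF _ _) (hG _ _), Finset.sum_add_distrib,
    Finset.smul_sum]

theorem Tf_herm (hF : TsT F) (u v : D) : inner ℂ (c.Tf F u) v = inner ℂ u (c.Tf (barT F) v) := by
  simp only [Ctx.Tf, sum_inner, inner_sum, c.hT.herm _ _ _ _ _ (hF _ _), barT]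

theorem T_lin (m n : Ix) (hf : IsTest f) : IsLinearMap ℂ (c.T m n f) := by
  have e : ∀ w v, inner ℂ w (c.T m n f v) = inner ℂ (c.T m n (bar f) w) v := fun w v => by
    rw [c.hT.herm m n _ _ _ (Ap.test_bar hf), Ap.bar_bar]
  exact ⟨fun u v => ext_inner_left ℂ fun w => by simp only [e, inner_add_right],
    fun a v => ext_inner_left ℂ fun w => by simp only [e, inner_smul_right]⟩

theorem Tf_com (hF : TsT F) (hG : TsT G) (s : ∀ m n k l, Sep (F m n) (G k l)) (v : D) :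
    c.Tf F (c.Tf G v) = c.Tf G (c.Tf F v) := by
  have := comm_sum (A := fun I : I2 => c.T I.1 I.2 (F I.1 I.2))
    (B := fun I : I2 => c.T I.1 I.2 (G I.1 I.2)) (fun _ => 1) (fun _ => 1)
    (fun _ => T_lin _ _ (hF _ _)) (fun _ => T_lin _ _ (hG _ _)) (fun I J v =>
      c.Q.loc _ _ _ _ v (c.hT.bose _ _) (T_fld c _ _) (hF _ _) (hG _ _) (s _ _ _ _)) v
  simpa only [one_smul, ← Tf_eq] using this

theorem perp_Tv (g : GRP c) (hF : TsT F) : inner ℂ c.Om (c.Tv F) = 0 := by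
  rw [Ctx.Tv, Base.Om, om, Completion.inner_coe]
  simp only [Ctx.Tf, inner_sum, g.perp _ _ _ (hF _ _), Finset.sum_const_zero]

theorem hk_bas (I : I2) (hf : IsTest f) (v : D) :
    c.Tf (hk (bas I.1 (eta I.1)) (bas I.2 (eta I.2)) f) v = c.T I.1 I.2 f v := by
  have e : ∀ m, eta m * eta m = 1 := fun m => by unfold eta; split_ifs <;> simp
  rw [Ctx.Tf, Grp.T_hk c.hT _ _ hf]
  simp [bas, e]

theorem Tv_eq (hF : TsT F) :
    c.Tv F = ∑ I : I2, c.Tv (hk (bas I.1 (eta I.1)) (bas I.2 (eta I.2)) (F I.1 I.2)) := by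
  simp only [Ctx.Tv, hk_bas _ (hF _ _)]
  rw [Tf_eq]
  exact map_sum (Completion.toComplL (𝕜 := ℂ)) _ _

theorem Tv_tr (g : GRP c) (a : V) (hF : TsT F) :
    Ut c.Q a (c.Tv fun m n z => F m n (z + a)) = c.Tv F := by
  have t : TsT fun m n z => F m n (z + a) := fun m n => Ap.sw_tr a (hF m n)
  rw [Tv_eq hF, Tv_eq t, map_sum]
  refine Finset.sum_congr rfl fun I _ => ?_
  have := g.ten1 GF.one a (bas I.1 (eta I.1)) (bas I.2 (eta I.2)) _ c.Q.vac H496.isLor_one
    (hF I.1 I.2)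
  simp only [sim_ut, add_zero, c.Q.U_vac _ _ _ one_pos H496.isLor_one] at this
  rw [Ctx.Tv, Ut, g.coe _ _ _ _ one_pos H496.isLor_one, this, Ctx.Tv]

/-! ### `T_aa` -/

theorem Taa_eq {h : Fn} (hh : IsTest h) (v : D) : Taa c h v =
    ∑ I : I2, ((la I.1 * la I.2 : ℝ) : ℂ) • c.T I.1 I.2 h v := by
  rw [Fintype.sum_prod_type]
  exact Grp.T_hk c.hT va va hh v

theorem Taa_sum {ι : Type*} (t : Finset ι) (a : ι → ℂ) {f : ι → Fn} (hf : ∀ i, IsTest (f i))
    (v : D) : Taa c (fun z => ∑ i ∈ t, a i * f i z) v = ∑ i ∈ t, a i • Taa c (f i) v := by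
  simp only [Taa_eq (P352X.Grp.test_sum t a hf), Taa_eq (hf _),
    Grp.fld_sum (T_fld c _ _) t a hf, Finset.smul_sum]
  rw [Finset.sum_comm (s := t)]
  exact Finset.sum_congr rfl fun n _ => Finset.sum_congr rfl fun i _ => smul_comm _ _ _

theorem Taa_smul (a : ℂ) (hf : IsTest f) (v : D) :
    Taa c (fun z => a * f z) v = a • Taa c f v := by
  simpa using Taa_sum (c := c) {()} (fun _ => a) (fun _ => hf) v

theorem Taa_lin (a : ℂ) (hf : IsTest f) (hg : IsTest g) (v : D) :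
    Taa c (fun x => f x + a * g x) v = Taa c f v + a • Taa c g v := by
  rw [Taa, Taa, Taa, ← Tf_lin a (tsT_hk hf _ _) (tsT_hk hg _ _)]
  congr 1
  funext m n x
  simp only [hk]
  ring

theorem taa_herm {h : Fn} (hh : IsTest h) (u v : D) :
    inner ℂ (Taa c h u) v = inner ℂ u (Taa c (bar h) v) := by
  rw [Taa, Tf_herm (tsT_hk hh _ _), barT_hk, Taa]

theorem usc_Tv (hg : GRP c) {g : P3 → ℝ} {ρ : ℝ → ℝ} (h1 : Tst g) (h2 : Tst ρ) {L : ℝ}
    (hL : 0 < L) : Usc c.Q L 1 (c.Tv (hk va va (pr g ρ))) =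
      (L : ℂ) • (rn c L).Tv (hk va va (pr (kL g L) ρ)) := by
  obtain ⟨hΛ, hs⟩ := hg.lsc L 1 hL one_pos
  have hq : 0 < Real.sqrt (L * 1) := Real.sqrt_pos.2 (by positivity)
  have hq' : 0 < Real.sqrt L := Real.sqrt_pos.2 hL
  have ht := Ap.test_pr (Ap.tst_kL h1 hL) h2
  set Λ := bst va vb (Real.sqrt (L / 1) - 1) (Real.sqrt (1 / L) - 1)
  have e1 : (fun x => pr (kL g L) ρ (sim (Real.sqrt (L * 1)) Λ 0 x)) = pr g ρ := by
    funext x
    rw [hs]
    simp only [pr, kL, pl_1, pl_2, al_scp, be_scp, tx_scp, mul_one, one_mul, smul_smul]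
    rw [inv_mul_cancel₀ hq'.ne', one_smul, mul_div_cancel_left₀ _ hL.ne']
    rfl
  have e2 : sim 1 Λ 0 va = Real.sqrt L • va := by
    have h3 : Real.sqrt L • sim 1 Λ 0 va = L • va := by
      have : scp L 1 va = L • va := null_ext (by simp) (by simp) (by simp)
      rw [← this, ← hs]
      funext n
      simp [sim]
    have h4 : L • va = Real.sqrt L • Real.sqrt L • va := by
      rw [smul_smul, Real.mul_self_sqrt hL.le]
    exact smul_right_injective _ hq'.ne' (h3.trans h4)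
  have := hg.ten _ Λ 0 va va _ c.Q.vac hq hΛ ht
  rw [e1, e2, c.Q.U_vac _ _ _ hq hΛ, mul_one, Real.log_sqrt hL.le] at this
  rw [Ctx.Tv, Usc, hg.coe _ _ _ _ hq hΛ, mul_one, this, Ctx.Tv, ← Completion.coe_smul]
  refine congrArg _ (Eq.trans ?_ (Taa_smul (c := rn c L) L ht c.Q.vac))
  rw [Taa]
  congr 1
  funext m n x
  simp only [hk, Pi.smul_apply, smul_eq_mul]
  rw [← mul_assoc _ (L : ℂ), ← Complex.ofReal_mul]
  congr 2
  linear_combination (eta m * va m * (eta n * va n)) * Real.mul_self_sqrt hL.le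

/-! ### `W` -/

theorem Wf_ev (g : Sch) (v : D) : c.Wf (ev g) v = TfL c v (hWS g) := by
  rw [TfL_apply, evT_hWS, Ctx.Wf]

theorem wf_herm {h : Fn} (hh : IsTest h) (u v : D) :
    inner ℂ (c.Wf h u) v = inner ℂ u (c.Wf (bar h) v) := by
  rw [Ctx.Wf, Tf_herm (tsT_hW hh), barT_hW hh, Ctx.Wf]

theorem od_W (c : Ctx D) : Od c.Wf c.Wf where
  lin f g a v hf hg := by
    obtain ⟨f, rfl⟩ := hf
    obtain ⟨g, rfl⟩ := hg
    rw [show (fun x => ev f x + a * ev g x) = ev (f + a • g) from rfl, Wf_ev, Wf_ev, Wf_ev,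
      map_add, map_add, map_smul, map_smul]
  cont v := by
    simp only [Wf_ev]
    exact (TfL c v).continuous.comp hWS.continuous
  adj f v w hf := wf_herm hf v w

theorem Wv_ev (g : Sch) : c.Wv (ev g) = c.Tv (evT (hWS g)) := by rw [evT_hWS]; rfl

theorem Wv_sub (G G' : Sch) : c.Wv (ev (G - G')) = c.Wv (ev G) - c.Wv (ev G') := by
  rw [Wv_ev, Wv_ev, Wv_ev, map_sub, Tv_sub]

theorem Wv_add (hf : IsTest f) (hg : IsTest g) :
    c.Wv (fun x => f x + g x) = c.Wv f + c.Wv g := by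
  have := (od_W c).lin f g 1 c.Q.vac hf hg
  simp only [one_mul, one_smul] at this
  rw [Ctx.Wv, this, Completion.coe_add]
  rfl

theorem Wv_zero : c.Wv (fun _ => 0) = 0 := by
  simpa using Wv_add (c := c) Ap.sw_zero Ap.sw_zero

theorem perp_Wv (g : GRP c) (hf : IsTest f) : inner ℂ c.Om (c.Wv f) = 0 := perp_Tv g (tsT_hW hf)

theorem Wv_tr (g : GRP c) (a : V) (hf : IsTest f) :
    Ut c.Q a (c.Wv fun z => f (z + a)) = c.Wv f := by
  refine Eq.trans (congrArg (fun F => Ut c.Q a (c.Tv F)) ?_) (Tv_tr g a (tsT_hW hf))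
  funext m n
  exact hW_tr a f m n

theorem Wf_sh (h : WX c) (x : ℝ) (hf : IsTest f) (v : D) : (c.sh x).Wf f v = c.Wf f v :=
  h x _ v (test_hW hf) (RR_hW hf)

theorem Wv_sh (h : WX c) (x : ℝ) (hf : IsTest f) : (c.sh x).Wv f = c.Wv f :=
  congrArg (fun u : D => (u : Completion D)) (Wf_sh h x hf c.Q.vac)

/-! ### row TRI -/

/-- weak commutation with operators in the opposite wedge -/
theorem op_wdg (t : T1 c) {a u0 : ℝ} {X} (u v : D) (hO : O ⊆ {z | be z < -u0 ∧ a < al z})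
    (hX : X ∈ c.N O) (hh : InT {z | al z < a ∧ -u0 < be z} F) :
    inner ℂ ((c.Tf (barT F) u : D) : Completion D) (X (v : Completion D)) =
      inner ℂ (u : Completion D) (X ((c.Tf F v : D) : Completion D)) := by
  have hX' : X ∈ (c.N {z | al z < a ∧ -u0 < be z}).commutant :=
    t.jc.loc (y := pt a (-u0) 0) null_vb null_va (by rw [md_vb]; simp)
      (fun z hz => ⟨by rw [md_vb]; simpa using hz.1, by rw [md_va]; simp; linarith [hz.2]⟩)
      (fun z hz => ⟨by rw [md_va]; simp; linarith [(hO hz).1], by rw [md_vb]; simpa using (hO hz).2⟩)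
      X hX
  exact (t.grp.afft _ _ hh).2 X hX' v u

theorem com_T {a u0 : ℝ} (v : D) (hh : InT {z | al z < a ∧ -u0 < be z} F)
    (hg : InT {z | be z ≤ -u0 ∧ a ≤ al z} G) : c.Tf G (c.Tf F v) = c.Tf F (c.Tf G v) :=
  Tf_com hg.tst hh.tst (fun _ _ _ _ => sep_of (hh _ _).2.2 (hg _ _).2.2) v

theorem tri_of (t : T1 c) : TRI c := by
  have op : ∀ (a u0 : ℝ) y r X h (u v : D), dc y r ⊆ {z | be z < -u0 ∧ a < al z} →
      X ∈ c.N (dc y r) → In {z | al z < a ∧ -u0 < be z} h →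
      inner ℂ ((c.Wf (bar h) u : D) : Completion D) (X (v : Completion D)) =
        inner ℂ (u : Completion D) (X ((c.Wf h v : D) : Completion D)) ∧
      inner ℂ ((Taa c (bar h) u : D) : Completion D) (X (v : Completion D)) =
        inner ℂ (u : Completion D) (X ((Taa c h v : D) : Completion D)) :=
    fun a u0 y r X h u v hO hX hh => ⟨by
      simpa only [barT_hW hh.1, Ctx.Wf] using op_wdg t u v hO hX (inT_hW hh), by
      simpa only [barT_hk, Taa] using op_wdg t u v hO hX (inT_hk hh va va)⟩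
  refine ⟨fun a u0 G H v hh hg => com_T v hh hg, op, fun f θ1 a u0 g hf hθ hg => ?_,
    fun f θ1 a a0 u0 y r X hf hθ sf sθ ha hO hX => ?_⟩
  · have k := fun j => Ap.test_pr (tst_wt (smooth_pol j) hf) hθ
    refine ⟨fun j h _ => ?_, fun j h hh => ?_⟩
    · rw [Ctx.Tv, Completion.inner_coe, Completion.inner_coe, wf_herm (k j), Ap.bar_pr]
    · rw [Ctx.Tv, Completion.inner_coe, Completion.inner_coe, taa_herm hh.1,
        Tf_herm hg.tst.bar, barT_barT, Taa, Taa, com_T _ (inT_hk (Ap.in_bar hh) va va) hg]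
  · have k : ∀ j, In {z | al z < a0 ∧ -u0 < be z} (pr (wt (pol j) f) θ1) := fun j =>
      P352X.CK.in_pr (tst_wt (smooth_pol j) hf) hθ ((tsupport_wt _ _).trans sf) sθ
    refine ⟨fun j h _ => ?_, fun j h hh => ?_⟩
    · have := (op _ _ _ _ _ _ (Taa c h c.Q.vac) c.Q.vac hO hX (k j)).1
      rwa [Ap.bar_pr] at this
    · have := (op _ _ _ _ _ _ (c.Wf (pr (wt (pol j) f) θ1) c.Q.vac) c.Q.vac hO hX
        (Ap.in_mono (Ap.in_bar hh) fun z hz => ⟨hz.1.trans_le ha, hz.2⟩)).2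
      rw [Ap.bar_bar] at this
      rw [star_inner]
      exact this

theorem Tools.tri (t : Tools c) : TRI c := tri_of t.toT1

end

end Vale.Agent.P352L.CK
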