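import Vale.Agent.P352L.R.GOOD
import Vale.Agent.P352L.CK.Fld

/-!
# P352L, block CONK: bounded approximants of the field with a tensor source (helper57)
-/

set_option linter.all false

noncomputable section

open Filter Topology Metric Set MeasureTheory
open scoped SchwartzMap ContDiff

namespace Vale.Agent.P352L.CK

open Vale.Agent.P352X
open Vale.Agent.P352 Vale.Agent.P352.GF Vale.Agent.P352.BW Vale.Agent.P352.H246
open Vale.Agent.P352.H496 Vale.Agent.P352.H755 Vale.Agent.P352.H15
open UniformSpace (Completion)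

namespace Gt

open Vale.Agent.P352L.Gd hiding Cv Sm orb sm_orb half ud ud_coe tf tf_apply

variable {D : Type*} [NormedAddCommGroup D] [InnerProductSpace ℂ D] {c : Ctx D}

/-- the linear part of the point map -/
def Lp (p : Q3) : Ix → V := fun k => sg p (GF.one k) - sg p 0

theorem ct_Lp (k m : Ix) : Continuous fun p => Lp p k m :=
  have a : ∀ z, Continuous fun p => sg p z := fun z =>
    sm_sg.continuous.comp (continuous_id.prodMk continuous_const)
  (continuous_apply m).comp ((a _).sub (a _))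

/-- `U` is the Poincare transformation with point map `τ` -/
def Im (c : Ctx D) (U : Completion D →L[ℂ] Completion D) (τ : V → V) : Prop :=
  ∃ L a, IsLor L ∧ U = Ug c.Q 1 L a ∧ ∀ z, sim 1 L a z = τ z

theorem Im.mul (g : GRP c) {U U' τ τ'} (h : Im c U τ) (h' : Im c U' τ') :
    Im c (U * U') fun z => τ (τ' z) := by
  obtain ⟨L, a, h1, rfl, h2⟩ := h
  obtain ⟨L', a', h3, rfl, h4⟩ := h'
  refine ⟨_, sim 1 L a a', ue_lor h1 h3, by
    simpa only [mul_one] using g.mul _ _ a _ _ a' one_pos one_pos h1 h3, fun z => ?_⟩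
  simpa only [mul_one, h2, h4] using P352X.Grp.sim_mul 1 1 L L' a a' z

theorem gq_ug (g : GRP c) (p : Q3) : IsLor (Lp p) ∧ c.gq p = Ug c.Q 1 (Lp p) (sg p 0) ∧
    ∀ z, sim 1 (Lp p) (sg p 0) z = sg p z := by
  have a := g.lsc _ _ (Real.exp_pos p.1) (Real.exp_pos (-p.1))
  rw [Gen.sq1] at a
  have b : Im c (c.gq p) (sg p) := by
    have := (Im.mul g ⟨_, _, a.1, rfl, a.2⟩ (⟨_, p.2.1 • vb, H496.isLor_one, rfl, fun z =>
      (sim_one _ z).trans (add_comm _ _)⟩ : Im c _ fun z => z + p.2.1 • vb)).mul g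
      ⟨_, _, (g.lgb p.2.2).1, rfl, (g.lgb p.2.2).2⟩
    convert this using 1
    · rw [Base.gq, Bo, Usc, Gen.sq1]
      rfl
    · exact funext fun z => null_ext (by simp [sg]) (by simp [sg]) (by simp [sg, Gen.sq1])
  obtain ⟨L, y, h1, h2, h3⟩ := b
  obtain rfl : y = sg p 0 := (P352X.Grp.sim_zero 1 L y).symm.trans (h3 0)
  obtain rfl : L = Lp p := funext fun k => by
    rw [Lp, ← h3 (GF.one k), ← Gen.sim_bas L k]
    funext n
    simp [sim]
  exact ⟨h1, h2, h3⟩

/-- the action on `D` -/
def ud (c : Ctx D) (p : Q3) : D → D := c.Q.U 1 (Lp p) (sg p 0)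

theorem ud_coe (g : GRP c) (p : Q3) (v : D) : c.gq p v = ud c p v := by
  rw [(gq_ug g p).2.1, g.coe _ _ _ _ one_pos (gq_ug g p).1, ud]

/-- the transformed tensor -/
def FS (F : TS) (p : Q3) : TS := fun K =>
  ∑ I : I2, ((Lp p K.1 I.1 * Lp p K.2 I.2 : ℝ) : ℂ) • fs (F I) p

variable {F : TS}

theorem FS_apply (cf : ∀ I, HasCompactSupport (F I)) (p K z) : FS F p K z =
    ∑ I : I2, ((Lp p K.1 I.1 * Lp p K.2 I.2 : ℝ) : ℂ) * F I (sg p z) := by
  simp only [FS, SchwartzMap.sum_apply, SchwartzMap.smul_apply, fs_apply (cf _), smul_eq_mul]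

theorem ct_FS (cf : ∀ I, HasCompactSupport (F I)) : Continuous (FS F) :=
  continuous_pi fun K => continuous_finset_sum _ fun I _ =>
    (Complex.continuous_ofReal.comp ((ct_Lp _ _).mul (ct_Lp _ _))).smul (ct_fs (cf I))

theorem FS_zero (cf : ∀ I, HasCompactSupport (F I)) : FS F 0 = F := by
  funext K
  ext z
  rw [FS_apply cf, Fintype.sum_prod_type]
  simp [Lp, sg_zero, GF.one, bas, apply_ite Complex.ofReal]

theorem orb (g : GRP c) (cf : ∀ I, HasCompactSupport (F I)) (v : D) (p : Q3) :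
    ((c.Tf (evT F) (ud c p v) : D) : Completion D) = c.gq p (TL c v (FS F p)) := by
  obtain ⟨h1, -, h3⟩ := gq_ug g p
  have e : ∀ I, (fun x => ev (F I) (sim 1 (Lp p) (sg p 0) x)) = ev (fs (F I) p) := fun I =>
    funext fun x => by rw [h3]; exact (fs_apply (cf I) p x).symm
  have k := fun (I : I2) => c.hF.cov c.tau I.1 I.2 1 _ (sg p 0) _ v one_pos h1 ⟨F I, rfl⟩
  simp only [Real.log_one, add_zero, e, ← ueI_apply one_pos h1] at k
  rw [TL_apply, ud_coe g, ud, ← ueI_apply one_pos h1, ← ueI_apply one_pos h1, Tf_eq, ← TfL_apply]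
  refine congrArg (fun u : D => (u : Completion D)) ?_
  simp only [evT, k, TfL, ContinuousLinearMap.sum_apply, map_sum, FS,
    ContinuousLinearMap.comp_apply, ContinuousLinearMap.proj_apply, map_smul]
  refine Eq.trans (Finset.sum_congr rfl fun I _ => ?_) Finset.sum_comm
  rw [Fintype.sum_prod_type]
  refine Finset.sum_congr rfl fun i _ => Finset.sum_congr rfl fun j _ => ?_
  rw [Complex.ofReal_mul]
  rfl

theorem sint' {Φ : Q3 → Sch} (hΦ : Continuous Φ) {h : Q3 → ℝ} (sh : Continuous h)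
    (ch : HasCompactSupport h) : ST.SInt (fun p => h p • Φ p) volume :=
  have k := sh.fun_smul hΦ
  .of_continuous k fun a b => ⟨_, (((schwartz_withSeminorms ℝ V ℂ).continuous_seminorm
    (a, b)).comp k).integrable_of_hasCompactSupport
      (ch.smul_right.comp_left (g := SchwartzMap.seminorm ℝ a b) (map_zero _)), fun _ => le_rfl⟩

theorem ct_iFS (cf : ∀ I, HasCompactSupport (F I)) (K : I2) :
    Continuous fun p => FS F (iv p) K := (continuous_apply K).comp ((ct_FS cf).comp ct_iv)

section half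

variable (g : GRP c) (cf : ∀ I, HasCompactSupport (F I))
  {Z A X : ℕ → Completion D →L[ℂ] Completion D}
  (hZ : (∀ n (v : D), Z n v = A n (c.Tf (evT F) v : D)) ∧ (∀ n, ‖A n‖ ≤ 1) ∧
    ∀ x, Tendsto (fun n => A n x) atTop (𝓝 x))
include g cf hZ

theorem sm_orb (v : D) :
    ContDiff ℝ ∞ fun p => ((c.Tf (evT F) (ud c p v) : D) : Completion D) := by
  let π : Fin 3 → Q3 →L[ℝ] ℝ := ![.fst ℝ _ _, (ContinuousLinearMap.fst ℝ ℝ ℝ).comp (.snd ℝ _ _),
    (ContinuousLinearMap.snd ℝ ℝ ℝ).comp (.snd ℝ _ _)]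
  refine sm_of (e := fun (v : D) p => c.gq p v) (W := fun v p => (c.Tf (evT F) (ud c p v) : D))
    (c := fun j r => (π j).comp (fderiv ℝ (ml (iv r)) r)) (Z := fun n => (Z n).restrictScalars ℝ)
    (A := fun n => (A n).restrictScalars ℝ) (fun j => contDiff_const.clm_comp
      (ContDiff.fderiv (m := ∞) (sm_ml (sm_iv contDiff_fst) contDiff_snd) contDiff_id le_rfl))
    (fun v => ?_) (fun v => ?_) (fun n v r => ?_) hZ.2.1 hZ.2.2 v
  · simp only [orb g cf]
    exact (rp g).st.app ((TL c v).continuous.comp (ct_FS cf))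
  · obtain ⟨w, B, d, e⟩ := Gen.gq_der g v
    refine ⟨w, fun r => ((rp g).der d r).congr_fderiv (ContinuousLinearMap.ext fun y => ?_)⟩
    simp [e, π, Fin.sum_univ_three]
  · rw [ud_coe g]
    exact hZ.1 n _

theorem half {h : Q3 → ℝ} (sh : ContDiff ℝ ∞ h) (ch : HasCompactSupport h) {F' : TS}
    (e : ∀ K z, F' K z = ∫ p, h p • FS F (iv p) K z)
    (m : ∀ n, Gd.Sm h (fun p => c.gq p * Z n * star (c.gq p)) (X n)) (v : D) (k : ℕ) :
    TendstoLocallyUniformly (fun n => iteratedFDeriv ℝ k fun q => c.gq q (X n v))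
      (iteratedFDeriv ℝ k fun q => c.gq q (c.Tf (evT F') v : D)) atTop := by
  have r := rp g
  have a : ∀ n, X n v = ∫ p, (h p : ℂ) • c.gq p (A n (c.Tf (evT F) (ud c (iv p) v) : D)) :=
    fun n => by simp only [m n v, r.star_eq, ContinuousLinearMap.mul_apply, ud_coe g, hZ.1]
  have s := fun K => (sint' (ct_iFS cf K) sh.continuous ch).clm (g := F' K) (e K)
    (TL c v ∘L ContinuousLinearMap.single ℂ (fun _ : I2 => Sch) K)
  have u : ∀ G : TS, TL c v G = ∑ K, (TL c v ∘L ContinuousLinearMap.single ℂ (fun _ : I2 => Sch) K) (G K) :=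
    fun G => by
      simp only [ContinuousLinearMap.comp_apply, ← map_sum, ContinuousLinearMap.single_apply,
        Finset.univ_sum_single]
  have b : ((c.Tf (evT F') v : D) : Completion D) =
      ∫ p, (h p : ℂ) • c.gq p (c.Tf (evT F) (ud c (iv p) v) : D) := by
    rw [← TL_apply, u, Finset.sum_congr rfl fun K _ => (s K).2,
      ← integral_finset_sum _ fun K _ => (s K).1]
    simp only [orb g cf, ← ContinuousLinearMap.mul_apply, r.mul, ml_iv, r.one,
      ContinuousLinearMap.one_apply, Complex.coe_smul, ContinuousLinearMap.map_smul_of_tower,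
      ← Finset.smul_sum, ← u]
  simp only [a, b]
  exact r.conv sh ch hZ.2.1 hZ.2.2 ((sm_orb g cf hZ v).comp (sm_iv contDiff_id)) k

end half

end Gt

open Vale.Agent.P352L.Gd hiding Cv Sm orb sm_orb half ud ud_coe tf tf_apply
open Gt

theorem goodt {D : Type*} [NormedAddCommGroup D] [InnerProductSpace ℂ D] {c : Ctx D}
    (t : T1 c) : GOODT c := by
  have g := t.grp
  have R := rp g
  intro y r F m η hf η0
  have cf : ∀ I : I2, HasCompactSupport (F I) := fun I => (hf I.1 I.2).2.1
  have cK : IsCompact (⋃ I, tsupport (F I)) := isCompact_iUnion cf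
  have a : Continuous fun p => snT m (FS F (iv p) - F) := by
    simp only [snT, Api4.sn_eq]
    exact continuous_finset_sum _ fun K _ =>
      (ST.continuous_sn m).comp ((ct_iFS cf K).sub continuous_const)
  have η1 : 0 < η / 32 := by positivity
  obtain ⟨h, sh, ch, th, h0, h1⟩ := bump ((near cK (open_dc y r) (iUnion_subset fun I =>
    (hf I.1 I.2).2.2)).and (a.continuousAt.eventually_lt continuousAt_const (g := fun _ => η / 32)
      (by simpa [iv_zero, FS_zero cf, snT, sn] using η1)))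
  have s := fun K => sint' (ct_iFS cf K) sh.continuous ch
  have e : ∀ K z, (s K).int z = ∫ p, h p • FS F (iv p) K z := fun K z => by simp [(s K).int_apply]
  have hK := (ch.prod cK).image sm_sg.continuous
  have z0 : ∀ K, ∀ z ∉ (fun q : Q3 × V => sg q.1 q.2) '' tsupport h ×ˢ (⋃ I, tsupport (F I)),
      (s K).int z = 0 := fun K z hz => by
    rw [e]
    refine integral_eq_zero_of_ae (.of_forall fun p => smul_eq_zero.2 (by_contra fun k => hz
      ⟨(p, sg (iv p) z), ⟨subset_closure (not_or.1 k).1, by_contra fun k' => (not_or.1 k).2 ?_⟩,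
        ?_⟩))
    · rw [FS_apply cf]
      exact Finset.sum_eq_zero fun I _ => by
        rw [image_eq_zero_of_notMem_tsupport fun q => k' (mem_iUnion.2 ⟨I, q⟩), mul_zero]
    · simpa only [iv_iv] using sg_iv (iv p) z
  obtain ⟨Z, A, B, hZ, hA, hB⟩ := trunc (g.afft _ (evT F) fun i j =>
    ⟨(hf i j).1, cf (i, j), subset_iUnion (fun I => tsupport (F I)) (i, j)⟩)
  choose X hX k using fun n => smear g sh ch (fun p hp => (th hp).1) (hZ n)
  obtain ⟨G, hG⟩ := (tsT_ev F).bar.ex
  obtain ⟨G', hG'⟩ := (tsT_ev fun K => (s K).int).bar.ex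
  refine ⟨fun K => (s K).int, X, fun i j => ⟨⟨_, rfl⟩, .intro hK (z0 _), (closure_minimal
    (Function.support_subset_iff'.2 (z0 _)) hK.isClosed).trans ?_⟩, ((Finset.sum_le_card_nsmul _ _
      (η / 32) fun K _ => Lie.sn_le η1.le fun i hi j hj x =>
        (SchwartzMap.le_seminorm ℝ i j _ x).trans ?_).trans_lt (by simp; linarith)), k,
    fun v j => ⟨half g cf hA sh ch e hX v j, ?_⟩⟩
  · rintro _ ⟨q, hq, rfl⟩
    exact (th hq.1).1 _ hq.2
  · rw [← ST.norm_wd, Pi.sub_apply, map_sub, ((s K).clm_real (s K).int_apply (ST.wd i j)).2]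
    simp only [map_smul]
    refine approx sh.continuous ch h0 h1 ((ST.wd i j).continuous.comp (ct_iFS cf K)) fun p hp => ?_
    rw [Function.comp_apply, ← map_sub, ST.norm_wd, ← ST.seminorm_eq (𝕜 := ℂ)]
    exact (Lie.le_sn hi hj _).trans ((le_snT m (FS F (iv p) - F) K).trans (th hp).2.le)
  · have b : ∀ I z, G I z = star (F I z) := fun I z => congrFun (congrFun₂ hG I.1 I.2) z
    have cG : ∀ I, HasCompactSupport (G I) := fun I => by
      have : ev (G I) = bar (ev (F I)) := congrFun₂ hG I.1 I.2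
      exact show IsCompact (tsupport (ev (G I))) by rw [this, tsupport_bar]; exact cf I
    rw [show (fun m n => bar (evT F m n)) = evT G from hG.symm] at hB
    rw [← hG']
    refine half g cG hB sh ch (fun K z => ?_) (fun n => ?_) v j
    · rw [show G' K z = starRingEnd ℂ ((s K).int z) from congrFun (congrFun₂ hG' K.1 K.2) z, e,
        ← integral_conj]
      simp [b, FS_apply cf, FS_apply cG]
    · have s := R.ad (Z n)
      have s' := R.ad (star (Z n))
      rw [norm_star] at s'
      simpa only [star_mul, star_star, mul_assoc] using (hX n).star sh.continuous ch s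
        (by simpa only [star_mul, star_star, mul_assoc] using s')

theorem Tools.goodt {D : Type*} [NormedAddCommGroup D] [InnerProductSpace ℂ D] {c : Ctx D}
    (t : Tools c) : GOODT c := CK.goodt t.toT1

end Vale.Agent.P352L.CK
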