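import Vale.Agent.P352X.R.CONK.Smv
import Vale.Agent.P352L.CK.GoodT

/-!
# P352L, block CONK: smooth vectors and good operators (helper57)
-/

set_option linter.all false

noncomputable section

open MeasureTheory Filter Topology
open scoped ContDiff

namespace Vale.Agent.P352L.CK

open Vale.Agent.P352X
open Vale.Agent.P352 Vale.Agent.P352.GF Vale.Agent.P352.BW Vale.Agent.P352.H246
open UniformSpace (Completion)
open Complex (I)

namespace Smv

export Vale.Agent.P352X.CK.Smv (Q3 Dir smooth_app op_der smooth_smul nP nG)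

variable {D : Type*} [NormedAddCommGroup D] [InnerProductSpace ℂ D] {c : Ctx D}

/-! ### the group -/

section grp

variable (g : GRP c)
include g

lemma bo0 : Bo c.Q 0 = 1 := by simpa [Bo] using g.sc1

lemma bo_add (s t : ℝ) : Bo c.Q (s + t) = Bo c.Q s * Bo c.Q t := by
  rw [Bo, Bo, Bo, ← g.sc _ _ _ _ (Real.exp_pos _) (Real.exp_pos _) (Real.exp_pos _)
    (Real.exp_pos _), ← Real.exp_add, ← Real.exp_add, neg_add]

lemma pb0 : Pb c.Q 0 = 1 := by simpa [Pb] using g.ut0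

lemma pb_add (s t : ℝ) : Pb c.Q (s + t) = Pb c.Q s * Pb c.Q t := by
  rw [Pb, Pb, Pb, ← g.ut, add_smul]

lemma gb_pb (s t : ℝ) : Gb c.Q s * Pb c.Q t = Pb c.Q t * Gb c.Q s := by
  rw [Pb, g.gb_ut]
  congr 2
  exact null_ext (by simp) (by rw [be_gbp, tx_smul, tx_vb]; simp) (by simp)

lemma pb_bo (u e : ℝ) : Pb c.Q u * Bo c.Q e = Bo c.Q e * Pb c.Q (Real.exp e * u) := by
  rw [Bo, Pb, Pb, g.sc_ut _ _ _ (Real.exp_pos _) (Real.exp_pos _)]
  congr 2
  refine null_ext (by simp) ?_ (by simp)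
  simp [← mul_assoc, ← Real.exp_add]

lemma gb_bo (s e : ℝ) : Gb c.Q s * Bo c.Q e = Bo c.Q e * Gb c.Q (Real.exp e * s) := by
  rw [Bo, g.sc_gb _ _ _ (Real.exp_pos _) (Real.exp_pos _), div_eq_mul_inv, ← Real.exp_neg,
    Real.sqrt_mul_self (Real.exp_pos _).le, ← mul_assoc, ← Real.exp_add]
  simp

lemma gq0 : c.gq 0 = 1 := by simp [Base.gq, bo0 g, pb0 g, g.gb0]

lemma gq_uni (q : Q3) : c.gq q ∈ unitary (Completion D →L[ℂ] Completion D) :=
  mul_mem (mul_mem (g.uni _ _ _) (g.uni _ _ _)) (g.uni _ _ _)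

lemma star_of {W : ℝ → Completion D →L[ℂ] Completion D} (h0 : W 0 = 1)
    (ha : ∀ s t, W (s + t) = W s * W t) {t : ℝ}
    (hu : W t ∈ unitary (Completion D →L[ℂ] Completion D)) : star (W t) = W (-t) := by
  rw [← mul_one (star (W t)), ← h0, ← add_neg_cancel t, ha, ← mul_assoc, hu.1, one_mul]

lemma gq_star (q : Q3) :
    star (c.gq q) = Gb c.Q (-q.2.2) * Pb c.Q (-q.2.1) * Bo c.Q (-q.1) := by
  rw [Base.gq, star_mul, star_mul, star_of g g.gb0 g.gb (g.uni _ _ _),
    star_of g (pb0 g) (pb_add g) (g.uni _ _ _), star_of g (bo0 g) (bo_add g) (g.uni _ _ _),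
    mul_assoc]

lemma good_iff {X : Completion D →L[ℂ] Completion D} :
    c.Good X ↔ ContDiff ℝ ∞ fun q => c.gq q * X * star (c.gq q) := by
  simp only [gq_star g]
  simp only [Base.Good, Base.gq, mul_assoc]

lemma dirG : Dir c.gq (Gb c.Q) fun _ => (0, 0, 1) :=
  ⟨gq0 g, ⟨fun q e => (q.1, q.2.1, q.2.2 + e), fun q e => by simp only [Base.gq, g.gb, mul_assoc],
    fun q => by simp, fun q => (hasDerivAt_const _ _).prodMk ((hasDerivAt_const _ _).prodMk
      ((hasDerivAt_id' _).const_add _))⟩, contDiff_const⟩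

lemma dirP : Dir c.gq (Pb c.Q) fun _ => (0, 1, 0) :=
  ⟨gq0 g, ⟨fun q e => (q.1, q.2.1 + e, q.2.2), fun q e => by
    simp only [Base.gq, pb_add g, mul_assoc, gb_pb g], fun q => by simp,
    fun q => (hasDerivAt_const _ _).prodMk (((hasDerivAt_id' _).const_add _).prodMk
      (hasDerivAt_const _ _))⟩, contDiff_const⟩

lemma dirB : Dir c.gq (Bo c.Q) fun q => (1, q.2.1, q.2.2) :=
  ⟨gq0 g, ⟨fun q e => (q.1 + e, Real.exp e * q.2.1, Real.exp e * q.2.2), fun q e => by
    simp only [Base.gq, bo_add g, mul_assoc, gb_bo g]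
    rw [← mul_assoc (Pb _ _), pb_bo g, mul_assoc], fun q => by simp,
    fun q => ((hasDerivAt_id' _).const_add _).prodMk
      ((by simpa using (Real.hasDerivAt_exp 0).mul_const q.2.1 :
        HasDerivAt (fun e => Real.exp e * q.2.1) q.2.1 0).prodMk
      (by simpa using (Real.hasDerivAt_exp 0).mul_const q.2.2))⟩, by fun_prop⟩

end grp

variable {W : ℝ → Completion D →L[ℂ] Completion D} {ξ : Q3 → Q3} {v : Completion D}
  {X : Completion D →L[ℂ] Completion D}

lemma gen_eq (h : Dir c.gq W ξ) (hv : Sm c v) :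
    Dm W v ∧ gen W v = -I • fderiv ℝ (fun q => c.gq q v) 0 (ξ 0) :=
  gn_iff.1 (gn_of_hasDerivAt (h.der hv))

lemma sm_smul (a : ℂ) (hv : Sm c v) : Sm c (a • v) := by
  simpa only [Sm, Sm0, map_smul] using ContDiff.const_smul a hv

lemma sm_gen (h : Dir c.gq W ξ) (hv : Sm c v) : Sm c (gen W v) :=
  (gen_eq h hv).2 ▸ sm_smul _ (h.smooth hv)

/-- the derivatives at the origin -/
abbrev it (c : Ctx D) (j : ℕ) (v : Completion D) := iteratedFDeriv ℝ j (fun q => c.gq q v) 0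

lemma it_smul (a : ℂ) (hv : Sm c v) (j : ℕ) : it c j (a • v) = a • it c j v := by
  simp only [it, map_smul]
  exact iteratedFDeriv_const_smul_apply' (hv.contDiffAt.of_le (by exact_mod_cast le_top))

lemma it_sub {w : Completion D} (hv : Sm c v) (hw : Sm c w) (j : ℕ) :
    it c j (v - w) = it c j v - it c j w := by
  simp only [it, map_sub]
  exact fun_iteratedFDeriv_sub_apply (hv.contDiffAt.of_le (by exact_mod_cast le_top))
    (hw.contDiffAt.of_le (by exact_mod_cast le_top))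

lemma it_gen {ξ : Q3} (h : Dir c.gq W fun _ => ξ) (hξ : ‖ξ‖ ≤ 1) (hv : Sm c v) (j : ℕ) :
    ‖it c j (gen W v)‖ ≤ ‖it c (j + 1) v‖ := by
  rw [(gen_eq h hv).2, it_smul _ (h.smooth hv), norm_smul, norm_neg, Complex.norm_I, one_mul]
  exact h.iter hξ hv j

lemma it_zero (g : GRP c) : ‖it c 0 v‖ = ‖v‖ := by
  rw [norm_iteratedFDeriv_zero, gq0 g]
  rfl

lemma it_le {j k : ℕ} (h : j ≤ k) : ‖it c j v‖ ≤ nq c k v :=
  Finset.single_le_sum (f := fun j => ‖it c j v‖) (fun _ _ => norm_nonneg _)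
    (Finset.mem_range.2 (Nat.lt_succ_of_le h))

lemma sm_iter (g : GRP c) (hv : Sm c v) (j : ℕ) : Sm c ((gen (Pb c.Q))^[j] v) ∧
    ∀ i, ‖it c i ((gen (Pb c.Q))^[j] v)‖ ≤ ‖it c (i + j) v‖ := by
  induction j with
  | zero => exact ⟨hv, fun _ => le_rfl⟩
  | succ j ih =>
    rw [Function.iterate_succ_apply']
    exact ⟨sm_gen (dirP g) ih.1, fun i => (it_gen (dirP g) nP ih.1 i).trans
      ((ih.2 _).trans_eq (by rw [add_assoc, add_comm 1]))⟩

lemma lw (g : GRP c) (hv : Sm c v) : Lw c v (nq c 2 v) ∧ ‖gen (Bo c.Q) v‖ ≤ nq c 1 v ∧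
    ∀ k, Pk c k v (nq c k v) := by
  have hP := sm_gen (dirP g) hv
  refine ⟨⟨(gen_eq (dirG g) hv).1, (gen_eq (dirP g) hv).1, (gen_eq (dirG g) hP).1, ?_, ?_, ?_, ?_⟩,
    ?_, fun k => ⟨fun j _ => (gen_eq (dirP g) (sm_iter g hv j).1).1, fun j hj => ?_⟩⟩
  · exact (it_zero g).symm.trans_le (it_le zero_le_two)
  · exact (it_zero g).symm.trans_le ((it_gen (dirG g) nG hv 0).trans (it_le one_le_two))
  · exact (it_zero g).symm.trans_le ((it_gen (dirP g) nP hv 0).trans (it_le one_le_two))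
  · exact (it_zero g).symm.trans_le ((it_gen (dirG g) nG hP 0).trans
      ((it_gen (dirP g) nP hv 1).trans (it_le le_rfl)))
  · rw [(gen_eq (dirB g) hv).2, norm_smul, norm_neg, Complex.norm_I, one_mul]
    refine le_trans ?_ (it_le (v := v) le_rfl)
    rw [norm_iteratedFDeriv_one]
    exact (ContinuousLinearMap.le_opNorm _ _).trans
      (mul_le_of_le_one_right (norm_nonneg _) (by simp [Prod.norm_def]))
  · exact (it_zero g).symm.trans_le (((sm_iter g hv j).2 0).trans (it_le (by simpa using hj)))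

/-! ### good operators -/

lemma sm_app (g : GRP c) (hX : c.Good X) (hv : Sm c v) : Sm c (X v) := by
  have h1 := smooth_app ((good_iff g).1 hX) hv
  have e : ∀ q, (c.gq q * X * star (c.gq q)) (c.gq q v) = c.gq q (X v) := fun q => by
    show (c.gq q * X * star (c.gq q) * c.gq q) v = _
    rw [mul_assoc, (gq_uni g q).1, mul_one]
    rfl
  simp only [e] at h1
  exact h1

/-- the product rule -/
lemma good_der (g : GRP c) (h : Dir c.gq W ξ) (h0 : W 0 = 1)
    (hu : ∀ e, W e ∈ unitary (Completion D →L[ℂ] Completion D)) (hX : c.Good X) :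
    ∃ Y, c.Good Y ∧ ∀ v, Dm W v → Gn W (X v) (Y v + X (gen W v)) := by
  obtain ⟨m, h1, h2, h3⟩ := h.ex
  obtain ⟨Z, k1, k2⟩ := op_der (B := fun q => star (c.gq q)) (W' := fun e => star (W e)) (X := X)
    h.zero (by rw [h.zero, star_one]) h0 (by rw [h0, star_one]) h1
    (fun q e => by rw [← h1, star_mul]) h2 h3 h.sm ((good_iff g).1 hX)
  refine ⟨-I • Z, (good_iff g).2 ?_, fun v hv => ?_⟩
  · simp only [mul_smul_comm, smul_mul_assoc]
    exact smooth_smul k1 (-I)
  · have h4 := k2 _ _ hv.gn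
    have e : ∀ e, star (W e) (W e v) = v := fun e => DFunLike.congr_fun (hu e).1 v
    simp only [e] at h4
    refine h4.congr_deriv ?_
    simp [h0, smul_smul]

lemma lwx (g : GRP c) (hX : c.Good X) :
    ∃ C : ℝ, 0 ≤ C ∧ ∀ v Λ, Lw c v Λ → Lw c (X v) (C * Λ) := by
  obtain ⟨XG, -, h1⟩ := good_der g (dirG g) g.gb0 (fun _ => g.uni _ _ _) hX
  obtain ⟨XP, h2, h3⟩ := good_der g (dirP g) (pb0 g) (fun _ => g.uni _ _ _) hX
  obtain ⟨XPG, -, h4⟩ := good_der g (dirG g) g.gb0 (fun _ => g.uni _ _ _) h2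
  refine ⟨‖X‖ + ‖XG‖ + ‖XP‖ + ‖XPG‖, by positivity, fun v Λ h => ?_⟩
  have hΛ := (norm_nonneg _).trans h.n0
  have b : ∀ (Y : Completion D →L[ℂ] Completion D) (w : Completion D), ‖w‖ ≤ Λ →
      ‖Y w‖ ≤ ‖Y‖ * Λ := fun Y w hw => Y.le_of_opNorm_le_of_le le_rfl hw
  have p : ∀ Y : Completion D →L[ℂ] Completion D, 0 ≤ ‖Y‖ * Λ := fun Y => by positivity
  have k1 := h1 v h.dg
  have k2 := h3 v h.dp
  have k3 := (h4 v h.dg).add (h1 _ h.dgp)
  rw [← k2.gen_eq] at k3
  refine ⟨k1.dm, k2.dm, k3.dm, ?_, ?_, ?_, ?_⟩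
  · linarith [b X _ h.n0, p XG, p XP, p XPG]
  · rw [k1.gen_eq]
    linarith [norm_add_le (XG v) (X (gen (Gb c.Q) v)), b X _ h.ng, b XG _ h.n0, p XP, p XPG]
  · rw [k2.gen_eq]
    linarith [norm_add_le (XP v) (X (gen (Pb c.Q) v)), b X _ h.np, b XP _ h.n0, p XG, p XPG]
  · rw [k3.gen_eq]
    refine (norm_add_le _ _).trans ((add_le_add (norm_add_le _ _) (norm_add_le _ _)).trans ?_)
    linarith [b X _ h.ngp, b XP _ h.ng, b XG _ h.np, b XPG _ h.n0]

lemma good_star (g : GRP c) (hX : c.Good X) : c.Good (star X) := by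
  have h1 : ContDiff ℝ ∞ fun q => star (c.gq q * X * star (c.gq q)) :=
    (starL' ℝ (A := Completion D →L[ℂ] Completion D)).contDiff.comp ((good_iff g).1 hX)
  refine (good_iff g).2 ?_
  simpa only [star_mul, star_star, mul_assoc] using h1

lemma good_scal (g : GRP c) (a : ℂ) (hX : c.Good X) : c.Good (X - a • 1) := by
  have h1 := ((good_iff g).1 hX).sub
    (contDiff_const (c := a • (1 : Completion D →L[ℂ] Completion D)))
  refine (good_iff g).2 ?_
  simpa only [mul_sub, sub_mul, mul_smul_comm, smul_mul_assoc, mul_one, (gq_uni g _).2] using h1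

lemma sm_vac (g : GRP c) : Sm c c.Om := by
  have e : ∀ q, c.gq q c.Om = c.Om := fun q => by
    simp only [Base.gq, mul_apply_eq_comp, Gb, Pb, Ut, Bo, Usc, g.vac]
  simpa only [Sm, Sm0, e] using contDiff_const

lemma nq_lim (g : GRP c) {X : ℕ → Completion D →L[ℂ] Completion D} {a : ℕ → ℂ}
    {w : Completion D} (hX : ∀ n, c.Good (X n)) (hv : Sm c v) (hw : Sm c w)
    (ha : Tendsto a atTop (𝓝 0))
    (h : ∀ k, Tendsto (fun n => it c k (X n v)) atTop (𝓝 (it c k w))) (k : ℕ) :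
    Tendsto (fun n => nq c k ((X n - a n • 1) v - w)) atTop (𝓝 0) := by
  have h1 := tendsto_finsetSum (Finset.range (k + 1)) fun j _ =>
    (((h j).sub (ha.smul_const (it c j v))).sub_const (it c j w)).norm
  simp only [zero_smul, sub_zero, sub_self, norm_zero, Finset.sum_const_zero] at h1
  refine h1.congr fun n => Finset.sum_congr rfl fun j _ => ?_
  have h2 := sm_app g (hX n) hv
  have h3 := sm_smul (a n) hv
  have h4 : Sm c (X n v - a n • v) := by simpa only [Sm, Sm0, map_sub] using ContDiff.sub h2 h3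
  rw [← it_smul _ hv, ← it_sub h2 h3, ← it_sub h4 hw]
  rfl

end Smv

open Smv

variable {D : Type*} [NormedAddCommGroup D] [InnerProductSpace ℂ D]

theorem smv_of {c : Ctx D} (t : T1 c) : SMV c := by
  have g := t.grp
  refine ⟨fun v w hv hw => by simpa only [Sm, Sm0, map_sub] using ContDiff.sub hv hw,
    fun v hv => ⟨(gen_eq (dirB g) hv).1, (gen_eq (dirP g) hv).1, (gen_eq (dirG g) hv).1,
      sm_gen (dirB g) hv, sm_gen (dirP g) hv, sm_gen (dirG g) hv⟩, fun v => lw g,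
    fun X => good_star g, fun X a => good_scal g a, fun X v => sm_app g, sm_vac g, fun X => lwx g,
    fun y r f m η hf hη => ?_⟩
  obtain ⟨f', X, h1, h2, h3, h4⟩ := goodt t y r f m η hf hη
  have n1 : inner ℂ c.Om c.Om = 1 := by
    rw [inner_self_eq_norm_sq_to_K, Base.Om, om, Completion.norm_coe, c.Q.norm_vac]
    simp
  have ha : Tendsto (fun n => inner ℂ c.Om (X n c.Om)) atTop (𝓝 0) := by
    have k1 := (h4 c.Q.vac 0).1.tendstoLocallyUniformlyOn.tendsto_at (Set.mem_univ 0)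
    have k2 := ((continuous_eval_const (fun _ => 0)).tendsto _).comp k1
    simp only [Function.comp_def, iteratedFDeriv_zero_apply, gq0 g, one_apply_eq_self] at k2
    have k3 : inner ℂ c.Om ((c.Tf (evT f') c.Q.vac : D) : Completion D) = 0 :=
      perp_Tv g (tsT_ev f')
    exact k3 ▸ tendsto_const_nhds.inner k2
  refine ⟨f', fun n => X n - inner ℂ c.Om (X n c.Om) • 1, h1, h2, fun n => ⟨sub_mem (h3 n).1
    ((c.N _).toStarSubalgebra.smul_mem (one_mem _) _), good_scal g _ (h3 n).2, ?_⟩,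
    fun v k => ⟨nq_lim g (fun n => (h3 n).2) (t.gen.sm v) (t.gen.sm _) ha (fun k =>
      (h4 v k).1.tendstoLocallyUniformlyOn.tendsto_at (Set.mem_univ 0)) k, ?_⟩⟩
  · show inner ℂ c.Om (X n c.Om - inner ℂ c.Om (X n c.Om) • c.Om) = 0
    rw [inner_sub_right, inner_smul_right, n1, mul_one, sub_self]
  · have hb := (continuous_star.tendsto _).comp ha
    rw [star_zero] at hb
    simpa only [star_sub, star_smul, star_one, Function.comp_def] using
      nq_lim g (fun n => good_star g (h3 n).2) (t.gen.sm v) (t.gen.sm _) hb (fun k =>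
        (h4 v k).2.tendstoLocallyUniformlyOn.tendsto_at (Set.mem_univ 0)) k

theorem Tools.smv {c : Ctx D} (t : Tools c) : SMV c := smv_of t.toT1

end Vale.Agent.P352L.CK

end
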