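import Vale.Agent.P352X.R.CONK.Kp
import Vale.Agent.P352L.CK.Smv
import Vale.Agent.P352L.R.Br

/-!
# P352L, block CONK: pairs in a double cone below the plane and the operators `K_y` (helper57)
-/

set_option linter.all false

open MeasureTheory Filter Topology

namespace Vale.Agent.P352L.CK

open Vale.Agent.P352X
open Vale.Agent.P352 Vale.Agent.P352.GF Vale.Agent.P352.BW Vale.Agent.P352.H246
open Vale.Agent.P352.H496 Vale.Agent.P352.H755 Vale.Agent.P352.H15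
open UniformSpace (Completion)
open Complex (I)

noncomputable section

namespace Kp

export Vale.Agent.P352X.CK.Kp (ex_cone small_sqrt norm_dc)

variable {D : Type*} [NormedAddCommGroup D] [InnerProductSpace ℂ D] {c : Ctx D}
  {ψ ψ' : Completion D}

lemma pb_small (b : BAS c.toBase) {ξ : Completion D} (h : c.qb ξ ≠ ⊤) {η : ℝ} (hη : 0 < η) :
    ∀ᶠ t in 𝓝 (0 : ℝ), ‖Pb c.Q t ξ - ξ‖ ≤ η * Real.sqrt |t| := by
  simp only [Pb, c.ut_Phi]
  refine small_sqrt c.bt.toCalc meas_al ⟨meas_al.aestronglyMeasurable, ?_⟩ hη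
  rw [hasFiniteIntegral_iff_ofReal ((b.cone ξ).mono fun p hp => ((cone_iff p).1 hp).1)]
  exact h.lt_top

/-! ### the domains of `M` and `P` -/

lemma ky_eq (g : GRP c) (x : R2) (t : ℝ) :
    c.Ky (tv x) t = Pa c.Q (d2 x x * t) * Ga c.Q (t • (-2 : ℝ) • x) * c.SK t := by
  rw [Base.Ky, mul_assoc, ← tv_neg, g.S_ut, ← mul_assoc, ← mul_assoc, ← g.ut, tv_neg,
    add_neg_cancel_left, d2_neg, d2_neg_l, neg_neg, mul_comm t, smul_smul, smul_neg, ← neg_smul,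
    mul_comm t, neg_mul]
  rfl

lemma dm_PM (g : GRP c) (hK : Dm c.SK ψ) (h : ∀ x, Dm (c.Ky (tv x)) ψ) :
    (∀ i, Dm (Mi c.Q i) ψ) ∧ Dm (Pa c.Q) ψ := by
  have u : ∀ x : R2, UG fun t => Pa c.Q (d2 x x * t) * Ga c.Q (t • (-2 : ℝ) • x) := fun x =>
    (g.ugPa.scale _).mul (g.ugG _) fun s t => (g.ga_pa _ _).symm
  have k : Dm (fun t => c.SK (-t)) ψ :=
    (hK.gn.scale (W' := fun t => c.SK (-t)) 1 (-1) fun t => by rw [neg_one_mul]; rfl).dm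
  have a : ∀ x : R2, Dm (fun t => Pa c.Q (d2 x x * t) * Ga c.Q (t • (-2 : ℝ) • x)) ψ := fun x =>
    (((g.ugKy _).gn_mul (h x).gn (by rw [neg_zero, c.ugK.zero]) k.gn).congr (.of_forall fun t => by
      rw [ky_eq g, mul_assoc _ (c.SK t), c.ugK.mul_inv, mul_one])).dm
  have p : Dm (Pa c.Q) ψ := by
    have := (u (e2 0)).gn_mul (a _).gn ((u (-e2 0)).zero ψ) (a (-e2 0)).gn
    refine (this.scale (W' := Pa c.Q) 1 (1 / 2) fun t => ?_).dm
    rw [mul_assoc, ← mul_assoc (Ga _ _), g.ga_pa, mul_assoc, ← g.ga, smul_neg, smul_neg,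
      add_neg_cancel, g.ga0, mul_one, ← g.ugPa.add', d2_neg, d2_neg_l, neg_neg, d2_e2, e2_self]
    congr 2
    ring
  refine ⟨fun i => ?_, p⟩
  have q := p.gn.scale (W' := fun t => Pa c.Q (-t)) 1 (-1) fun t => by rw [neg_one_mul]; rfl
  have := g.ugPa.neg.gn_mul q ((u (e2 i)).zero ψ) (a (e2 i)).gn
  refine (this.scale (W' := Mi c.Q i) 1 (-1 / 2) fun t => ?_).dm
  rw [← mul_assoc, ← g.ugPa.add', d2_e2, e2_self, one_mul, neg_add_cancel, g.ugPa.zero', one_mul,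
    smul_smul, Mi]
  congr 3
  ring

lemma bo_tv (g : GRP c) (x : R2) (t : ℝ) :
    Ut c.Q (-tv x) * Bo c.Q t = Bo c.Q t * Ut c.Q (-tv x) := by
  rw [← tv_neg, g.bo_tv]

theorem dom (g : GRP c) (kd : KD c) {y : V} {r u0 d0 : ℝ} (hu : 0 < u0) (hd : 0 < d0)
    (h : dc y r ⊆ {z | be z < -u0 ∧ d0 < al z}) : ∃ C : ℝ, 0 ≤ C ∧ ∀ ψ ψ',
      Pr (c.N (dc y r)) c.Om ψ ψ' → Dm (Bo c.Q) ψ →
      DK c ψ ∧ ‖gen c.SK ψ‖ ≤ C * (‖ψ‖ + ‖ψ'‖ + ‖gen (Bo c.Q) ψ‖) := by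
  have z : (0 : ℝ) ∈ Set.Icc (-u0) u0 := ⟨by linarith, hu.le⟩
  obtain ⟨r0, p, q⟩ := ex_cone hd h 0
  obtain ⟨C, hC⟩ := kd.a r0 p
  refine ⟨|C|, abs_nonneg C, fun ψ ψ' a b => ?_⟩
  obtain ⟨k1, k2⟩ := hC ψ ψ' (a.sub_rg fun w hw => by simpa using q 0 z w hw) b
  refine ⟨⟨k1, dm_PM g k1 fun x => ?_⟩,
    k2.trans (mul_le_mul_of_nonneg_right (le_abs_self C) (by positivity))⟩
  obtain ⟨r1, p1, q1⟩ := ex_cone hd h x
  obtain ⟨C1, h1⟩ := kd.a r1 p1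
  exact (g.dm_Ky _).2 (h1 _ _ (g.pr_ut a (-tv x) fun w hw => by simpa using q1 0 z w hw)
    (b.comm (bo_tv g x)).1).1

/-! ### shifts along `b` -/

lemma ut_split (g : GRP c) (x : R2) (u : ℝ) (v : Completion D) :
    Ut c.Q (-(tv x + u • vb)) v = Ut c.Q (-tv x) (Pb c.Q (-u) v) := by
  rw [Pb, g.ut_apply, neg_add, neg_smul]

lemma gn_split (g : GRP c) (x : R2) (u : ℝ) {v a b : Completion D} (ha : Gn (Pb c.Q) v a)
    (hb : Gn (Bo c.Q) v b) : Gn (Bo c.Q) (Ut c.Q (-(tv x + u • vb)) v)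
      (Ut c.Q (-tv x) (Pb c.Q (-u) b + u • Pb c.Q (-u) a)) := by
  have := (g.ugPb.scal_shift g.ugB g.bo_pb ha hb (-u)).comm (bo_tv g x)
  rwa [neg_mul_neg, one_mul, ← ut_split g] at this

theorem shift (t : TA c) {y : V} {r u0 d0 : ℝ} {X} (x : R2) (hu : 0 < u0) (hd : 0 < d0)
    (h : dc y r ⊆ {z | be z < -u0 ∧ d0 < al z}) (hX : X ∈ c.N (dc y r)) (hG : c.Good X) :
    ContinuousOn (fun u : ℝ => gen (c.Ky (tv x + u • vb)) (X c.Om)) (Set.Ioo (-u0) u0) ∧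
    ∀ η > 0, ∀ᶠ u in 𝓝 (0 : ℝ),
      ‖gen (c.Ky (tv x + u • vb)) (X c.Om) - gen (c.Ky (tv x)) (X c.Om)‖ ≤ η * Real.sqrt |u| := by
  have g := t.grp
  have s := smv_of t.toT1
  obtain ⟨r0, p, q⟩ := ex_cone hd h x
  obtain ⟨C, hC⟩ := t.kd.a r0 p
  obtain ⟨v1, v2, -, v3, -⟩ := s.dom _ (s.app X _ hG s.vac)
  obtain ⟨w1, w2, -⟩ := s.dom _ (s.app _ _ (s.adj X hG) s.vac)
  obtain ⟨b1, b2, -⟩ := s.dom _ v3
  set v := X c.Om
  set w := star X c.Om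
  set a := gen (Pb c.Q) v
  set b := gen (Bo c.Q) v
  let φ := fun (u : ℝ) (v : Completion D) => Ut c.Q (-(tv x + u • vb)) v
  let β := fun u : ℝ => Pb c.Q (-u) b + u • Pb c.Q (-u) a
  have pr : ∀ u ∈ Set.Ioo (-u0) u0, Pr (c.N (Rc r0 0)) c.Om (φ u v) (φ u w) := fun u hu =>
    g.pr_ut (.of_mem hX) _ (q u (Set.Ioo_subset_Icc_self hu))
  have gb : ∀ u, Gn (Bo c.Q) (φ u v) (Ut c.Q (-tv x) (β u)) := fun u => gn_split g x u v2.gn v1.gn
  have dk : ∀ u ∈ Set.Ioo (-u0) u0, Dm c.SK (φ u v) := fun u hu => (hC _ _ (pr u hu) (gb u).dm).1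
  have nt : ∀ y z, ‖Ut c.Q y z‖ = ‖z‖ := fun _ => g.ug_norm _ _ _
  have est : ∀ u ∈ Set.Ioo (-u0) u0, ∀ u' ∈ Set.Ioo (-u0) u0,
      ‖gen c.SK (φ u v) - gen c.SK (φ u' v)‖ ≤ |C| * (‖Pb c.Q (-u) v - Pb c.Q (-u') v‖ +
        ‖Pb c.Q (-u) w - Pb c.Q (-u') w‖ + ‖β u - β u'‖) := fun u hu u' hu' => by
    have := (hC _ _ ((pr u hu).sub (pr u' hu')) ((gb u).sub (gb u')).dm).2
    rw [gen_sub (dk u hu) (dk u' hu'), ((gb u).sub (gb u')).gen_eq] at this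
    simp only [φ, ut_split g, ← map_sub, nt] at this ⊢
    exact this.trans (mul_le_mul_of_nonneg_right (le_abs_self C) (by positivity))
  have cp : ∀ z, Continuous fun u : ℝ => Pb c.Q (-u) z := g.ugPb.neg.cont
  have cb : Continuous β := (cp b).add (continuous_id.smul (cp a))
  have z : (0 : ℝ) ∈ Set.Ioo (-u0) u0 := ⟨by linarith, hu⟩
  refine ⟨fun u' hu' => ?_, fun η hη => ?_⟩
  · have h1 : ContinuousWithinAt (fun u => gen c.SK (φ u v)) (Set.Ioo (-u0) u0) u' := by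
      refine tendsto_iff_norm_sub_tendsto_zero.2 (squeeze_zero' (.of_forall fun _ => norm_nonneg _)
        (eventually_mem_nhdsWithin.mono fun u hu => est u hu u' hu')
        (tendsto_nhdsWithin_of_tendsto_nhds (Continuous.tendsto' ?_ _ _ (by simp))))
      have := cp v
      have := cp w
      fun_prop
    refine ContinuousWithinAt.congr (f := fun u => Ut c.Q (tv x + u • vb) (gen c.SK (φ u v))) ?_
      (fun u hu => g.gen_Ky _ (dk u hu)) (g.gen_Ky _ (dk u' hu'))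
    exact tendsto_apply (.of_forall fun _ => g.ug_opn _ _ _) h1
      (g.ut_cont (by fun_prop) continuous_const).continuousWithinAt
  · have e0 : φ 0 = Ut c.Q (-tv x) := by
      funext v
      simp only [φ, zero_smul, add_zero]
    have cm : ∀ t, Ut c.Q (-tv x) * Pb c.Q t = Pb c.Q t * Ut c.Q (-tv x) := fun _ => g.ut_comm _ _
    obtain ⟨C', h'⟩ := t.a2.abs r0 p
    have fin : c.qb (gen c.SK (φ 0 v)) ≠ ⊤ := by
      have e := (v1.comm (bo_tv g x)).2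
      refine ne_top_of_le_ne_top ENNReal.ofReal_ne_top (h' _ _ (pr 0 z) ?_ ?_ ?_ ?_ ?_ ?_) <;>
        rw [e0]
      exacts [(v2.comm cm).1, (w2.comm cm).1, (v1.comm (bo_tv g x)).1, (w1.comm (bo_tv g x)).1,
        e ▸ (b2.comm cm).1, e ▸ (b1.comm (bo_tv g x)).1]
    set L := |C| * (‖a‖ + ‖gen (Pb c.Q) w‖ + (‖gen (Pb c.Q) b‖ + ‖a‖))
    have l1 : ∀ᶠ u in 𝓝 (0 : ℝ), L * Real.sqrt |u| < η / 2 :=
      (Continuous.tendsto' (by fun_prop) 0 0 (by simp)).eventually (gt_mem_nhds (half_pos hη))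
    filter_upwards [l1, pb_small t.bas fin (half_pos hη), Ioo_mem_nhds z.1 z.2] with u u1 u2 u3
    have lp : ∀ {z}, Dm (Pb c.Q) z → ‖Pb c.Q (-u) z - Pb c.Q (-0) z‖ ≤ ‖gen (Pb c.Q) z‖ * |u| :=
      fun hz => by simpa only [neg_zero, sub_zero, abs_neg] using g.ugPb.lip' hz.gn (-0) (-u)
    have e1 : ‖β u - β 0‖ ≤ ‖gen (Pb c.Q) b‖ * |u| + ‖a‖ * |u| := by
      simp only [β, zero_smul, add_zero]
      rw [add_sub_right_comm]
      refine (norm_add_le _ _).trans (add_le_add (lp b2) ?_)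
      rw [norm_smul, g.ugPb.nrm, mul_comm, Real.norm_eq_abs]
    have e2 : ‖gen c.SK (φ u v) - gen c.SK (φ 0 v)‖ ≤ L * |u| :=
      (est u u3 0 z).trans ((mul_le_mul_of_nonneg_left (add_le_add (add_le_add (lp v2) (lp w2)) e1)
        (abs_nonneg C)).trans_eq (by ring))
    have e3 : L * |u| ≤ η / 2 * Real.sqrt |u| := by
      nth_rw 1 [← Real.mul_self_sqrt (abs_nonneg u)]
      rw [← mul_assoc]
      exact mul_le_mul_of_nonneg_right u1.le (Real.sqrt_nonneg _)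
    rw [g.gen_Ky _ (dk u u3), g.gen_Ky _ (e0 ▸ dk 0 z), ← g.ut_apply, ← map_sub, nt, ← e0]
    have e4 := norm_add_le (Pb c.Q u (gen c.SK (φ u v) - gen c.SK (φ 0 v)))
      (Pb c.Q u (gen c.SK (φ 0 v)) - gen c.SK (φ 0 v))
    rw [g.ugPb.nrm, map_sub, sub_add_sub_cancel] at e4
    exact e4.trans (by linarith)

end Kp


variable {D : Type*} [NormedAddCommGroup D] [InnerProductSpace ℂ D]

theorem kp_of {c : Ctx D} (t : TA c) : KP c :=
  ⟨fun _ _ _ _ _ hu hd h => Kp.dom t.grp t.kd hu hd h,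
    fun _ _ _ _ _ x _ hu hd h hX hG => Kp.shift t x hu hd h hX hG⟩

theorem Tools.kp {c : Ctx D} (t : Tools c) : KP c := kp_of t.toTA

end

end Vale.Agent.P352L.CK
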