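import Vale.Agent.P352L.CK.Fld

/-!
# P352L, block CONK: bounds for the generators on vectors created by fields (helper57)
-/

set_option linter.all false

open MeasureTheory Filter Topology
open scoped SchwartzMap ComplexConjugate ENNReal ContDiff

namespace Vale.Agent.P352L.CK

open Vale.Agent.P352X
open Vale.Agent.P352 Vale.Agent.P352.GF Vale.Agent.P352.BW Vale.Agent.P352.H246
open Vale.Agent.P352.H496 Vale.Agent.P352.H755 Vale.Agent.P352.H15
open H148 (Od snS)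
open UniformSpace (Completion)
open Complex (I)

noncomputable section

namespace Lwf

export Vale.Agent.P352X.CK.Lwf (od_comp bd1 bd2 Fm adj_id adj_iter thin)

variable {D : Type*} [NormedAddCommGroup D] [InnerProductSpace ℂ D]

theorem fm_sum {ι κ : Type} [Fintype κ] {v : κ → ι → D} {s : ℕ → ι → ℝ} {s' : κ → ℕ → ι → ℝ}
    (h : ∀ j, Fm (v j) (s' j)) (nn : ∀ m i, 0 ≤ s m i) (mono : ∀ m n i, m ≤ n → s m i ≤ s n i)
    (le : ∀ j m i, s' j m i ≤ s m i) : Fm (fun i => ∑ j, v j i) s := by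
  refine ⟨nn, mono, fun R R' a => ?_⟩
  choose m C C0 hC using fun j => (h j).bd R R' a
  refine ⟨Finset.univ.sup m, ∑ j, C j, Finset.sum_nonneg fun j _ => C0 j, fun i => ?_⟩
  rw [show R (∑ j, v j i) = ∑ j, R (v j i) from map_sum (AddMonoidHom.mk' R a.add) _ _,
    Finset.sum_mul]
  exact norm_sum_le_of_le _ fun j _ => (hC j i).trans (mul_le_mul_of_nonneg_left
    ((le j _ i).trans (mono _ _ _ (Finset.le_sup (Finset.mem_univ j)))) (C0 j))

theorem fm_od {B B' : Fld D} (h : Od B B') (v : D) {ι : Type} (g : ι → Sch) :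
    Fm (fun i => B (ev (g i)) v) fun m i => sn m (g i) :=
  ⟨fun _ _ => Lie.sn_nonneg _ _, fun _ _ _ h => Lie.sn_mono h _, fun _ _ a =>
    let ⟨m, C, C0, k⟩ := bd1 (od_comp a h) v
    ⟨m, C, C0, fun i => k (g i)⟩⟩

theorem fm_od2 {B B' E E' : Fld D} (h : Od B B') (h' : Od E E') (v : D) {ι : Type}
    (f g : ι → Sch) : Fm (fun i => B (ev (f i)) (E (ev (g i)) v))
      fun m i => sn m (f i) * sn m (g i) :=
  ⟨fun m q => mul_nonneg (Lie.sn_nonneg _ _) (Lie.sn_nonneg _ _), fun _ _ q h =>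
    mul_le_mul (Lie.sn_mono h _) (Lie.sn_mono h _) (Lie.sn_nonneg _ _) (Lie.sn_nonneg _ _),
    fun _ _ a => let ⟨m, C, C0, k⟩ := bd2 (od_comp a h) h' v
    ⟨m, C, C0, fun i => k (f i, g i)⟩⟩

theorem fmT (c : Ctx D) : Fm (fun G : TS => c.Tf (evT G) c.Q.vac) snT := by
  simp only [Tf_eq]
  exact fm_sum (fun I => fm_od (Gen.od c I.1 I.2) _ fun G : TS => G I) snT_nonneg
    (fun _ _ G h => snT_mono h G) fun I m G => le_snT m G I

theorem nn2 (m : ℕ) (q : Sch × TS) : 0 ≤ sn m q.1 * snT m q.2 :=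
  mul_nonneg (Lie.sn_nonneg _ _) (snT_nonneg _ _)

theorem mono2 (m n : ℕ) (q : Sch × TS) (h : m ≤ n) :
    sn m q.1 * snT m q.2 ≤ sn n q.1 * snT n q.2 :=
  mul_le_mul (Lie.sn_mono h _) (snT_mono h _) (snT_nonneg _ _) (Lie.sn_nonneg _ _)

theorem fmWT (c : Ctx D) : Fm (fun q : Sch × TS => c.Wf (ev q.1) (c.Tf (evT q.2) c.Q.vac))
    fun m q => sn m q.1 * snT m q.2 := by
  have e : ∀ (f : Sch) (v : I2 → D), c.Wf (ev f) (∑ I, v I) = ∑ I, c.Wf (ev f) (v I) :=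
    fun f v => map_sum (AddMonoidHom.mk' (c.Wf (ev f))
      (Adj.add fun v w => wf_herm ⟨f, rfl⟩ v w)) _ _
  simp only [Tf_eq, e]
  exact fm_sum (fun I => fm_od2 (od_W c) (Gen.od c I.1 I.2) _ (fun q : Sch × TS => q.1)
    fun q => q.2 I) nn2 mono2 fun I m q =>
      mul_le_mul_of_nonneg_left (le_snT m q.2 I) (Lie.sn_nonneg _ _)

theorem fmTW (c : Ctx D) : Fm (fun q : Sch × TS => c.Tf (evT q.2) (c.Wf (ev q.1) c.Q.vac))
    fun m q => sn m q.1 * snT m q.2 := by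
  simp only [Tf_eq]
  exact fm_sum (fun I => fm_od2 (Gen.od c I.1 I.2) (od_W c) _ (fun q : Sch × TS => q.2 I)
    fun q => q.1) nn2 mono2 fun I m q => (mul_comm _ _).trans_le
      (mul_le_mul_of_nonneg_left (le_snT m q.2 I) (Lie.sn_nonneg _ _))

variable {c : Ctx D}

/-- the generator leaves the domain invariant and is symmetric there -/
theorem ex_gen {W X} (K : Gen.Fl c W X) (g : GRP c) (u : UG W) :
    ∃ A : D → D, Adj A A ∧ ∀ v : D, Gn W (v : Completion D) (A v : D) := by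
  have h : ∀ v : D, Gn W (v : Completion D) (c.A X v : D) := fun v => by
    have := K.dom g v
    rwa [Completion.coe_smul] at this
  refine ⟨_, fun v w => ?_, h⟩
  simpa only [Completion.inner_coe] using (u.symm (h v) (h w)).symm

theorem fm_lw {ι : Type} {v : ι → D} {s : ℕ → ι → ℝ} (h : Fm v s) (g : GRP c) :
    ∃ (m : ℕ) (C : ℝ), 0 ≤ C ∧ ∀ i, Lw c (v i : D) (C * s m i) := by
  obtain ⟨P, aP, hP⟩ := ex_gen (Gen.fl_ut c vb) g g.ugPb
  obtain ⟨G, aG, hG⟩ := ex_gen (Gen.fl_gb g) g g.ugGb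
  replace hP : ∀ v : D, Gn (Pb c.Q) (v : Completion D) (P v : D) := hP
  obtain ⟨m, C, C0, hC⟩ := h.fin ![id, G, P, fun v => G (P v)] fun j => by
    fin_cases j
    exacts [⟨_, adj_id⟩, ⟨_, aG⟩, ⟨_, aP⟩, ⟨_, aG.comp aP⟩]
  refine ⟨m, C, C0, fun i => ⟨(hG _).dm, (hP _).dm, ?_, ?_, ?_, ?_, ?_⟩⟩ <;>
    simp only [(hP _).gen_eq, (hG _).gen_eq, Completion.norm_coe]
  exacts [(hG _).dm, hC 0 i, hC 1 i, hC 2 i, hC 3 i]

theorem fm_pk {ι : Type} {v : ι → D} {s : ℕ → ι → ℝ} (h : Fm v s) (g : GRP c) (k : ℕ) :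
    ∃ (m : ℕ) (C : ℝ), 0 ≤ C ∧ ∀ i, Pk c k (v i : D) (C * s m i) := by
  obtain ⟨P, aP, hP⟩ := ex_gen (Gen.fl_ut c vb) g g.ugPb
  replace hP : ∀ v : D, Gn (Pb c.Q) (v : Completion D) (P v : D) := hP
  have e : ∀ j (v : D), (gen (Pb c.Q))^[j] v = (P^[j] v : D) := fun j => by
    induction j with
    | zero => exact fun _ => rfl
    | succ j ih => exact fun v => by rw [Function.iterate_succ_apply, (hP _).gen_eq, ih]; rfl
  obtain ⟨m, C, C0, hC⟩ := h.fin (fun j : Fin (k + 1) => P^[j]) fun j => adj_iter aP j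
  refine ⟨m, C, C0, fun i => ⟨fun j _ => e j _ ▸ (hP _).dm, fun j hj => ?_⟩⟩
  rw [e, Completion.norm_coe]
  exact hC ⟨j, Nat.lt_succ_of_le hj⟩ i


end Lwf

open Lwf

variable {D : Type*} [NormedAddCommGroup D] [InnerProductSpace ℂ D] {c : Ctx D}

theorem Lw0.mono {c : Base D} {w : Completion D} {Λ Λ' : ℝ} (h : Lw0 c w Λ) (e : Λ ≤ Λ') :
    Lw0 c w Λ' :=
  ⟨h.dg, h.dp, h.dgp, h.n0.trans e, h.ng.trans e, h.np.trans e, h.ngp.trans e⟩

theorem lwf_of (g : GRP c) : LWF c where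
  one := fm_lw (fm_od (od_W c) _ fun g : Sch => g) g
  pk := fm_pk (fmT c) g
  two := by
    obtain ⟨m, C, C0, h⟩ := fm_lw (fmWT c) g
    obtain ⟨m', C', C0', h'⟩ := fm_lw (fmTW c) g
    refine ⟨max m m', C + C', by positivity, fun f G => ⟨(h (f, G)).mono ?_, (h' (f, G)).mono ?_⟩⟩
    · rw [mul_assoc]
      exact mul_le_mul (le_add_of_nonneg_right C0') (mono2 _ _ (f, G) (le_max_left _ _))
        (nn2 _ (f, G)) (by positivity)
    · rw [mul_assoc]
      exact mul_le_mul (le_add_of_nonneg_left C0) (mono2 _ _ (f, G) (le_max_right _ _))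
        (nn2 _ (f, G)) (by positivity)

theorem Tools.lwf (t : Tools c) : LWF c := lwf_of t.grp

end

end Vale.Agent.P352L.CK
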