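import Vale.Agent.P352X.R.CONK.CV
import Vale.Agent.P352X.R.CONK.Ann
import Vale.Agent.P352X.R.CONK.Prim
import Vale.Agent.P352X.R.CONK.VIT
import Vale.Agent.P352L.CK.Fld
import Vale.Agent.P352L.Slot
import Vale.Agent.P352L.R.STRUCT

/-!
# P352L, block CONK: covariance and orderings (helper57)
-/

set_option linter.all false

open MeasureTheory Filter Topology
open scoped SchwartzMap ComplexConjugate ENNReal ContDiff

namespace Vale.Agent.P352L.CK

open Vale.Agent.P352X
open Vale.Agent.P352 Vale.Agent.P352.GF Vale.Agent.P352.BW Vale.Agent.P352.H246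
open Vale.Agent.P352.H496 Vale.Agent.P352.H755 Vale.Agent.P352.H15
open UniformSpace (Completion)

noncomputable section

namespace Cvr

export Vale.Agent.P352X.CK.Cvr (contr open_U1 open_U2 sq2_sub tst_dlt swp_apply)

variable {D : Type*} [NormedAddCommGroup D] [InnerProductSpace ℂ D] {c : Ctx D}

lemma ww0_apply (w : I2 → I2 → S2 →L[ℂ] Completion D) (F : S2) : ww0 w F =
    ∑ I, ∑ J, ((la I.1 * la I.2 : ℝ) : ℂ) • w I J (hD i2 J F) := by
  simp only [ww0, ContinuousLinearMap.sum_apply, ContinuousLinearMap.smul_apply,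
    ContinuousLinearMap.comp_apply]

lemma coef (L : Ix → V) (K : I2) : ∑ I : I2, ((la I.1 * la I.2 : ℝ) : ℂ) * L2 L K I =
    ((mdot va (L K.1) * mdot va (L K.2) : ℝ) : ℂ) := by
  simp only [GF.mdot, L2, ← Complex.ofReal_mul, ← Complex.ofReal_sum]
  congr 1
  rw [Finset.sum_mul_sum, Fintype.sum_prod_type]
  exact Finset.sum_congr rfl fun _ _ => Finset.sum_congr rfl fun _ _ => by rw [la, la]; ring

lemma key {H : Type*} [AddCommGroup H] [Module ℂ H] {L : Ix → V} {μ : ℝ}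
    (ha : ∀ k, mdot va (L k) = μ * (eta k * va k)) (X : I2 → I2 → I2 → H) :
    ∑ I, ∑ J, ((la I.1 * la I.2 : ℝ) : ℂ) • ∑ K, ∑ M, (L2 L K I * L2 L M J) • X K M J =
    ((μ ^ 2 : ℝ) : ℂ) • ∑ K, ∑ M, ((la K.1 * la K.2 : ℝ) : ℂ) • ∑ J, L2 L M J • X K M J := by
  have e1 : ∑ I, ∑ J, ((la I.1 * la I.2 : ℝ) : ℂ) • ∑ K, ∑ M, (L2 L K I * L2 L M J) • X K M J =
      ∑ K, ∑ M, ∑ J, (∑ I : I2, ((la I.1 * la I.2 : ℝ) : ℂ) * L2 L K I) • L2 L M J • X K M J := by
    simp only [Finset.smul_sum, Finset.sum_smul, smul_smul, mul_assoc, Finset.sum_mul]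
    calc _ = ∑ p : I2 × I2, ∑ q : I2 × I2,
          (((la p.1.1 * la p.1.2 : ℝ) : ℂ) * (L2 L q.1 p.1 * L2 L q.2 p.2)) • X q.1 q.2 p.2 := by
          simp only [Fintype.sum_prod_type (α₁ := I2)]
      _ = _ := Finset.sum_comm
      _ = _ := by
          simp only [Fintype.sum_prod_type (α₁ := I2)]
          exact Finset.sum_congr rfl fun _ _ => Finset.sum_congr rfl fun _ _ => Finset.sum_comm
  rw [e1]
  simp only [coef, ha, Finset.smul_sum, smul_smul, ← mul_assoc, ← Complex.ofReal_mul]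
  refine Finset.sum_congr rfl fun K _ => Finset.sum_congr rfl fun M _ =>
    Finset.sum_congr rfl fun J _ => ?_
  congr 3
  rw [la, la]
  ring

/-- covariance up to multiples of the vacuum -/
def Cov (c : Ctx D) (w : ℝ → I2 → I2 → S2 →L[ℂ] Completion D) : Prop :=
  ∀ α s L a K M (F G : S2), 0 < s → IsLor L → (∀ x y, G (x, y) = F (sim s L a x, sim s L a y)) →
    ∃ κ : ℂ, w (α + Real.log s) K M F =
      ∑ K', ∑ M', (L2 L K' K * L2 L M' M) • Ug c.Q s L a (w α K' M' G) + κ • c.Om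

lemma Cov.one {w : ℝ → I2 → I2 → S2 →L[ℂ] Completion D} (h : Cov c w) (α : ℝ) {s μ : ℝ}
    {L : Ix → V} {a : V} {F G : S2} (hs : 0 < s) (hL : IsLor L)
    (e : ∀ x y, G (x, y) = F (sim s L a x, sim s L a y)) (hr : sim s L 0 va = va)
    (ha : ∀ k, mdot va (L k) = μ * (eta k * va k)) : ∃ κ : ℂ, ww0 (w (α + Real.log s)) F =
      ((μ ^ 2 : ℝ) : ℂ) • Ug c.Q s L a (ww0 (w α) G) + κ • c.Om := by
  set σ := cp (c2 (conf_sim hs hL).cle) (a, a)
  have e1 : ∀ (F : S2) x y, σ F (x, y) = F (sim s L a x, sim s L a y) := fun F x y => by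
    rw [cp_c2, sim_zero a x, sim_zero a y]
    rfl
  obtain rfl : G = σ F := SchwartzMap.ext fun z => (e z.1 z.2).trans (e1 F z.1 z.2).symm
  have e2 : ∀ M, hD i2 M (σ F) = ∑ J, L2 L M J • σ (hD i2 J F) := fun M => by
    simpa using hD_sim (r := 1) (e := i2) (e' := i2) (A := c2 (conf_sim hs hL).cle) hs hL
      (by rw [hr, one_smul]) (fun v => c2_i2 _ v) (a, a) M F
  choose κ hκ using fun K M => h α s L a K M (hD i2 M F) _ hs hL (e1 _)
  refine ⟨∑ I : I2, ∑ J, ((la I.1 * la I.2 : ℝ) : ℂ) * κ I J, ?_⟩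
  rw [ww0_apply, ww0_apply]
  simp only [hκ, smul_add, Finset.sum_add_distrib]
  rw [key ha]
  simp only [e2, map_sum, map_smul, Finset.sum_smul, smul_smul]

lemma Cov.cv (g : GRP c) {w : ℝ → I2 → I2 → S2 →L[ℂ] Completion D} (h : Cov c w) (α : ℝ) :
    Cv c (ww0 (w α)) fun s => ww0 (w (α + Real.log s / 2)) := by
  refine ⟨fun a F G e => ?_, fun s F G hs e => ?_⟩
  · have := h.one α (μ := 1) (a := a) (F := F) (G := G) one_pos H496.isLor_one
      (fun x y => by rw [sim_ut, sim_ut, e]) (by rw [sim_ut, add_zero]) fun k => by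
        rw [← contr (r := 1) H496.isLor_one (by rw [sim_ut, add_zero, one_smul]) k, one_mul,
          one_mul]
    simpa only [one_pow, Complex.ofReal_one, one_smul, Ut, Real.log_one, add_zero] using this
  · obtain ⟨hΛ, hz⟩ := g.lsc 1 s one_pos hs
    have hq : 0 < Real.sqrt (1 * s) := Real.sqrt_pos.2 (by positivity)
    set Λ := bst va vb (Real.sqrt (1 / s) - 1) (Real.sqrt (s / 1) - 1)
    have e1 : sim (Real.sqrt (1 * s)) Λ 0 va = va :=
      (hz va).trans (null_ext (by simp) (by simp) (by simp))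
    have e2 : sim 1 Λ 0 va = (Real.sqrt (1 * s))⁻¹ • va := by
      rw [eq_inv_smul_iff₀ hq.ne', ← sim_smul, e1]
    have := h.one α (μ := Real.sqrt (1 * s)) (a := 0) (F := F) (G := G) hq hΛ
      (fun x y => by rw [hz, hz, e]) e1 fun k => by
        rw [← contr hΛ e2 k, mul_inv_cancel_left₀ hq.ne']
    rw [Real.sq_sqrt (by positivity), Real.log_sqrt (by positivity)] at this
    simpa only [one_mul, Usc] using this

variable {w W : ℝ → ℝ → I2 → I2 → S2 →L[ℂ] Completion D}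

lemma cov_tp {e : Bool} (h : TP2 c.Q c.TT e w) : Cov c fun α => w α α :=
  fun α s L a K M F G hs hL e => by
    simpa only [Ug_apply c.Q hs hL] using h.cov α α s L a K M F G hs hL e

lemma cov_W' (h : IsW c W) : Cov c fun α K M => W α α M K ∘L swp :=
  fun α s L a K M F G hs hL e => ⟨0, by
  rw [zero_smul, add_zero, Finset.sum_comm]
  simp only [ContinuousLinearMap.comp_apply]
  rw [h.2 α α s L a M K (swp F) (swp G) hs hL fun x y => e y x]
  simp only [mul_comm]⟩

lemma late (hw : TP2 c.Q c.TT false w) (hW : IsW c W) (α : ℝ)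
    (K M : I2) {F : S2} (hF : tsupport F ⊆ U1) : w α α K M F = W α α M K (swp F) := by
  refine sub_eq_zero.1 (ST.ker2 (w α α K M - W α α M K ∘L swp) open_U1 (fun f g _ _ hs => ?_) F hF)
  simp only [ContinuousLinearMap.sub_apply, ContinuousLinearMap.comp_apply]
  rw [hw.fac α α K M f g _ (fun _ _ => rfl) fun x hx y hy =>
    hs (Set.mk_mem_prod hx hy) x rfl y rfl, hW.1 α α M K g f _ fun x y => mul_comm (f y) (g x)]
  simp

lemma early (hw : TP2 c.Q c.TT false w) (hW : IsW c W) (α : ℝ)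
    (K M : I2) {F : S2} (hF : tsupport F ⊆ U2) : w α α K M F = W α α K M F := by
  refine sub_eq_zero.1 (ST.ker2 (w α α K M - W α α K M) open_U2 (fun f g _ _ hs => ?_) F hF)
  simp only [ContinuousLinearMap.sub_apply]
  rw [hw.swap α α K M (ST.tens f g) (ST.tens g f) fun x y => mul_comm (g x) (f y),
    hw.fac α α M K g f _ (fun _ _ => rfl) fun y hy x hx => hs (Set.mk_mem_prod hx hy) y rfl x rfl,
    hW.1 α α K M f g _ fun x y => rfl]
  simp

lemma coe_sum2 (a : I2 → ℂ) (v : I2 → I2 → D) :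
    ∑ k, ∑ l, a k • (v k l : Completion D) = ((∑ k, ∑ l, a k • v k l : D) : Completion D) := by
  change _ = Completion.toComplL (𝕜 := ℂ) _
  simp only [map_sum, map_smul]
  rfl

lemma prod (hW : IsW c W) {h g : Fn} {F : S2}
    (hh : IsTest h) (hg : IsTest g) (e : ∀ x y, F (x, y) = h x * g y) :
    R0 c W F = ((Taa c h (c.Wf g c.Q.vac) : D) : Completion D) ∧
    R1 c W F = ((c.Wf g (Taa c h c.Q.vac) : D) : Completion D) := by
  rw [R1, R0, ww0_apply, ww0_apply, Taa_eq hh, Taa_eq hh, Ctx.Wf, Ctx.Wf, Tf_eq, Tf_eq]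
  obtain ⟨h, rfl⟩ := id hh
  obtain ⟨g, rfl⟩ := id hg
  obtain rfl : F = ST.tens h g := eq_tens e
  simp only [ContinuousLinearMap.comp_apply, hD_i2, fun K M g => hW.1 c.tau c.tau K M h g
    (ST.tens h g) fun _ _ => rfl, fun K M g => hW.1 c.tau c.tau K M g h (swp (ST.tens h g)) fun x y =>
      mul_comm (h y) (g x), coe_sum2, ← ev_hD]
  refine ⟨congrArg _ (Finset.sum_congr rfl fun I _ => ?_), congrArg _ (Finset.sum_comm.trans
    (Finset.sum_congr rfl fun J _ => ?_))⟩
  · rw [← Finset.smul_sum]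
    exact congrArg _ (map_sum ((T_lin (c := c) I.1 I.2 hh).mk' _) _ _).symm
  · refine Eq.trans ?_ (map_sum ((T_lin (c := c) J.1 J.2 ⟨hD i0 J g, rfl⟩).mk' _) _ _).symm
    simp only [map_smul]
    rfl

lemma poly {e : Bool} (h : TP2 c.Q c.TT e w) : ∃ J, ∀ F ψ, inner ℂ c.Om ψ = 0 →
    IsPol J fun x => inner ℂ (R0 (c.sh x) w F) ψ := by
  obtain ⟨n, hn⟩ := StrL.pol_diag h
  refine ⟨n, fun F ψ p => (IsPol.sum Finset.univ fun (I : I2) _ => IsPol.sum Finset.univ
    fun J _ => ((hn c.tau c.tau I J (hD i2 J F)).smul ((la I.1 * la I.2 : ℝ) : ℂ)).map'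
      (fun z => inner ℂ z ψ) (fun _ _ => inner_add_left _ _ _) fun a z => ?_).congr fun x => ?_⟩
  · rw [← Complex.coe_smul, inner_smul_left, Complex.conj_ofReal, Complex.real_smul]
  · simp only [R0, ww0_apply, sum_inner, StrL.pp_apply, inner_smul_left, inner_sub_left,
      show inner ℂ (om c.Q) ψ = 0 from p, mul_zero, sub_zero, add_comm x]

end Cvr

open Cvr

variable {D : Type*} [NormedAddCommGroup D] [InnerProductSpace ℂ D] {c : Ctx D}

theorem cv_of (g : GRP c) : CV c := by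
  refine ⟨fun e w h => (cov_tp h).cv g _, fun W h => (cov_W' h).cv g _, fun e w h => poly h,
    fun w W F hw hW hF => ?_, fun w W F hw hW hF => ?_, fun W h g F hW hh hg e => prod hW hh hg e,
    fun W κ f ρ θ1 δ L hW hκ hf hρ h1 hδ hL => ?_⟩
  · simp only [R0, R1, ww0_apply, ContinuousLinearMap.comp_apply,
      late hw hW _ _ _ ((tsupport_hD _ _ F).trans hF)]
  · simp only [R0, ww0_apply, early hw hW _ _ _ ((tsupport_hD _ _ F).trans hF)]
  · have d1 := fun j => Far.dc_pr (tst_wt (smooth_qol j) (Far.tst_kL hκ hL)) (tst_dlt hρ hδ)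
    have d2' := fun j => Far.dc_pr (tst_wt (smooth_pol j) hf) h1
    have e : pairF sq2 κ f ρ θ1 δ L = ∑ j, ST.tens (sch (pr (wt (qol j) (kL κ L)) (dlt δ ρ)))
        (sch (pr (wt (pol j) f) θ1)) := by
      ext z
      rw [CK.ann_row.app sq2 κ f ρ θ1 δ L (smooth_d2 contDiff_id contDiff_id) hκ hf hρ h1 hδ hL,
        sq2_sub]
      simp only [SchwartzMap.sum_apply, ST.tens_apply, Far.sch_apply (d1 _), Far.sch_apply (d2' _),
        pr, wt, pl_2, Finset.sum_mul, Complex.ofReal_sum, ← Complex.ofReal_mul]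
      exact Finset.sum_congr rfl fun j _ => congrArg _ (by ring)
    have p := fun j => prod hW (F := ST.tens (sch (pr (wt (qol j) (kL κ L)) (dlt δ ρ)))
      (sch (pr (wt (pol j) f) θ1))) (Far.isTest_dc (d1 j)) (Far.isTest_dc (d2' j)) fun x y => by
        rw [ST.tens_apply, Far.sch_apply (d1 j), Far.sch_apply (d2' j)]
    rw [e, map_sum, map_sum]
    exact ⟨Finset.sum_congr rfl fun j _ => (p j).1, Finset.sum_congr rfl fun j _ => (p j).2⟩

theorem Tools.cv (t : Tools c) : CV c := cv_of t.grp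
theorem Tools.ann (_ : Tools c) : ANN := P352X.CK.ann_row
theorem Tools.prim (_ : Tools c) : PRIM := P352X.CK.prim_row
theorem Tools.vit (_ : Tools c) : VIT := P352X.CK.vit_row

end

end Vale.Agent.P352L.CK
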