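import Vale.Agent.P352L.CK.AbZ
import Vale.Agent.P352L.CK.Fld
import Vale.Agent.P352L.R.D1

/-!
# P352L, block CONK: norms of vectors created by one field, the form above the plane (helper57)
-/

set_option linter.all false

open MeasureTheory Filter Topology Set
open scoped ContDiff

namespace Vale.Agent.P352L.CK

open Vale.Agent.P352X
open Vale.Agent.P352 Vale.Agent.P352.GF Vale.Agent.P352.BW Vale.Agent.P352.H246
open Vale.Agent.P352.H496 Vale.Agent.P352.H755 Vale.Agent.P352.H15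
open UniformSpace (Completion)
open NC P352X.CK.Norm

noncomputable section

variable {D : Type*} [NormedAddCommGroup D] [InnerProductSpace ℂ D] {c : Ctx D}

theorem wt_le {C d e l : ℝ} (C0 : 0 ≤ C) (d0 : 0 < d) (d1 : d ≤ 1 / 4) (he : 0 < e) (hl : 0 < l)
    (a : ℝ) {p : V} (hp : p ∈ Fc) :
    C * ((e * mu p) ^ d + (e * mu p) ^ (-d)) * nn p va * nn p va * a ^ 2 ≤
      8 * C * wd d (e / l) * (Wt.Lm (l * mu p) * (be p ^ 2 * a) ^ 2) := by
  have := mul_le_mul_of_nonneg_right (wd_le_Lm he hl (show 0 < mu p from hp.1) d0.le d1)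
    (show 0 ≤ 4 * C * (be p ^ 2 * a) ^ 2 by positivity)
  rw [nn_va]
  rw [wd] at this
  linarith

theorem norm_of (t : TA c) (h2 : TWO c) (he : ELT c) : NORM c := by
  refine ⟨fun d d0 d1 => ?_, fun g hg => ?_, ?_⟩
  · obtain ⟨C, C0, hC⟩ := h2 d d0
    refine ⟨√(8 * C) * KN, mul_nonneg (Real.sqrt_nonneg _) KN_nonneg,
      fun x A B g φ hg hφ hA hB => ?_⟩
    have e0 := Real.exp_pos (2 * (c.tau + x))
    have w1 := one_le_wd (div_pos e0 (mul_pos hA hB)) d
    have := taa_le hg hφ hA hB (by positivity) (hC x va va _ (Ap.dc_sw (dc_pf hg hφ)))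
      fun p hp => wt_le C0 d0 d1 e0 (mul_pos hA hB) _ hp
    have n1 := N3_nonneg hA (da g)
    have n2 := N1_nonneg B φ
    have n3 := KN_nonneg
    rw [← ofReal_measureReal, c.bt.nu_univ, ENNReal.ofReal_le_ofReal_iff (by positivity)] at this
    refine abs_le_of_sq_le_sq' (this.trans ?_) (by positivity) |>.2
    set w := wd d (Real.exp (2 * (c.tau + x)) / (A * B))
    calc _ ≤ 8 * C * w ^ 2 * (KN * N3 A (da g) * N1 B φ) ^ 2 := by
          gcongr
          nlinarith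
      _ = _ := by
          simp only [mul_pow, Real.sq_sqrt (show 0 ≤ 8 * C by positivity)]
          ring
  · obtain ⟨C, C0, hC⟩ := h2 (1 / 4) (by norm_num)
    obtain ⟨K, K0, hK⟩ := low_le hg
    have e0 := Real.exp_pos (2 * (c.tau + 0))
    have w1 := wd_pos (div_pos e0 one_pos) (1 / 4)
    refine ⟨√(8 * C * wd (1 / 4) (Real.exp (2 * (c.tau + 0)) / 1)) * K, by positivity,
      fun φ s hφ s0 s1 => ?_⟩
    have := hK _ _ φ (8 * C * wd (1 / 4) (Real.exp (2 * (c.tau + 0)) / 1)) s (by positivity) s0 s1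
      (hC 0 va va _ (Ap.dc_sw (dc_pf hg hφ))) fun p hp => by
        simpa only [one_mul] using wt_le C0 (by norm_num) le_rfl e0 one_pos _ hp
    rw [c.sh_zero] at this
    refine this.trans_eq (congrArg _ ?_)
    simp only [mul_pow]
    rw [Real.sq_sqrt (by positivity)]
    ring
  · obtain ⟨ell, c0, h⟩ := he
    obtain ⟨C, C0, hC⟩ := CZ.norm3 (c := t.kn) h.el
    refine ⟨C, C0, fun g φ hg hφ => ?_⟩
    have d := hφ.1.differentiable (by simp)
    have e : ∀ g, Dc g → dv va (pf g φ) = pf (da g) φ := fun g hg =>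
      Ap.dv_pf_a (hg.1.differentiable (by simp)) d
    rw [D1w.wv_thv t h (Ap.dc_sw (dc_pf hg hφ)), Z.daa, e _ hg, e _ (dc_da hg)]
    exact hC _ _ (dc_da (dc_da hg)) hφ

theorem dx_wt {p : R2 → ℝ} (hp : ContDiff ℝ ∞ p) {f : P3 → ℝ} (hf : Tst f) :
    Ib.Dx (1, 0) (wt p f) = wt p (Ib.Dx (1, 0) f) := funext fun y =>
  Ib.Dx_eq ((tst_wt hp hf).1.differentiable (by simp)) (by
    simpa [HasLineDerivAt, Prod.add_def, wt, Ib.Dx] using
      HasDerivAt.const_mul (p y.2) ((hf.1.differentiable (by simp) y).hasFDerivAt.hasLineDerivAt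
        (1, 0)))

theorem ab_of (t : TA c) (he : ELT c) : AB c := fun f θ1 θ hf h1 hθ => by
  obtain ⟨ell, c0, h⟩ := he
  obtain ⟨C, C0, hC⟩ := CZ.ab (c := t.kn) h.el (Z.Sr.schur_thm (D1w.slw t h) h.el) t.kt.ug0
    (Z.tst_dd2 hf) h1 hθ
  refine ⟨C, 1, C0, one_pos, fun δ ψ d0 d1 k => Eq.trans_le (congrArg _ ?_)
    (hC δ ψ d0 d1 k.1 k.2.1 k.2.2)⟩
  have a := Ap.tst_abv h1 hθ d0
  have e : ∀ p : R2 → ℝ, ContDiff ℝ ∞ p → c.Wv (pr (fun y => p y.2 * f y) (abv θ1 θ δ)) =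
      Z.Thv ell (pr (fun y => p y.2 * Z.dd2 f y) (abv θ1 θ δ)) := fun p hp => by
    have k := tst_wt hp hf
    refine (D1w.wv_thv t h (Ap.test_pr k a)).trans (congrArg _ ((Z.daa_pr k a).trans ?_))
    rw [Z.dd2, dx_wt hp hf, dx_wt hp (Ib.tst_Dx _ hf)]
    rfl
  rw [Ctx.AbW, CZ.AbG, D1w.wv_thv t h (Ap.test_pr hf a), Z.daa_pr hf a,
    e (fun x => d2 x x) (smooth_d2 contDiff_id contDiff_id)]
  simp only [fun i => e (fun x => x i) (contDiff_apply ℝ ℝ i)]
  rfl

theorem Tools.norm (t : Tools c) : NORM c := norm_of t.toTA t.two t.elt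

theorem Tools.ab (t : Tools c) : AB c := ab_of t.toTA t.elt

end

end Vale.Agent.P352L.CK
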