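import Vale.Agent.P352X.R.CONK.A3.A
import Vale.Agent.P352X.R.CONK.Tail
import Vale.Agent.P352L.CK.NCore
import Vale.Agent.P352L.Pol

/-!
# P352L, block CONK: profiles, and the running lemma with a bounded target (helper57)
-/

set_option linter.all false

open MeasureTheory Filter Topology Set
open scoped SchwartzMap ENNReal ContDiff Real

namespace Vale.Agent.P352L.NC

open Vale.Agent.P352 Vale.Agent.P352.GF Vale.Agent.P352.BW Vale.Agent.P352.H246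
open Vale.Agent.P352.H496 Vale.Agent.P352.H755 Vale.Agent.P352.H15
open Vale.Agent.P352X Vale.Agent.P352X.CK Vale.Agent.P352X.CK.A3p

noncomputable section

/-! ### profiles -/

theorem n1_cx (φ : ℝ → ℝ) : n1 (cx φ) = ∫ t, |φ t| := by
  simp only [n1, cx, Complex.norm_real, Real.norm_eq_abs]

theorem int_dlt {δ : ℝ} (hδ : 0 < δ) (ρ : ℝ → ℝ) : ∫ t, |dlt δ ρ t| = ∫ t, |ρ t| := by
  simp only [Ap.abs_dlt hδ, Ap.integral_dlt hδ]

theorem deriv_dlt (δ : ℝ) (ρ : ℝ → ℝ) (t : ℝ) :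
    deriv (dlt δ ρ) t = δ⁻¹ * dlt δ (deriv ρ) t := by
  rw [Ap.dlt_eq, deriv_const_mul_field, Ap.deriv_dil]
  rfl

theorem N1_dlt {ρ : ℝ → ℝ} (h : Tst ρ) : ∃ C, 0 ≤ C ∧ ∀ δ : ℝ, 0 < δ →
    N1 δ (cx (dlt δ ρ)) ≤ C / √δ := by
  refine ⟨(∫ t, |ρ t|) + ∫ t, |deriv ρ t|, add_nonneg (integral_nonneg fun _ => abs_nonneg _)
    (integral_nonneg fun _ => abs_nonneg _), fun δ hδ => le_of_eq ?_⟩
  have s := Real.sqrt_pos.2 hδ
  rw [N1, A3p.deriv_cx (Ap.tst_dlt h hδ.ne'), n1_cx, n1_cx, int_dlt hδ]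
  simp only [deriv_dlt, abs_mul, abs_of_pos (inv_pos.2 hδ), integral_const_mul, int_dlt hδ]
  field_simp
  rw [Real.sq_sqrt hδ.le]
  ring

theorem N1_one {φ : ℝ → ℝ} (h : Tst φ) : N1 1 (cx φ) = (∫ t, |φ t|) + ∫ t, |deriv φ t| := by
  rw [N1, A3p.deriv_cx h, n1_cx, n1_cx]
  simp

theorem int_bd {R : ℝ → ℝ} (hs : tsupport R ⊆ Icc (-1) 1) {M : ℝ} (hM : ∀ t, |R t| ≤ M) :
    ∫ t, |R t| ≤ 2 * M := n1_cx R ▸ (Tl.bd_norms hs hM).1

/-- primitives with bounds for the norms `N1` -/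
theorem prim1 (hp : PRIM) : ∃ (χ : ℝ → ℝ) (C : ℝ), Tst χ ∧ 0 ≤ C ∧
    ∀ ρ, Tst ρ → tsupport ρ ⊆ Icc (-1) 1 → ∃ R, Tst R ∧
      (∀ t, ρ t = deriv R t + (∫ t, ρ t) * χ t) ∧ N1 1 (cx R) ≤ C * ∫ t, |ρ t| := by
  obtain ⟨χ, C, hχ, -, C0, h⟩ := hp
  have c0 : 0 ≤ ∫ t, |χ t| := integral_nonneg fun _ => abs_nonneg _
  refine ⟨χ, 2 * C + 1 + ∫ t, |χ t|, hχ, by positivity, fun ρ hρ hs => ?_⟩
  obtain ⟨R, hR, sR, e, b⟩ := h ρ hρ hs
  refine ⟨R, hR, e, ?_⟩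
  have i1 : Integrable ρ := Ap.cs_int hρ
  have i2 : Integrable χ := Ap.cs_int hχ
  have k : ∫ t, |deriv R t| ≤ (∫ t, |ρ t|) + (∫ t, |ρ t|) * ∫ t, |χ t| := by
    rw [← integral_const_mul, ← integral_add i1.abs (i2.abs.const_mul _)]
    refine integral_mono (Ap.cs_int (Ap.cs_deriv hR)).abs (i1.abs.add (i2.abs.const_mul _))
      fun t => ?_
    rw [show deriv R t = ρ t - (∫ t, ρ t) * χ t from eq_sub_of_add_eq (e t).symm]
    refine (abs_sub _ _).trans (add_le_add le_rfl ?_)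
    rw [abs_mul]
    exact mul_le_mul_of_nonneg_right abs_integral_le_integral_abs (abs_nonneg _)
  rw [N1_one hR]
  linarith [int_bd sR b]

/-- two widths of the same profile -/
theorem prim_dlt (hp : PRIM) {ρ : ℝ → ℝ} (hρ : Tst ρ) (hs : tsupport ρ ⊆ Icc (-1) 1) :
    ∃ C, 0 ≤ C ∧ ∀ δ δ' : ℝ, 0 < δ' → δ' ≤ δ → δ ≤ 1 → ∃ R, Tst R ∧ tsupport R ⊆ Icc (-1) 1 ∧
      (∀ t, dlt δ ρ t = deriv R t + dlt δ' ρ t) ∧ ∫ t, |R t| ≤ C * δ := by
  obtain ⟨χ, C, hχ, -, C0, h⟩ := hp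
  have r0 : 0 ≤ ∫ t, |ρ t| := integral_nonneg fun _ => abs_nonneg _
  refine ⟨2 * (C * (2 * ∫ t, |ρ t|)), by positivity, fun δ δ' h0 h1 h2 => ?_⟩
  have δ0 : 0 < δ := h0.trans_le h1
  have q0 : 0 < δ' / δ := div_pos h0 δ0
  have q1 : δ' / δ ≤ 1 := (div_le_one δ0).2 h1
  have td := Ap.tst_dlt hρ q0.ne'
  have i1 : Integrable ρ := Ap.cs_int hρ
  have i2 : Integrable (dlt (δ' / δ) ρ) := Ap.cs_int td
  obtain ⟨R, hR, sR, e, b⟩ := h (fun t => ρ t - dlt (δ' / δ) ρ t) (Ap.cs_sub hρ td)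
    (Ap.tsupp_sub isClosed_Icc fun t k => by
      by_cases k1 : ρ t = 0
      · have : dlt (δ' / δ) ρ t ≠ 0 := fun e => k (by simp [k1, e])
        exact Icc_subset_Icc (by linarith) (by linarith)
          (Ap.tsupport_dlt_Icc hs q0 (subset_tsupport _ this))
      · exact hs (subset_tsupport _ k1))
  rw [integral_sub i1 i2, Ap.integral_dlt q0, sub_self] at e
  have k : ∫ t, |ρ t - dlt (δ' / δ) ρ t| ≤ 2 * ∫ t, |ρ t| := by
    rw [two_mul]
    nth_rw 2 [← int_dlt q0 ρ]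
    rw [← integral_add i1.abs i2.abs]
    exact integral_mono (i1.sub i2).abs (i1.abs.add i2.abs) fun t => abs_sub _ _
  refine ⟨dil δ R, Ap.tst_dil hR δ0.ne', (Ap.tsupport_dil_Icc sR δ0).trans
    (Icc_subset_Icc (by linarith) (by linarith)), fun t => ?_, ?_⟩
  · have := e (t / δ)
    rw [zero_mul, add_zero] at this
    rw [Ap.deriv_dil, ← this]
    simp only [dlt]
    rw [show t / δ / (δ' / δ) = t / δ' by field_simp]
    field_simp
    ring
  · rw [show (∫ t, |dil δ R t|) = δ * ∫ t, |R t| from Ap.integral_dil δ0 fun t => |R t|, mul_comm]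
    exact mul_le_mul_of_nonneg_right (int_bd sR fun t => (b t).trans
      (mul_le_mul_of_nonneg_left k C0)) δ0.le

/-! ### functions on the plane -/

theorem n2_cmul {α : Type*} [MeasureSpace α] (a : ℝ) (g : α → ℝ) :
    n2 (cx fun y => a * g y) = |a| * n2 (cx g) := by
  simp only [n2, cx, Complex.ofReal_mul, norm_mul, mul_pow, integral_const_mul, Complex.norm_real,
    Real.norm_eq_abs]
  rw [Real.sqrt_mul (sq_nonneg _), Real.sqrt_sq (abs_nonneg _)]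

theorem dR_wk {p : R2 → ℝ} {g : P3 → ℝ} (hp : ContDiff ℝ ∞ p) (hg : Tst g) {A : ℝ} (hA : 0 < A)
    (a : ℝ) : dR (fun y => a * wt p (kL g A) y) = fun y => a * A⁻¹ * wt p (kL (dR g) A) y := by
  have e : (fun y => a * wt p (kL g A) y) = wt (fun x => a * p x) (kL g A) :=
    funext fun y => by simp only [CK.wt, mul_assoc]
  rw [e, dR_wt (contDiff_const.mul hp) (Ap.tst_kL hg hA), dR_kL hg]
  funext y
  simp only [CK.wt]
  ring

theorem n2_pl0 {g : P3 → ℝ} {u : R2 → ℝ} (hg : Tst g) (hu : Tst u) : ∃ C, 0 ≤ C ∧ ∀ A s : ℝ,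
    0 < A → 0 < s → n2 (cx (wt (fun x => u (s⁻¹ • x)) (kL g A))) ≤ C * (s * √A) := by
  obtain ⟨M, M0, hM⟩ := Ap.cs_bd0 hg
  obtain ⟨N, N0, hN⟩ := Ap.cs_bd0 hu
  obtain ⟨R, R0, hR⟩ := ex_R hg
  obtain ⟨r, r0, hr⟩ := ex_R hu
  refine ⟨N * M * (√(2 * R) * (2 * r)), by positivity, fun A s hA hs => ?_⟩
  refine (n2_le (S := Icc (-(R * A)) (R * A) ×ˢ Metric.closedBall 0 (r * s))
    (M := N * M) (v := √(2 * R) * √A * (2 * (r * s))) ?_
    (by positivity) (by positivity) (fun y => ?_) fun y h => ⟨?_, ?_⟩).trans_eq (by ring)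
  · rw [Measure.volume_eq_prod, Measure.prod_prod, Real.volume_Icc,
      Real.volume_pi_closedBall _ (by positivity),
      ← ENNReal.ofReal_mul (by nlinarith [mul_pos R0 hA]),
      Fintype.card_fin, mul_pow (_ * √A), mul_pow (√_), Real.sq_sqrt hA.le,
      Real.sq_sqrt (by positivity)]
    exact le_of_eq (congrArg _ (by ring))
  · simp only [CK.wt, abs_mul]
    exact mul_le_mul (hN _) (hM _) (abs_nonneg _) N0
  · have : |y.1 / A| ≤ R := (norm_fst_le (_, _)).trans (hR _ (subset_tsupport _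
      (right_ne_zero_of_mul h)))
    rwa [abs_div, abs_of_pos hA, div_le_iff₀ hA, abs_le] at this
  · have := hr _ (subset_tsupport _ (left_ne_zero_of_mul h))
    rwa [norm_smul, norm_inv, Real.norm_of_nonneg hs.le, inv_mul_le_iff₀' hs,
      ← mem_closedBall_zero_iff] at this

theorem N3_md (l : R2 →L[ℝ] ℝ) {G : P3 → ℝ} (hG : Tst G) (A : ℝ) :
    N3 A (da (md l G)) = n2 (cx (dR G)) / A + A * n2 (cx (dR (dR (dR G)))) := by
  rw [N3, da_md l hG, da_md l (tst_dR hG), da_md l (tst_dR (tst_dR hG)), n2_md, n2_md]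

/-- the norm of a far tube -/
theorem N3_plane {g : P3 → ℝ} {u : R2 → ℝ} (hg : Tst g) (hu : Tst u) : ∃ C, 0 ≤ C ∧
    ∀ (A s : ℝ) (l : R2 →L[ℝ] ℝ), 0 < A → 0 < s →
      N3 A (da (md l (wt (fun x => u (s⁻¹ • x)) (kL g A)))) ≤ C * (s * √A / A ^ 2) := by
  obtain ⟨C1, a1, h1⟩ := n2_pl0 (tst_dR hg) hu
  obtain ⟨C3, a3, h3⟩ := n2_pl0 (tst_dR (tst_dR (tst_dR hg))) hu
  refine ⟨C1 + C3, by positivity, fun A s l hA hs => ?_⟩
  have us : ContDiff ℝ ∞ fun x => u (s⁻¹ • x) := hu.1.comp (contDiff_const_smul _)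
  have e1 := dR_wk us hg hA 1
  simp only [one_mul] at e1
  rw [N3_md l (tst_wt us (Ap.tst_kL hg hA)), show dR (wt (fun x => u (s⁻¹ • x)) (kL g A)) = _
    from e1, dR_wk us (tst_dR hg) hA, dR_wk us (tst_dR (tst_dR hg)) hA, n2_cmul, n2_cmul,
    abs_of_pos (by positivity), abs_of_pos (by positivity)]
  have b1 := h1 A s hA hs
  have b3 := h3 A s hA hs
  calc _ ≤ A⁻¹ * (C1 * (s * √A)) / A + A * (A⁻¹ * A⁻¹ * A⁻¹ * (C3 * (s * √A))) := by gcongr
    _ = _ := by field_simp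

end

end Vale.Agent.P352L.NC

namespace Vale.Agent.P352L.IsPol

open Polynomial Finset

variable {E : Type*} [NormedAddCommGroup E] [NormedSpace ℝ E] {J : ℕ} {p : ℝ → E} {ι : Type*}
  {l : Filter ι}

/-- a polynomial that is bounded along a sequence that tends to infinity is constant -/
theorem eq_of_bdd [l.NeBot] (h : IsPol J p) {τ : ι → ℝ} {M : ℝ}
    (hτ : Tendsto (fun n => |τ n|) l atTop) (hM : ∀ᶠ n in l, ‖p (τ n)‖ ≤ M) (σ σ' : ℝ) :
    p σ = p σ' := by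
  refine (NormedSpace.eq_iff_forall_dual_eq ℝ).2 fun g => ?_
  obtain ⟨b, hb⟩ := h
  set q : ℝ[X] := ∑ j ∈ range (J + 1), C (g (b j)) * X ^ j with hq
  have e : ∀ t, g (p t) = q.eval t := fun t => by
    simp only [hb, hq, map_sum, map_smul, eval_finset_sum, eval_mul, eval_C, eval_pow, eval_X,
      smul_eq_mul, mul_comm]
  have h2 : q.degree ≤ 0 := not_lt.1 fun h0 => by
    obtain ⟨n, a1, a2⟩ := (((q.tendsto_norm_atTop h0 hτ).eventually
      (eventually_gt_atTop (‖g‖ * M))).and hM).exists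
    rw [← e] at a1
    exact absurd ((g.le_opNorm _).trans (mul_le_mul_of_nonneg_left a2 (norm_nonneg g)))
      (not_le.2 a1)
  rw [e, e, eq_C_of_degree_le_zero h2, eval_C, eval_C]

/-- the running lemma for a bounded target -/
theorem run2 [l.NeBot] {F : ι → ℝ → E} {τ : ι → ℝ} {a : ι → E} {M : ℝ}
    (h : ∀ᶠ n in l, IsPol J (F n))
    (hb : ∀ σ, Tendsto (fun n => (1 + |τ n|) ^ J * ‖F n σ - p σ‖) l (𝓝 0))
    (hτ : Tendsto (fun n => |τ n|) l atTop) (ha : Tendsto (fun n => F n (τ n) - a n) l (𝓝 0))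
    (hM : ∀ᶠ n in l, ‖a n‖ ≤ M) (σ : ℝ) : Tendsto (fun n => F n σ - a n) l (𝓝 0) := by
  have hp : ∀ σ, Tendsto (fun n => F n σ - p σ) l (𝓝 0) := fun σ =>
    squeeze_zero_norm (fun n => le_mul_of_one_le_left (norm_nonneg _)
      (one_le_pow₀ (by linarith [abs_nonneg (τ n)]))) (hb σ)
  have pp : IsPol J p := lim h fun σ => tendsto_sub_nhds_zero_iff.1 (hp σ)
  obtain ⟨C, C0, hC⟩ := bd (E := E) J
  have h2 : Tendsto (fun n => F n (τ n) - p (τ n)) l (𝓝 0) := by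
    refine squeeze_zero_norm' (a := fun n => C * ∑ i ∈ range (J + 1),
      (1 + |τ n|) ^ J * ‖F n i - p i‖) ?_
      (by simpa using (tendsto_finset_sum (range (J + 1)) fun (i : ℕ) _ => hb i).const_mul C)
    filter_upwards [h] with n a1
    refine (hC _ (∑ i ∈ range (J + 1), ‖F n i - p i‖) (a1.sub pp) (fun i hi => single_le_sum
      (f := fun i : ℕ => ‖F n i - p i‖) (fun _ _ => norm_nonneg _) hi) (τ n)).trans_eq ?_
    rw [← mul_sum, mul_assoc]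
  have h3 : Tendsto (fun n => p (τ n) - a n) l (𝓝 0) := by
    simpa using ha.sub h2
  have h4 := pp.eq_of_bdd hτ (M := 1 + M) (by
    filter_upwards [hM, NormedAddGroup.tendsto_nhds_zero.1 h3 1 one_pos] with n a1 a2
    exact (norm_le_norm_sub_add _ (a n)).trans (add_le_add a2.le a1))
  have h5 := (hp σ).add h3
  rw [add_zero] at h5
  exact h5.congr fun n => by rw [h4 σ (τ n), sub_add_sub_cancel]

end Vale.Agent.P352L.IsPol

namespace Vale.Agent.P352L.NC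

/-- the filter of the iterated limits -/
abbrev fl : Filter (ℝ × ℝ) := (𝓝[>] (0 : ℝ)).curry atTop

instance : fl.NeBot := by
  refine ⟨fun h => ?_⟩
  have : ∀ᶠ i in fl, False := by rw [h]; exact eventually_bot
  rw [eventually_curry_iff] at this
  obtain ⟨_, k⟩ := this.exists
  exact k.exists.elim fun _ => id

theorem fl_fst : Tendsto Prod.fst fl (𝓝[>] (0 : ℝ)) := fun _ h =>
  eventually_curry_iff.2 (mem_of_superset h fun _ k => .of_forall fun _ => k)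

theorem log_pow (J : ℕ) (b : ℝ) {ε : ℝ} (hε : 0 < ε) :
    Tendsto (fun δ : ℝ => (1 + |b + Real.log δ / 2|) ^ J * δ ^ ε) (𝓝[>] 0) (𝓝 0) := by
  obtain ⟨C, C0, h⟩ := log_le_rpow_bot J (1 / 2) b (half_pos hε)
  have t : Tendsto (fun δ : ℝ => C * δ ^ (ε / 2)) (𝓝[>] 0) (𝓝 0) := by
    have := ((Real.continuousAt_rpow_const 0 (ε / 2) (.inr (half_pos hε).le)).tendsto.mono_left
      (nhdsWithin_le_nhds (s := Ioi 0))).const_mul C
    rwa [Real.zero_rpow (half_pos hε).ne', mul_zero] at this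
  refine squeeze_zero' (mem_of_superset self_mem_nhdsWithin fun δ (k : 0 < δ) => ?_) ?_ t
  · exact mul_nonneg (by positivity) (Real.rpow_nonneg k.le _)
  · filter_upwards [Ioc_mem_nhdsGT one_pos] with δ k
    have := h δ k.1 k.2
    rw [show (1 / 2 : ℝ) * Real.log δ = Real.log δ / 2 by ring] at this
    refine (mul_le_mul_of_nonneg_right this (Real.rpow_nonneg k.1.le _)).trans_eq ?_
    rw [mul_assoc, ← Real.rpow_add k.1]
    congr 2
    ring

theorem abs_log (b : ℝ) : Tendsto (fun δ : ℝ => |b + Real.log δ / 2|) (𝓝[>] 0) atTop :=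
  tendsto_abs_atBot_atTop.comp (tendsto_atBot_add_const_left _ b
    (Real.tendsto_log_nhdsGT_zero.atBot_div_const two_pos))

/-- limits with a rate -/
theorem cauchy_rate {F : ℝ → ℝ → ℂ} {C σ δ0 A0 : ℝ} {m : ℕ} (hσ : 0 < σ) (hδ0 : 0 < δ0)
    (h : ∀ δ δ' A L L', 0 < δ' → δ' ≤ δ → δ ≤ δ0 → A0 ≤ A → A ≤ L → A ≤ L' →
      ‖F δ L - F δ' L'‖ ≤ C * (A ^ m * δ + A ^ (-σ))) :
    ∃ n : ℂ, ∀ (J : ℕ) (b : ℝ),
      Tendsto (fun i : ℝ × ℝ => (1 + |b + Real.log i.1 / 2|) ^ J * ‖F i.1 i.2 - n‖) fl (𝓝 0) := by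
  set e : ℝ := 1 / (2 * m + 2) with he
  have e0 : 0 < e := by positivity
  let A : ℝ → ℝ := fun δ => δ ^ (-e)
  let r : ℝ → ℝ := fun δ => |C| * (δ ^ (1 / 2 : ℝ) + δ ^ (e * σ))
  have tA : Tendsto A (𝓝[>] 0) atTop := tendsto_rpow_neg_nhdsGT_zero (by linarith)
  have tr : ∀ (J : ℕ) (b : ℝ),
      Tendsto (fun δ : ℝ => (1 + |b + Real.log δ / 2|) ^ J * r δ) (𝓝[>] 0) (𝓝 0) := fun J b => by
    have := ((log_pow J b (show (0 : ℝ) < 1 / 2 by norm_num)).add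
      (log_pow J b (mul_pos e0 hσ))).const_mul |C|
    rw [add_zero, mul_zero] at this
    exact this.congr fun δ => by simp only [r]; ring
  have k : ∀ᶠ δ in 𝓝[>] (0 : ℝ), ∀ δ' L L', 0 < δ' → δ' ≤ δ → A δ ≤ L → A δ ≤ L' →
      ‖F δ L - F δ' L'‖ ≤ r δ := by
    filter_upwards [Ioc_mem_nhdsGT hδ0, Ioc_mem_nhdsGT one_pos,
      tA.eventually (eventually_ge_atTop A0)] with δ a1 a2 a3 δ' L L' b1 b2 b3 b4
    have p0 : 0 < A δ := Real.rpow_pos_of_pos a1.1 _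
    refine (h δ δ' (A δ) L L' b1 b2 a1.2 a3 b3 b4).trans ((mul_le_mul_of_nonneg_right
      (le_abs_self C) (by have := a1.1; positivity)).trans
        (mul_le_mul_of_nonneg_left (add_le_add ?_ (le_of_eq ?_)) (abs_nonneg C)))
    · rw [← Real.rpow_mul_natCast a1.1.le, ← Real.rpow_add_one a1.1.ne']
      refine Real.rpow_le_rpow_of_exponent_ge a1.1 a2.2 ?_
      have : e * m ≤ 1 / 2 := by
        rw [he, div_mul_eq_mul_div, div_le_div_iff₀ (by positivity) two_pos]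
        linarith
      linarith
    · rw [← Real.rpow_mul a1.1.le, neg_mul_neg]
  have k2 : ∀ᶠ δ in 𝓝[>] (0 : ℝ), ∀ L, A δ ≤ L → ∀ᶠ i in fl, ‖F δ L - F i.1 i.2‖ ≤ r δ := by
    filter_upwards [k, self_mem_nhdsWithin] with δ a1 (a2 : 0 < δ) L hL
    rw [eventually_curry_iff]
    filter_upwards [Ioc_mem_nhdsGT a2] with δ' b
    filter_upwards [eventually_ge_atTop (A δ)] with L' b'
    exact a1 δ' L L' b.1 b.2 hL b'
  have r0 : Tendsto r (𝓝[>] 0) (𝓝 0) := by simpa using tr 0 0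
  have cau : Cauchy (fl.map fun i : ℝ × ℝ => F i.1 i.2) := by
    refine Metric.cauchy_iff.2 ⟨inferInstance, fun η η0 => ?_⟩
    obtain ⟨δ, a1, a2⟩ := (k2.and (r0.eventually (gt_mem_nhds (half_pos η0)))).exists
    refine ⟨{z | ‖F δ (A δ) - z‖ ≤ r δ}, a1 _ le_rfl, fun x hx y hy => ?_⟩
    rw [dist_eq_norm, show x - y = (F δ (A δ) - y) - (F δ (A δ) - x) by ring]
    exact (norm_sub_le_of_le hy hx).trans_lt (by linarith)
  obtain ⟨n, hn⟩ := CompleteSpace.complete cau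
  refine ⟨n, fun J b => squeeze_zero' (.of_forall fun i => by positivity) ?_
    ((tr J b).comp fl_fst)⟩
  rw [eventually_curry_iff]
  filter_upwards [k2] with δ a1
  filter_upwards [eventually_ge_atTop (A δ)] with L hL
  exact mul_le_mul_of_nonneg_left (le_of_tendsto ((tendsto_const_nhds.sub
    (show Tendsto (fun i : ℝ × ℝ => F i.1 i.2) fl (𝓝 n) from hn)).norm) (a1 L hL)) (by positivity)

/-- **from the running member to the fixed member** -/
theorem run3 {F : ℝ → ℝ → ℝ → ℂ} {a : ℝ → ℂ} {J : ℕ} {M b : ℝ}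
    (h : ∀ δ L, 0 < δ → 0 < L → IsPol J fun x => F x δ L)
    (hb : ∀ x, ∃ (C σ δ0 A0 : ℝ) (m : ℕ), 0 < σ ∧ 0 < δ0 ∧ ∀ δ δ' A L L', 0 < δ' → δ' ≤ δ →
      δ ≤ δ0 → A0 ≤ A → A ≤ L → A ≤ L' → ‖F x δ L - F x δ' L'‖ ≤ C * (A ^ m * δ + A ^ (-σ)))
    (ha : ∀ η > 0, ∀ᶠ δ in 𝓝[>] (0 : ℝ), ∀ᶠ L in atTop,
      ‖F (b + Real.log δ / 2) δ L - a δ‖ ≤ η) (hM : ∀ᶠ δ in 𝓝[>] (0 : ℝ), ‖a δ‖ ≤ M) (x : ℝ) :
    ∀ η > 0, ∀ᶠ δ in 𝓝[>] (0 : ℝ), ∀ᶠ L in atTop, ‖F x δ L - a δ‖ ≤ η := by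
  choose C σ δ0 A0 m h1 h2 h3 using hb
  choose p hp using fun x => cauchy_rate (h1 x) (h2 x) (h3 x)
  have := IsPol.run2 (l := fl) (F := fun i x => F x i.1 i.2) (p := p) (J := J) (M := M)
    (τ := fun i => b + Real.log i.1 / 2) (a := fun i => a i.1) ?_ (fun x => hp x J b)
    ((abs_log b).comp fl_fst) ?_ (fl_fst.eventually hM) x
  · intro η η0
    exact (eventually_curry_iff.1 (NormedAddGroup.tendsto_nhds_zero.1 this η η0)).mono
      fun δ k => k.mono fun L k => k.le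
  · rw [eventually_curry_iff]
    filter_upwards [self_mem_nhdsWithin] with δ (k : 0 < δ)
    filter_upwards [eventually_gt_atTop (0 : ℝ)] with L k'
    exact h δ L k k'
  · refine NormedAddGroup.tendsto_nhds_zero.2 fun η η0 => eventually_curry_iff.2 ?_
    exact (ha _ (half_pos η0)).mono fun δ k => k.mono fun L k => k.trans_lt (half_lt_self η0)

end Vale.Agent.P352L.NC
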