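import Vale.Agent.P352X.R.CONK.Ub
import Vale.Agent.P352L.CK.Prof
import Vale.Agent.P352L.CK.Norm
import Vale.Agent.P352L.CK.CV

/-!
# P352L, block CONK: far annuli of the plane, uniformly in the profile and the member (helper57)
-/

set_option linter.all false

open MeasureTheory Filter Topology
open scoped SchwartzMap ComplexConjugate ENNReal ContDiff

namespace Vale.Agent.P352L.CK

open Vale.Agent.P352X
open Vale.Agent.P352 Vale.Agent.P352.GF Vale.Agent.P352.BW Vale.Agent.P352.H246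
open Vale.Agent.P352.H496 Vale.Agent.P352.H755 Vale.Agent.P352.H15
open UniformSpace (Completion)
open Complex (I)
open NC

noncomputable section

namespace Tl

export Vale.Agent.P352X.CK.Tl (pr_eq dc_da dv_va dv_vb deriv_cx n2_nonneg bd_norms)

variable {D : Type*} [NormedAddCommGroup D] [InnerProductSpace ℂ D] {c : Ctx D}

lemma Tv_lin {f g : Fn} (a : ℂ) (hf : IsTest f) (hg : IsTest g) :
    c.Tv (hk va va fun x => f x + a * g x) = c.Tv (hk va va f) + a • c.Tv (hk va va g) := by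
  have := congrArg (fun u : D => (u : Completion D)) (Taa_lin (c := c) a hf hg c.Q.vac)
  simp only [Completion.coe_add, Completion.coe_smul] at this
  exact this

lemma n1_le (φ : ℝ → ℂ) : n1 φ ≤ N1 1 φ := by
  simpa [N1] using n1_nonneg (deriv φ)

/-- the body of `BAS.tail` -/
def Bd (c : Base D) (C κ : ℝ) : Prop := ∀ η w (Λ C0 L : ℝ), 1 ≤ L → 0 ≤ C0 → Dm (Pa c.Q) η →
  (∀ s, ‖Gb c.Q s w - w‖ ≤ Λ * |s|) →
  (∀ s ∈ Set.Ioc (0 : ℝ) 1, c.nu η {p | al p < s} ≤ ENNReal.ofReal (C0 ^ 2 * s)) →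
  ‖inner ℂ (Usc c.Q L 1 η) w‖ ≤ C * L ^ (-κ) * (‖w‖ + Λ) * (C0 + ‖η‖ + ‖gen (Pa c.Q) η‖)

variable {Cb κ : ℝ}

/-- one profile -/
lemma one (t : T1 c) (hn : NORM c) (hb : Bd c.toBase Cb κ) {g} (hg : Tst g) : ∃ C : ℝ, 0 ≤ C ∧
    ∀ (φ : ℝ → ℝ) (a A : ℝ) w (Λ : ℝ), Tst φ → N1 1 (cx φ) ≤ a → 1 ≤ A →
      Dm (Gb c.Q) w → ‖w‖ ≤ Λ → ‖gen (Gb c.Q) w‖ ≤ Λ →
      ‖inner ℂ (Usc c.Q A 1 (c.Tv (hk va va (pr g φ)))) w‖ ≤ C * A ^ (-κ) * a * Λ := by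
  obtain ⟨Cn, hCn, h1⟩ := hn.taa (1 / 4) (by norm_num) le_rfl
  have dg : Dc (cx g) := Ap.dc_cx hg
  obtain ⟨Cl, hCl, h2⟩ := hn.low _ dg
  have G0 := N3_nonneg one_pos (da (cx g))
  have G1 := N3_nonneg one_pos (da (da (cx g)))
  have w0 := (wd_pos (div_pos (Real.exp_pos (2 * (c.tau + 0))) (mul_pos one_pos one_pos))
    (1 / 4)).le
  set q := wd (1 / 4) (Real.exp (2 * (c.tau + 0)) / (1 * 1))
  refine ⟨|Cb| * 2 * (Cl + Cn * q * (N3 1 (da (cx g)) + N3 1 (da (da (cx g))))), by positivity,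
    fun φ a A w Λ hφ h3 hA hw hw0 hw1 => ?_⟩
  have dφ : Dc (cx φ) := Ap.dc_cx hφ
  have ht : IsTest (pr g φ) := Far.isTest_dc (Far.dc_pr hg hφ)
  have ha : 0 ≤ a := (N1_nonneg _ _).trans h3
  have hi := n1_nonneg (cx φ)
  have hΛ : 0 ≤ Λ := (norm_nonneg _).trans hw0
  have hg1 : Gn (Pa c.Q) _ _ := t.gen.ut va va va _ ht
  have k1 : _ ≤ Cn * q * _ * _ := h1 0 1 1 _ _ dg dφ one_pos one_pos
  have k2 := fun s => h2 _ s dφ
  have k3 := h1 0 1 1 _ _ (dc_da dg) dφ one_pos one_pos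
  rw [c.sh_zero] at k1 k3
  rw [← pr_eq] at k1 k2
  have k4 : ‖gen (Pa c.Q) (c.Tv (hk va va (pr g φ)))‖ ≤
      Cn * q * N3 1 (da (da (cx g))) * N1 1 (cx φ) := by
    rw [hg1.gen_eq, norm_smul, Complex.norm_I, one_mul, pr_eq, dv_va dg dφ]
    exact k3
  have k5 := hb _ w Λ (Cl * n1 (cx φ)) A hA (by positivity) hg1.dm
    (fun s => (t.grp.ugGb.lip hw.gn s).trans (mul_le_mul_of_nonneg_right hw1 (abs_nonneg _)))
    fun s hs => k2 s hs.1 hs.2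
  refine k5.trans ?_
  have hAk : 0 ≤ A ^ (-κ) := Real.rpow_nonneg (by linarith) _
  have k6 : Cl * n1 (cx φ) + ‖c.Tv (hk va va (pr g φ))‖ +
      ‖gen (Pa c.Q) (c.Tv (hk va va (pr g φ)))‖ ≤
      (Cl + Cn * q * (N3 1 (da (cx g)) + N3 1 (da (da (cx g))))) * a := by
    have e1 := mul_le_mul_of_nonneg_left ((n1_le _).trans h3) hCl
    have e2 := mul_le_mul_of_nonneg_left h3 (mul_nonneg (mul_nonneg hCn w0) G0)
    have e3 := mul_le_mul_of_nonneg_left h3 (mul_nonneg (mul_nonneg hCn w0) G1)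
    linarith
  calc _ ≤ |Cb| * A ^ (-κ) * (‖w‖ + Λ) * (Cl * n1 (cx φ) +
        ‖c.Tv (hk va va (pr g φ))‖ + ‖gen (Pa c.Q) (c.Tv (hk va va (pr g φ)))‖) := by
        gcongr
        exact le_abs_self _
    _ ≤ |Cb| * A ^ (-κ) * (Λ + Λ) *
        ((Cl + Cn * q * (N3 1 (da (cx g)) + N3 1 (da (da (cx g))))) * a) := by gcongr
    _ = _ := by ring

/-- all profiles, one member -/
lemma two (t : T1 c) (hn : NORM c) (hb : Bd c.toBase Cb κ) {g} (hg : Tst g) : ∃ C : ℝ,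
    ∀ ρ (A : ℝ) w (Λ : ℝ), Tst ρ → tsupport ρ ⊆ Set.Icc (-1) 1 → 1 ≤ A → Lw c w Λ →
      ‖inner ℂ w (Usc c.Q A 1 (c.Tv (hk va va (pr g ρ))))‖ ≤
        C * (A ^ (-κ) * (∫ t, |ρ t|) * Λ) := by
  obtain ⟨χ, Cp, hχ, hCp, hp⟩ := prim1 P352X.CK.prim_row
  obtain ⟨C, hC, h2⟩ := one t hn hb hg
  refine ⟨C * (Cp + N1 1 (cx χ)), fun ρ A w Λ hρ hs hA hw => ?_⟩
  obtain ⟨R, hR, hRρ, b1⟩ := hp ρ hρ hs
  have hA0 : 0 < A := by linarith
  have hR' : Tst (deriv R) := Ap.cs_deriv hR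
  have tR : IsTest (pr g R) := Far.isTest_dc (Far.dc_pr hg hR)
  have tR' : IsTest (pr g (deriv R)) := Far.isTest_dc (Far.dc_pr hg hR')
  have tχ : IsTest (pr g χ) := Far.isTest_dc (Far.dc_pr hg hχ)
  have k1 := h2 R _ A _ Λ hR b1 hA hw.dgp hw.np hw.ngp
  have k2 := h2 χ _ A w Λ hχ le_rfl hA hw.dg hw.n0 hw.ng
  have e1 : pr g ρ = fun x => pr g (deriv R) x + ((∫ t, ρ t : ℝ) : ℂ) * pr g χ x := by
    funext z
    simp only [pr]
    rw [hRρ (be z)]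
    push_cast
    ring
  have e2 : dv vb (pr g R) = pr g (deriv R) := by
    rw [pr_eq, dv_vb (g := cx g) (φ := cx R) (Ap.dc_cx hg) (Ap.dc_cx hR), deriv_cx hR, pr_eq]
  have g1 : Gn (Pb c.Q) _ _ := t.gen.ut vb va va _ tR
  rw [e2] at g1
  have g2 := g1.comm (A := Usc c.Q A 1) fun s => by
    have h3 : scp A 1 (s • vb) = s • vb := null_ext (by simp) (by simp) (by simp)
    rw [Pb, t.grp.sc_ut A 1 _ hA0 one_pos, h3]
  have g3 := t.grp.ugPb.symm g2 hw.dp.gn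
  rw [g3, map_smul, inner_smul_left, norm_mul, RCLike.norm_conj, Complex.norm_I, one_mul] at k1
  rw [norm_inner_symm, e1, Tv_lin _ tR' tχ, map_add, map_smul, inner_add_left, inner_smul_left]
  refine (norm_add_le_of_le k1 ?_).trans_eq (show _ + (∫ t, |ρ t|) *
    (C * A ^ (-κ) * N1 1 (cx χ) * Λ) = _ by ring)
  rw [norm_mul, RCLike.norm_conj, Complex.norm_real]
  exact mul_le_mul (norm_integral_le_integral_norm ρ) k2 (norm_nonneg _)
    (integral_nonneg fun _ => abs_nonneg _)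

lemma one_add_abs (x y : ℝ) : 1 + |x + y| ≤ (1 + |x|) * (1 + |y|) := by
  nlinarith [abs_add_le x y, abs_nonneg x, abs_nonneg y, mul_nonneg (abs_nonneg x) (abs_nonneg y)]

/-- all members -/
lemma three (t : Tools c) : ∃ σ : ℝ, 0 < σ ∧ ∀ g, Tst g → ∃ C : ℝ, 0 ≤ C ∧
    ∀ x ρ (A : ℝ) w (Λ : ℝ), Tst ρ → tsupport ρ ⊆ Set.Icc (-1) 1 → 1 ≤ A → Lw c w Λ →
      A * ‖inner ℂ ((c.sh x).Tv (hk va va (pr (kL g A) ρ))) w‖ ≤
        C * (1 + |x|) ^ c.n0 * A ^ (-σ) * (∫ t, |ρ t|) * Λ := by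
  obtain ⟨Cb, κ, hκ, hb⟩ := t.bas.tail
  obtain ⟨K, K0, hK⟩ := log_le_rpow_top c.n0 (-1 / 2) 0 (half_pos hκ)
  refine ⟨κ / 2, half_pos hκ, fun g hg => ?_⟩
  obtain ⟨C, C0, h⟩ := IsPol.unif (J := c.n0)
    (F := fun (q : (ℝ → ℝ) × ℝ × Completion D × ℝ) x =>
      inner ℂ q.2.2.1 (Usc c.Q q.2.1 1 ((c.sh x).Tv (hk va va (pr g q.1)))))
    (r := fun q => q.2.1 ^ (-κ) * (∫ t, |q.1 t|) * q.2.2.2)
    (P := fun q => Tst q.1 ∧ tsupport q.1 ⊆ Set.Icc (-1) 1 ∧ 1 ≤ q.2.1 ∧ Lw c q.2.2.1 q.2.2.2)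
    (fun q hq => (t.grp.polv _ (tsT_hk (Ap.test_pr hg hq.1) va va)).map
      (((innerSL ℂ q.2.2.1 ∘L Usc c.Q q.2.1 1).restrictScalars ℝ).toLinearMap))
    (fun q hq => mul_nonneg (mul_nonneg (Real.rpow_nonneg (zero_le_one.trans hq.2.2.1) _)
      (integral_nonneg fun _ => abs_nonneg _)) ((norm_nonneg _).trans hq.2.2.2.n0))
    fun x => (two (t.sh x).toT1 (t.sh x).norm hb hg).imp fun C k q hq =>
      k _ _ _ _ hq.1 hq.2.1 hq.2.2.1 hq.2.2.2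
  refine ⟨C * K, by positivity, fun x ρ A w Λ hρ hs hA hw => ?_⟩
  have A0 : 0 < A := by linarith
  have k := h (ρ, A, w, Λ) ⟨hρ, hs, hA, hw⟩ (x + (0 + -1 / 2 * Real.log A))
  have e := usc_Tv (t.sh (x + (0 + -1 / 2 * Real.log A))).grp hg hρ A0
  rw [rn, c.sh_sh, show x + (0 + -1 / 2 * Real.log A) + Real.log A / 2 = x by ring] at e
  beta_reduce at k
  rw [show Usc c.Q A 1 _ = _ from e, inner_smul_right, norm_mul, Complex.norm_real,
    Real.norm_of_nonneg A0.le, norm_inner_symm] at k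
  have l0 : 0 ≤ Λ := (norm_nonneg _).trans hw.n0
  have r0 : 0 ≤ ∫ t, |ρ t| := integral_nonneg fun t => abs_nonneg _
  have p := (pow_le_pow_left₀ (by positivity) (one_add_abs x _) c.n0).trans_eq (mul_pow _ _ _)
    |>.trans (mul_le_mul_of_nonneg_left (hK A hA) (by positivity))
  refine k.trans ?_
  calc _ ≤ C * ((1 + |x|) ^ c.n0 * (K * A ^ (κ / 2))) * (A ^ (-κ) * (∫ t, |ρ t|) * Λ) := by gcongr
    _ = C * K * (1 + |x|) ^ c.n0 * (A ^ (κ / 2) * A ^ (-κ)) * (∫ t, |ρ t|) * Λ := by ring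
    _ = _ := by rw [← Real.rpow_add A0, show κ / 2 + -κ = -(κ / 2) by ring]

end Tl

variable {D : Type*} [NormedAddCommGroup D] [InnerProductSpace ℂ D] {c : Ctx D}

theorem Tools.tail (t : Tools c) : TAIL c := by
  obtain ⟨σ, σ0, h⟩ := Tl.three t
  refine ⟨σ, σ0, fun g hg => ?_⟩
  choose C C0 hC using fun j => h _ (tst_wt (smooth_qol j) hg)
  refine ⟨∑ j, C j, Finset.sum_nonneg fun j _ => C0 j, fun x j ρ A w Λ hρ sρ hA hw => ?_⟩
  obtain ⟨s, s0, s1, e⟩ := P352X.CK.Ub.qol_kL j hA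
  have A0 : 0 < A := by linarith
  have e' : pr (wt (qol j) (kL g A)) ρ = pr (kL (wt (qol j) g) A) fun t => s * ρ t := by
    funext z
    simp only [pr, e]
    congr 1
    ring
  have k := hC j x (fun t => s * ρ t) A w Λ (Ap.cs_cmul s hρ) (tsupport_mul_subset_right.trans sρ)
    hA hw
  simp only [abs_mul, abs_of_nonneg s0, integral_const_mul] at k
  rw [e']
  refine le_of_mul_le_mul_left (k.trans ?_) A0
  have l0 : 0 ≤ Λ := (norm_nonneg _).trans hw.n0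
  have r0 : 0 ≤ ∫ t, |ρ t| := integral_nonneg fun t => abs_nonneg _
  have := Finset.single_le_sum (fun j _ => C0 j) (Finset.mem_univ j)
  have := (C0 j).trans this
  calc _ ≤ (∑ j, C j) * (1 + |x|) ^ c.n0 * A ^ (-σ) * (A * ∫ t, |ρ t|) * Λ := by gcongr
    _ = _ := by ring

end

end Vale.Agent.P352L.CK
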