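import Vale.Agent.P352L.CK.AR
import Vale.Agent.P352L.CK.Ub
import Vale.Agent.P352L.CK.Prof

/-!
# P352L, block CONK, row AA: from the running member to the fixed member (helper57)
-/

set_option linter.all false

open MeasureTheory Filter Topology
open scoped SchwartzMap ComplexConjugate ENNReal ContDiff

namespace Vale.Agent.P352L.CK

open Vale.Agent.P352X
open Vale.Agent.P352 Vale.Agent.P352.GF Vale.Agent.P352.BW Vale.Agent.P352.H246
open Vale.Agent.P352.H496 Vale.Agent.P352.H755 Vale.Agent.P352.H15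
open UniformSpace (Completion)
open Complex (I)

noncomputable section

attribute [local irreducible] ww0

variable {D : Type*} [NormedAddCommGroup D] [InnerProductSpace ℂ D] {c : Ctx D}

open Ub in
/-- a Cauchy estimate with a rate -/
theorem cau (t : Tools c) {w W κ f ρ θ1 θ a0 u0 X} (d : Dat c w W κ f ρ θ1 θ a0 u0)
    (x : RX c a0 u0 X) : ∃ (C σ δ0 A0 : ℝ) (m : ℕ), 0 < σ ∧ 0 < δ0 ∧ ∀ δ δ' A L L', 0 < δ' →
      δ' ≤ δ → δ ≤ δ0 → A0 ≤ A → A ≤ L → A ≤ L' →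
      ‖inner ℂ (R0 c w (pairF sq2 κ f ρ θ1 δ L)) (X c.Om) -
        inner ℂ (R0 c w (pairF sq2 κ f ρ θ1 δ' L')) (X c.Om)‖ ≤ C * (A ^ m * δ + A ^ (-σ)) := by
  obtain ⟨y, r, -, hs, hX⟩ := x.loc
  have tr := t.tri.opt f θ1 1 a0 u0 y r X d.tf d.t1 d.sf d.s1 d.ha.ge
    (fun z hz => ⟨(hs hz).1, by linarith [(hs hz).2]⟩) hX
  obtain ⟨C3, σ, c1, C30, σ0, c11, hf⟩ := far t d
  obtain ⟨k, m, hn⟩ := t.near.cau _ (t.cv.cvw _ _ d.tp).tra
  have sρ : tsupport ρ ⊆ Set.Icc (-1) 1 :=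
    d.sr.trans (Set.Icc_subset_Icc (by norm_num) (by norm_num))
  obtain ⟨C1, C10, hn⟩ := hn κ f ρ θ1 d.cut.1 d.tf d.tr sρ d.t1
  have pk := (t.smv.lw _ (t.smv.app X _ x.good t.smv.vac)).2.2 k
  have lR := fun j => (t.smv.lw _ (t.smv.app X (c.Wv (pr (wt (pol j) f) θ1)) x.good
    (t.gen.sm _))).1
  have lL := fun j => (t.smv.lw _ (t.smv.app (star X) (c.Wv (pr (wt (pol j) f) θ1))
    (t.smv.adj X x.good) (t.gen.sm _))).1
  obtain ⟨Λ, Λ0, lw⟩ : ∃ Λ : ℝ, 0 ≤ Λ ∧ ∀ j, Lw c (X (c.Wv (pr (wt (pol j) f) θ1))) Λ ∧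
      Lw c (star X (c.Wv (pr (wt (pol j) f) θ1))) Λ := by
    have n1 := fun j => (norm_nonneg _).trans (lR j).n0
    have n2 := fun j => (norm_nonneg _).trans (lL j).n0
    have k := fun j => Finset.single_le_sum (fun j _ => add_nonneg (n1 j) (n2 j))
      (Finset.mem_univ j)
    exact ⟨_, Finset.sum_nonneg fun j _ => add_nonneg (n1 j) (n2 j), fun j =>
      ⟨(lR j).mono ((le_add_of_nonneg_right (n2 j)).trans (k j)),
        (lL j).mono ((le_add_of_nonneg_left (n1 j)).trans (k j))⟩⟩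
  have p0 : 0 ≤ nq c k (X c.Om) := (norm_nonneg _).trans (pk.2 0 k.zero_le)
  refine ⟨C1 * nq c k (X c.Om) + 2 * (C3 * Λ / σ), σ, min 1 u0, c1, m, σ0, lt_min one_pos d.hu,
    fun δ δ' A L L' h0 h1 h2 hA hL hL' => ?_⟩
  have A1 : 1 ≤ A := c11.trans hA
  have tl : ∀ e L, 0 < e → e ≤ δ → A ≤ L →
      ‖inner ℂ (R0 c w (pairF sq2 κ f ρ θ1 e L)) (X c.Om) -
        inner ℂ (R0 c w (pairF sq2 κ f ρ θ1 e A)) (X c.Om)‖ ≤ C3 * Λ / σ * A ^ (-σ) := by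
    intro e L e0 e1 h
    have q := (t.ann.int ((innerSL ℂ (X c.Om)).comp (R0 c w)) κ f ρ θ1 e _ L d.cut.1 d.tf d.tr
      d.t1 e0 (one_pos.trans_le A1) h).2
    simp only [ContinuousLinearMap.comp_apply, innerSL_apply_apply] at q
    rw [← inner_sub_left, norm_inner_symm, inner_sub_right, q, add_sub_cancel_left]
    refine (int_le (K := C3 * Λ) A1 h σ0 (by positivity) fun s hs => ?_).trans_eq (by ring)
    rw [norm_inner_symm]
    exact (hf 1 _ _ _ Λ e s le_rfl tr lw e0 (e1.trans (h2.trans (min_le_left _ _)))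
      (e1.trans (h2.trans (min_le_right _ _))) (by linarith)).trans_eq (by ring)
  have b1 := tl δ L (h0.trans_le h1) le_rfl hL
  have b2 := tl δ' L' h0 h1 hL'
  have b3 := hn δ δ' A _ _ h0 h1 (h2.trans (min_le_left _ _)) A1 x.perp pk
  have key : ∀ a a' b b' : ℂ, a - b = a - a' + (a' - b') - (b - b') := fun _ _ _ _ => by ring
  rw [key _ (inner ℂ (R0 c w (pairF sq2 κ f ρ θ1 δ A)) (X c.Om)) _
    (inner ℂ (R0 c w (pairF sq2 κ f ρ θ1 δ' A)) (X c.Om))]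
  refine (norm_sub_le_of_le (norm_add_le_of_le b1 b3) b2).trans ?_
  have q1 : 0 ≤ A ^ (-σ) := by positivity
  have q2 : 0 ≤ A ^ m * δ := mul_nonneg (by positivity) (h0.le.trans h1)
  have q3 : 0 ≤ C3 * Λ / σ := by positivity
  nlinarith [mul_nonneg (mul_nonneg C10 p0) q1, mul_nonneg q3 q2]

theorem aa_of (t : Tools c) (ar : AR c) : AA c := by
  intro w W κ f ρ θ1 θ a0 u0 X d x
  obtain ⟨J, hJ⟩ := t.cv.poly _ w d.tp
  obtain ⟨y, r, hr, hs, hX⟩ := x.loc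
  obtain ⟨C, -, hC⟩ := t.kp.dom y r u0 1 hr d.hu one_pos
    fun z hz => ⟨(hs hz).1, by linarith [(hs hz).2, d.ha]⟩
  have dk := (hC _ _ (Pr.of_mem hX) (t.smv.dom _ (t.smv.app X _ x.good t.smv.vac)).1).1
  obtain ⟨C2, δ2, -, δ20, hab⟩ := t.ab f θ1 θ d.tf d.t1 d.bump
  have := NC.run3 (F := fun s δ L => inner ℂ (R0 (c.sh s) w (pairF sq2 κ f ρ θ1 δ L)) (X c.Om))
    (a := fun δ => (∫ t, ρ t : ℝ) * c.AbW f (abv θ1 θ δ) (X c.Om)) (J := J) (b := 0)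
    (M := ‖((∫ t, ρ t : ℝ) : ℂ)‖ * (C2 * (‖X c.Om‖ + ‖gen c.SK (X c.Om)‖)))
    (fun δ L _ _ => hJ _ _ x.perp) (fun s => cau (t.sh s) (d.sh s) x)
    (by simpa only [zero_add] using ar w W κ f ρ θ1 θ a0 u0 X d x) ?_ 0
  · rwa [c.sh_zero] at this
  · filter_upwards [Ioc_mem_nhdsGT δ20] with δ h
    rw [norm_mul]
    exact mul_le_mul_of_nonneg_left (hab δ _ h.1 h.2 dk) (norm_nonneg _)

theorem Tools.aa (t : Tools c) (bp : All BPW c) : AA c := aa_of t (ar_of t (a1_of t bp))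

end

end Vale.Agent.P352L.CK
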