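import Vale.Agent.P352X.R.CONK.Flow
import Vale.Agent.P352X.R.CONK.Ann
import Vale.Agent.P352L.CK.Spec
import Vale.Agent.P352L.Api1C

/-!
# P352L, block CONK: thin tubes (helper57)
-/

set_option linter.all false

open MeasureTheory Filter Topology Set Metric
open scoped SchwartzMap ContDiff

namespace Vale.Agent.P352L.CK

open Vale.Agent.P352X
open Vale.Agent.P352 Vale.Agent.P352.GF Vale.Agent.P352.H755
open UniformSpace (Completion)

noncomputable section

variable {D : Type*} [NormedAddCommGroup D] [InnerProductSpace ℂ D] {c : Ctx D}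

namespace Flow

export Vale.Agent.P352X.CK.Flow (cell supp smooth fam)

variable (c) in
/-- `perp` as a bounded operator -/
def pL : Completion D →L[ℂ] Completion D := 1 - (innerSL ℂ c.Om).smulRight c.Om

lemma pL_apply (v : Completion D) : pL c v = perp c v := rfl

lemma inner_pL (v : Completion D) : inner ℂ c.Om (pL c v) = 0 := by
  simp [pL_apply, perp, perp0, inner_sub_right, inner_smul_right, inner_self_eq_norm_sq_to_K, c.norm_Om]

lemma pL_Om : pL c c.Om = 0 := by
  simp [pL_apply, perp, perp0, inner_self_eq_norm_sq_to_K, c.norm_Om]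

lemma pL_ug (g : GRP c) (s L a) (v : Completion D) :
    pL c (Ug c.Q s L a v) = Ug c.Q s L a (pL c v) := by
  have := g.ug_inner s L a c.Om v
  rw [g.vac] at this
  simp only [pL_apply, perp, perp0, map_sub, map_smul, g.vac, this]

lemma int_ut (g : GRP c) (s : ℝ) {r : R2 → Completion D} (hr : Integrable r) :
    Integrable fun y => Ut c.Q (tv (s • y)) (r y) := by
  have h : Continuous fun q : R2 × Completion D => Ut c.Q (tv (s • q.1)) q.2 :=
    continuous_iff_continuousAt.2 fun q => tendsto_apply (.of_forall fun _ => g.ug_opn _ _ _)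
      continuousAt_snd ((g.ut_cont (a := fun y : R2 => tv (s • y)) (by fun_prop)
        continuous_const).comp continuous_fst).continuousAt
  exact hr.mono (h.comp_aestronglyMeasurable (f := fun y => (y, r y))
    (aestronglyMeasurable_id.prodMk hr.1)) (.of_forall fun y => (g.ug_norm _ _ _ _).le)

lemma sub_le (g : GRP c) (s : ℝ) {r r' : R2 → Completion D} (hr : Integrable r)
    (hr' : Integrable r') : ‖(∫ y, Ut c.Q (tv (s • y)) (pL c (r y))) -
      ∫ y, Ut c.Q (tv (s • y)) (pL c (r' y))‖ ≤ ‖pL c‖ * ∫ y, ‖r y - r' y‖ := by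
  rw [← integral_sub (int_ut g s ((pL c).integrable_comp hr))
    (int_ut g s ((pL c).integrable_comp hr')), ← integral_const_mul]
  refine norm_integral_le_of_norm_le ((hr.sub hr').norm.const_mul _) (.of_forall fun y => ?_)
  rw [← map_sub, ← map_sub]
  exact (g.ug_norm _ _ _ _).trans_le ((pL c).le_opNorm _)

/-- thin averages of integrable families -/
theorem thin2 (g : GRP c) (b : BAS c.toBase) {r : R2 → Completion D} (hr : Integrable r) :
    Tendsto (fun s : ℝ => ∫ y, Ut c.Q (tv (s⁻¹ • y)) (pL c (r y))) (𝓝[>] 0) (𝓝 0) := by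
  refine hr.induction (P := fun r => Tendsto (fun s : ℝ => ∫ y, Ut c.Q (tv (s⁻¹ • y)) (pL c (r y)))
    (𝓝[>] 0) (𝓝 0)) (fun ξ E hE hμ => ?_) (fun r r' _ h h' k k' => ?_) ?_ fun r r' e _ k => ?_
  · refine (b.thin (E.indicator fun _ => 1) (pL c ξ)
      ((integrableOn_const hμ.ne).integrable_indicator hE) (inner_pL ξ)).congr fun s =>
        integral_congr_ae (.of_forall fun y => ?_)
    by_cases h : y ∈ E <;> simp [h]
  · simpa only [Pi.add_apply, map_add, add_zero, integral_add (int_ut g _ ((pL c).integrable_comp h))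
      (int_ut g _ ((pL c).integrable_comp h'))] using k.add k'
  · refine Equicontinuous.isClosed_setOf_tendsto (f := fun _ => 0)
      (LipschitzWith.uniformEquicontinuous _ ‖pL c‖₊ fun s =>
        LipschitzWith.of_dist_le_mul fun r r' => ?_).equicontinuous continuous_const
    rw [L1.dist_eq_integral_dist]
    simp only [dist_eq_norm]
    exact sub_le g _ (L1.integrable_coeFn r) (L1.integrable_coeFn r')
  · exact k.congr fun s => integral_congr_ae (e.mono fun y h => by simp only [h])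

variable {W cb : R2 → ℝ} {κ f : P3 → ℝ} {ρ θ1 θ : ℝ → ℝ}

variable (hW : Tst W) (hc : Tst cb) (hκ : Tst κ) (hf : Tst f) (hρ : Tst ρ) (h1 : Tst θ1) (hθ : Tst θ)
include hW hc hκ hf hρ hθ
include h1

/-- the superposition of the cells -/
lemma sup (g : GRP c) {R : S2 →L[ℂ] Completion D} (hR : Tra c R) (i1 : ∫ y, cb y = 1) {l : ℝ}
    (hl : 0 < l) {G : S2} (hG : ∀ z, G z = cell W (fun _ => 1) κ f ρ θ1 θ (l, 0) z) :
    ((l ^ 2 : ℝ) : ℂ) • pL c (R G) =
      ∫ y, Ut c.Q (tv (l⁻¹ • y)) (pL c (R (sch (cell W cb κ f ρ θ1 θ (l, y))))) := by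
  obtain ⟨B, k⟩ := supp (θ1 := θ1) hW hc hκ hf hρ hθ
  let a : R2 → V × V := fun y => (tv (l⁻¹ • y), tv (l⁻¹ • y))
  have e : ∀ y z, cell W cb κ f ρ θ1 θ (l, y) (z - a y) = G z * cb (tx z.2 - l⁻¹ • y) := fun y z => by
    simp [hG, cell, a, smul_sub, smul_smul, hl.ne']
  have dc : Dc fun p : R2 × V × V => cell W cb κ f ρ θ1 θ (l, p.1) (p.2 - a p.1) := by
    refine Api4.dc_of_zero ((smooth hW hc hκ hf hρ h1 hθ).comp
      (f := fun p : R2 × V × V => ((l, p.1), p.2 - a p.1)) (by fun_prop))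
      (((isCompact_closedBall (0 : R2) (B + l * B)).prod
        (isCompact_closedBall (0 : V × V) (4 * B))).image
        (f := fun p => (p.1, p.2 + a p.1)) (by fun_prop)) fun p h => by_contra fun e => h ?_
    obtain ⟨k1, k2, k3⟩ := k _ _ e
    refine ⟨(p.1, p.2 - a p.1), ⟨mem_closedBall_zero_iff.2 ?_, mem_closedBall_zero_iff.2 k1⟩,
      by simp⟩
    refine (norm_le_add_norm_add _ _).trans (add_le_add k3 ?_)
    rw [norm_smul, Real.norm_of_nonneg hl.le]
    exact mul_le_mul_of_nonneg_left k2 hl.le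
  have h := (Api4.par volume dc (pL c ∘L R)).2.2
  rw [Api4.sch_eq (((l ^ 2 : ℝ) : ℂ) • G) fun z => by
    simp only [e]
    rw [integral_const_mul, integral_complex_ofReal, Measure.integral_comp_inv_smul_of_nonneg volume
      (fun y => cb (tx z.2 - y)) hl.le, integral_sub_left_eq_self, i1]
    simp [mul_comm], map_smul] at h
  refine h.trans (integral_congr_ae (.of_forall fun y => ?_))
  have d := (fam hW hc hκ hf hρ h1 hθ).dc (mem_univ (l, y))
  obtain ⟨t, k⟩ := hR (tv (l⁻¹ • y)) (sch fun z => cell W cb κ f ρ θ1 θ (l, y) (z - a y))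
    (sch (cell W cb κ f ρ θ1 θ (l, y))) fun x x' => by
      rw [Api4.sch_apply d, Api4.sch_apply (Api4.dc_sub_const d _)]
      simp [a]
  simp only [ContinuousLinearMap.comp_apply, k, map_add, map_smul, pL_Om, smul_zero, add_zero]
  exact pL_ug g _ _ _ _

theorem lim (g : GRP c) (b : BAS c.toBase) (R : S2 →L[ℂ] Completion D) :
    Tendsto (fun l : ℝ => ∫ y, Ut c.Q (tv (l⁻¹ • y))
      (pL c (R (sch (cell W cb κ f ρ θ1 θ (l, y)))))) (𝓝[>] 0) (𝓝 0) := by
  obtain ⟨B, k⟩ := supp (θ1 := θ1) hW hc hκ hf hρ hθ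
  let r : ℝ → R2 → Completion D := fun l y => R (sch (cell W cb κ f ρ θ1 θ (l, y)))
  have rc : Continuous r.uncurry :=
    R.continuous.comp (continuousOn_univ.1 (fam hW hc hκ hf hρ h1 hθ).continuousOn)
  have r0 : ∀ l, |l| ≤ 1 → ∀ y ∉ closedBall (0 : R2) (B + B), r l y = 0 := fun l hl y hy => by
    refine (congrArg R ((congrArg sch (funext fun z => by_contra fun e => hy ?_)).trans
      Api4.sch_zero)).trans (map_zero R)
    obtain ⟨-, k2, k3⟩ := k _ _ e
    refine mem_closedBall_zero_iff.2 ((norm_le_add_norm_add _ _).trans (add_le_add k3 ?_))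
    rw [norm_smul]
    exact (mul_le_of_le_one_left (norm_nonneg _) hl).trans k2
  have ri : ∀ l, |l| ≤ 1 → Integrable (r l) := fun l hl =>
    (rc.comp (.prodMk_right l)).integrable_of_hasCompactSupport
      (HasCompactSupport.intro (isCompact_closedBall _ _) (r0 l hl))
  have z1 : |(0 : ℝ)| ≤ 1 := by simp
  have t : Tendsto (fun l => ‖pL c‖ * ∫ y in closedBall (0 : R2) (B + B), ‖r l y - r 0 y‖)
      (𝓝[>] 0) (𝓝 0) := by
    simpa using ((continuous_parametric_integral_of_continuous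
      (f := fun l y => ‖r l y - r 0 y‖) (μ := volume) (rc.sub (rc.comp (continuous_const.prodMk
        continuous_snd))).norm (isCompact_closedBall (0 : R2) (B + B))).tendsto 0
      |>.const_mul ‖pL c‖).mono_left nhdsWithin_le_nhds
  refine (thin2 g b (ri 0 z1)).congr_dist (squeeze_zero' (.of_forall fun _ => dist_nonneg) ?_ t)
  filter_upwards [Ioo_mem_nhdsGT zero_lt_one] with l hl
  have l1 : |l| ≤ 1 := (abs_of_pos hl.1).trans_le hl.2.le
  rw [dist_comm, dist_eq_norm, setIntegral_eq_integral_of_forall_compl_eq_zero fun y hy => by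
    rw [r0 l l1 y hy, r0 0 z1 y hy, sub_self, norm_zero]]
  exact sub_le g _ (ri l l1) (ri 0 z1)

end Flow

open Flow in
theorem flow_of (t : T1 c) : FLOW c := by
  have an := P352X.CK.ann_row
  intro R R' m κ f ρ θ1 θ A hR hm hκ hf hρ h1 hθ hA
  obtain ⟨cb, hc, -, -, i1⟩ := Ap.ex_rho (volume : Measure R2) (x := 0) univ_mem
  have sA := Real.sqrt_pos.2 hA
  have hW : Tst (sqm m (Real.sqrt A)) :=
    Ap.cs_mul_l (by fun_prop) (Ap.cs_smul (inv_ne_zero sA.ne') hm)
  have hk := Far.tst_kL hκ hA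
  have ts : Tendsto Real.sqrt (𝓝[>] 0) (𝓝[>] 0) := tendsto_nhdsWithin_iff.2
    ⟨(Real.continuous_sqrt.tendsto' 0 0 Real.sqrt_zero).mono_left nhdsWithin_le_nhds,
      mem_of_superset self_mem_nhdsWithin fun _ h => Real.sqrt_pos.2 h⟩
  refine tendsto_zero_iff_norm_tendsto_zero.2 (((lim hW hc hk hf hρ h1 hθ t.grp t.bas R).comp
    ts).norm.congr' (mem_of_superset self_mem_nhdsWithin fun δ (hδ : 0 < δ) => ?_) |>.trans (by simp))
  have hl := Real.sqrt_pos.2 hδ
  have l2 := Real.sq_sqrt hδ.le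
  have sm : ContDiff ℝ ∞ (sqm m (Real.sqrt (δ * A))) := by
    have := hm.1
    unfold sqm
    fun_prop
  obtain ⟨L, hL⟩ : ∃ L : (V × V) ≃L[ℝ] V × V, ∀ z, L z = (scp 1 δ z.1, scp 1 δ z.2) := by
    let e := ContinuousLinearEquiv.equivOfInverse (scpL 1 δ) (scpL 1 δ⁻¹)
      (fun z => by simp [scp_scp z zero_le_one (inv_pos.2 hδ).le, hδ.ne'])
      fun z => by simp [scp_scp z zero_le_one hδ.le, hδ.ne']
    exact ⟨e.prodCongr e, fun z => rfl⟩
  let F := pairF (sqm m (Real.sqrt (δ * A))) κ f ρ (thn θ1 θ δ) δ A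
  obtain ⟨s, k⟩ := hR.sca δ F (SchwartzMap.compCLMOfContinuousLinearEquiv ℂ L F) hδ
    fun x y => congrArg F (hL _)
  have e := sup hW hc hk hf hρ h1 hθ t.grp hR.tra i1 hl
    (G := SchwartzMap.compCLMOfContinuousLinearEquiv ℂ L F) fun z => by
      refine (congrArg F (hL _)).trans ((an.app _ κ f ρ _ δ A sm hκ hf hρ
        (Ap.cs_mul_l h1.1 (by simpa [div_eq_inv_mul] using Ap.cs_smul (inv_ne_zero hδ.ne') hθ))
        hδ hA _).trans (congrArg _ ?_))
      simp only [pl, al_scp, be_scp, tx_scp, one_mul, sqm, dlt, thn, ← smul_sub, d2_smul, d2_smul_l,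
        smul_smul, l2, zero_add, mul_one, mul_div_cancel_left₀ _ hδ.ne', Real.sqrt_mul hδ.le]
      rw [mul_inv, mul_right_comm _ _ (Real.sqrt δ), inv_mul_cancel₀ hl.ne', one_mul,
        ← mul_assoc (Real.sqrt δ), Real.mul_self_sqrt hδ.le]
      field_simp
  show ‖_‖ = ‖pL c (R' δ F)‖
  rw [k, map_add, map_smul, map_smul, pL_Om, smul_zero, add_zero, Usc, pL_ug t.grp, ← map_smul,
    t.grp.ug_norm, Function.comp_apply, ← e, l2]

theorem Tools.flow (t : Tools c) : FLOW c := flow_of t.toT1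

end

end Vale.Agent.P352L.CK

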