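import Vale.Agent.P352L.Z.Dt
import Vale.Agent.P352X.R.CONK.DT
import Vale.Agent.P352X.R.CONK.K0T
import Vale.Agent.P352X.R.CONK.AB.Pf

/-!
# P352L, block CONK: the form above the plane is bounded (no context) (helper57)
-/

set_option linter.all false

open MeasureTheory Filter Topology Set
open scoped SchwartzMap ComplexConjugate ENNReal ContDiff Real

namespace Vale.Agent.P352L.CZ

open Vale.Agent.P352 Vale.Agent.P352.GF Vale.Agent.P352.BW Vale.Agent.P352.H755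
open Vale.Agent.P352X Vale.Agent.P352L.Z
open UniformSpace (Completion)
open Complex (I)
open CK (n2 da)
open Th (mF)
open K0 (dS mS xL MS ev_dS ev_mS ev_MS mS_apply mu_le iv dv_pr_b dv_pr_p n2_pr n2_nonneg)
open CK.Ab (om rem d0_om n2_dil bds ex_pow tst_rem tele)

noncomputable section

variable {D : Type*} [NormedAddCommGroup D] [InnerProductSpace ℂ D]

/-- the form of `K - 2 x.M + |x|^2 P` for the leg `X` -/
def AbG (Q : Theory D) (SK : ℝ → Completion D →L[ℂ] Completion D) (X : Fn → Completion D)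
    (f : P3 → ℝ) (φ : ℝ → ℝ) (ψ : Completion D) : ℂ :=
  inner ℂ (X (pr f φ)) (gen SK ψ) -
    2 * ∑ i, inner ℂ (X (pr (fun y => y.2 i * f y) φ)) (gen (Mi Q i) ψ) +
    inner ℂ (X (pr (fun y => d2 y.2 y.2 * f y) φ)) (gen (Pa Q) ψ)

variable {c : Kn D} {ell : (V → ℂ) → Completion D} {c0 : ℝ} (E : El c ell c0) {ψ : V → ℂ}
include E

theorem dt (g : P3 → ℂ) (hg : Dc g) : MemLp (ft3 g) 2 m3 ∧
    ∃ C : ℝ, 0 ≤ C ∧ ∀ φ, Tst φ → ‖Thv ell (pf g (cx φ)) - Tht ell (ft3 g) φ‖ ≤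
      C * (n2 (cx fun t => t * deriv φ t) + n2 (cx φ)) := by
  obtain ⟨C, h0, hC⟩ := dt_sq E (sch g)
  rw [Api4.coe_sch hg] at hC
  refine ⟨Api4.coe_sch hg ▸ memLp_ft3_m3 (sch g), √C, Real.sqrt_nonneg _, fun φ hφ => ?_⟩
  have := hC (Ib.S1 φ)
  have e : (fun t : ℝ => (t : ℂ) * deriv (cx φ) t) = cx fun t => t * deriv φ t := funext fun t => by
    rw [show deriv (cx φ) t = _ from
      (hφ.1.differentiable (by simp) t).hasDerivAt.ofReal_comp.deriv, cx, Complex.ofReal_mul]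
  rw [Ib.S1_coe hφ, e] at this
  refine (Real.le_sqrt_of_sq_le this).trans ?_
  rw [Real.sqrt_mul h0]
  refine mul_le_mul_of_nonneg_left (Real.sqrt_le_iff.2 ⟨add_nonneg (Real.sqrt_nonneg _)
    (Real.sqrt_nonneg _), ?_⟩) (Real.sqrt_nonneg _)
  rw [add_sq, n2, n2, ← Ib.q2, ← Ib.q2, Real.sq_sqrt (Ib.q2_nonneg _), Real.sq_sqrt (Ib.q2_nonneg _)]
  exact add_le_add_left (le_add_of_nonneg_right (by positivity)) _

theorem norm3 : ∃ C : ℝ, 0 ≤ C ∧ ∀ (g : P3 → ℂ) (φ : ℝ → ℂ), Dc g → Dc φ →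
    ‖Thv ell (pf g φ)‖ ≤ C * n2 (da g) * n2 (deriv φ) := by
  have h0 := E.nonneg
  refine ⟨√(9 * c0 * (2 * π) ^ 3 * (8 * π)), Real.sqrt_nonneg _, fun g φ hg hφ => ?_⟩
  have := th_sq E (sch g) (sch φ)
  rw [Api4.coe_sch hg, Api4.coe_sch hφ] at this
  rw [n2, n2, ← Real.sqrt_mul (by positivity), ← Real.sqrt_mul (by positivity)]
  refine Real.le_sqrt_of_sq_le (this.trans ((mul_le_mul_of_nonneg_right
    (mul_le_mul_of_nonneg_left (CK.m3_le hg) (by positivity))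
    (mul_nonneg (by positivity) (Ib.q2_nonneg _))).trans_eq ?_))
  rw [Ib.q2]
  ring

theorem gn_ell (y : V) (hψ : MemLp ψ 2 mF) (hψ' : MemLp (fun p => (mdot y p : ℂ) * ψ p) 2 mF) :
    Gn (fun t => Ut c.Q (t • y)) (ell ψ) (ell fun p => (mdot y p : ℂ) * ψ p) := by
  have n (r : ℝ) : 1 ≤ ‖(r : ℂ) + I‖ := by simpa using Complex.abs_im_le_norm ((r : ℂ) + I)
  have n0 (r : ℝ) : (r : ℂ) + I ≠ 0 := norm_pos_iff.1 (one_pos.trans_le (n r))
  have b1 : SN.Bd fun p => ((mdot y p : ℂ) + I)⁻¹ :=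
    ⟨by fun_prop, 1, fun p => by rw [norm_inv]; exact inv_le_one_of_one_le₀ (n _)⟩
  have b2 : SN.Bd fun p => (mdot y p : ℂ) * ((mdot y p : ℂ) + I)⁻¹ := ⟨by fun_prop, 1, fun p => by
    rw [norm_mul, norm_inv, mul_inv_le_iff₀ (one_pos.trans_le (n _)), one_mul]
    simpa using Complex.abs_re_le_norm ((mdot y p : ℂ) + I)⟩
  have m : MemLp (fun p => ((mdot y p : ℂ) + I) * ψ p) 2 mF := by
    simp only [add_mul]; exact hψ'.add (hψ.const_mul I)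
  have e1 := E.phi _ _ b1 m
  have e2 := E.phi _ _ b2 m
  simp only [mul_assoc, inv_mul_cancel_left₀ (n0 _)] at e1 e2
  have d := SN.Calc.Dom.of_bd (C := c.bt.toCalc) b2 (ell fun p => ((mdot y p : ℂ) + I) * ψ p)
  rw [Br.gn_iff c.bt.toCalc (r := fun p => mdot y p) (by fun_prop) fun t => by
    simpa only [md_comm y] using c.bt.U_smul SN.isPair_mdot t y _, ← e1, ← e2]
  exact ⟨(SN.Calc.dom_Phi b1 (by fun_prop)).2 d, by
    rw [SN.Calc.Psi_Phi b1 (by fun_prop) d, SN.Calc.Psi_bd b2]⟩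

theorem ell_le {G : Fn} (hG : IsTest G) {K : ℝ} (hK : 0 ≤ K) (hm : AEStronglyMeasurable ψ mF)
    (hb : ∀ p ∈ Fc, ‖ψ p‖ ≤ K * ‖ft G p‖) :
    MemLp ψ 2 mF ∧ ‖ell ψ‖ ≤ K * (√c0 * (2 * π) ^ 2) * n2 G := by
  have b : ∀ᵐ p ∂mF, ‖ψ p‖ ≤ K * ‖ft G p‖ := (ae_restrict_mem meas_Fc).mono hb
  have m := (memLp_ft hG Fc).of_le_mul hm b
  refine ⟨m, (pow_le_pow_iff_left₀ (norm_nonneg _) (by unfold n2; positivity) two_ne_zero).1 ?_⟩
  have i := Th.sq_int (test_memLp (test_ft hG) 2)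
  have i1 : ∫ p, ‖ψ p‖ ^ 2 ∂mF ≤ ∫ p, K ^ 2 * ‖ft G p‖ ^ 2 :=
    (integral_mono_ae (Th.sq_int m) (i.const_mul _).restrict (b.mono fun p hp =>
      (pow_le_pow_left₀ (norm_nonneg _) hp 2).trans_eq (mul_pow _ _ _))).trans
      (setIntegral_le_integral (i.const_mul _) (.of_forall fun p => by positivity))
  rw [integral_const_mul, ft_plancherel_norm hG] at i1
  rw [ell_sq E m, mul_pow, mul_pow, mul_pow, n2, Real.sq_sqrt E.nonneg,
    Real.sq_sqrt (integral_nonneg fun _ => by positivity)]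
  exact (mul_le_mul_of_nonneg_left i1 E.nonneg).trans_eq (by ring)

variable (F : Sch)

theorem Th_le : ‖thC E F‖ ≤ 6 * (√c0 * (2 * π) ^ 2) * n2 (dv va (dv vb (ev F))) := by
  have := (ell_le E (ψ := fun p => (mu p : ℂ) * ft (ev F) p)
    (Ap.test_dv va (Ap.test_dv vb ⟨F, rfl⟩)) zero_le_two (memLp_mu_ft ⟨F, rfl⟩ _).1
    fun p hp => ?_).2
  · rw [thC_apply, Thv, norm_smul]
    simp only [norm_neg, Complex.norm_ofNat]
    linarith
  have a := ((mem_Fc p).1 hp)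
  have b := ((mem_Fc' p).1 hp).1
  simp only [ft_dv (Ap.test_dv vb ⟨F, rfl⟩), ft_dv ⟨F, rfl⟩, norm_mul, norm_neg, Complex.norm_I,
    one_mul, Complex.norm_real, md_va', md_vb', Real.norm_of_nonneg a.1.le,
    Real.norm_of_nonneg a.2.le, Real.norm_of_nonneg b.le, ← mul_assoc]
  exact mul_le_mul_of_nonneg_right (by linarith [mu_le hp]) (norm_nonneg _)

theorem iv_le (G : Sch) :
    MemLp (iv G) 2 mF ∧ ‖ell (iv G)‖ ≤ 2 * (√c0 * (2 * π) ^ 2) * n2 (dv vb (ev G)) := by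
  have := (cont_ft ⟨G, rfl⟩).measurable
  refine ell_le E (Ap.test_dv vb ⟨G, rfl⟩) zero_le_two (by unfold iv; fun_prop) fun p hp => ?_
  have a := ((mem_Fc p).1 hp)
  have b := ((mem_Fc' p).1 hp).1
  simp only [iv, ft_dv ⟨G, rfl⟩, norm_mul, norm_neg, Complex.norm_I, one_mul, Complex.norm_real,
    md_vb', Real.norm_of_nonneg (div_pos a.2 a.1).le, Real.norm_of_nonneg b.le, ← mul_assoc]
  exact mul_le_mul_of_nonneg_right ((div_le_iff₀ a.1).2 (by linarith [mu_le hp])) (norm_nonneg _)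

theorem gn_iv (G : Sch) : Gn (Pa c.Q) ((-3 : ℂ) • ell (iv G)) (thC E G) := by
  have e : ∀ p ∈ Fc, (mu p : ℂ) * ft (ev G) p = (mdot va p : ℂ) * iv G p := fun p hp => by
    have : (be p : ℂ) ≠ 0 := Complex.ofReal_ne_zero.2 ((mem_Fc p).1 hp).1.ne'
    simp only [iv, md_va]; push_cast; field_simp
  have m := memLp_mu_ft ⟨G, rfl⟩ Fc
  rw [thC_apply, Thv, ell_congr' E m e]
  exact (gn_ell E va (iv_le E G).1 (m.ae_eq ((ae_restrict_mem meas_Fc).mono e))).smul _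

/-- the bounded remainder -/
def chi : Completion D :=
  ∑ i, (3 : ℂ) • ell (iv (mS beL (mS beL (dS (ex i) (dS (ex i) F))))) - (2 * I) • thC E (mS beL F)

theorem k0_gen : Gn c.S0 (thC E F) (chi E F +
    (2 : ℂ) • ∑ i, gen (Mi c.Q i) (thC E (mS (xL i) F)) -
      gen (Pa c.Q) (thC E (∑ i, mS (xL i) (mS (xL i) F)))) := by
  have hM (i) (G : Sch) : Gn (Mi c.Q i) (thC E G) (I • thC E (MS i G)) := by
    simpa only [thC_apply, ev_MS] using mith E i ⟨G, rfl⟩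
  have hP (G : Sch) : Gn (Pa c.Q) (thC E G) (I • thC E (dS va G)) := by
    simp only [thC_apply, ev_dS]; exact uth E va ⟨G, rfl⟩
  have tp (G : Sch) : inner ℂ (BW.om c.Q) (thC E G) = 0 := th_perp E ⟨G, rfl⟩
  simp only [(hM _ _).gen_eq, (hP _).gen_eq]
  refine c.k0 _ _ (fun i => ⟨(hM i F).dm, (hM i F).gen_eq ▸ ((hM i _).smul I).dm⟩) ?_ ?_
  · simp only [chi, inner_add_right, inner_sub_right, inner_smul_right, inner_sum, tp,
      E.perp _ (iv_le E _).1, mul_zero, Finset.sum_const_zero, sub_zero, add_zero]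
  refine (((((Gn.sum Finset.univ fun i _ =>
    (gn_iv E (mS beL (mS beL (dS (ex i) (dS (ex i) F))))).neg).sub
    ((hP (mS beL F)).smul (2 * I))).add
    ((Gn.sum Finset.univ fun i _ => (hP (MS i (mS (xL i) F))).smul I).smul 2)).sub
    ((hP (dS va (∑ i, mS (xL i) (mS (xL i) F)))).smul I))).cast
    (by simp only [chi, neg_smul, neg_neg]) ?_
  simp only [(hM _ _).gen_eq, gen_smul _ (hM _ _).dm, K0.MM, Fin.sum_univ_two, map_add, map_sub,
    map_smul, smul_add, smul_sub, smul_smul, mul_assoc, Complex.I_mul_I]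
  match_scalars <;> ring_nf <;> simp

theorem k0t {f : P3 → ℝ} (hf : Tst f) : ∃ C : ℝ, 0 ≤ C ∧ ∀ φ, Tst φ → ∃ χ,
    Gn c.S0 (Thv ell (pr f φ)) (χ + (2 : ℂ) • ∑ i, gen (Mi c.Q i)
      (Thv ell (pr (fun y => y.2 i * f y) φ)) -
        gen (Pa c.Q) (Thv ell (pr (fun y => d2 y.2 y.2 * f y) φ))) ∧
    ‖χ‖ ≤ C * (n2 (cx (deriv fun t => t * φ t)) + n2 (cx (deriv fun t => t ^ 2 * φ t))) := by
  set f2 := fun (i : Fin 2) q => fderiv ℝ (fun q => fderiv ℝ f q (pl (ex i))) q (pl (ex i))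
  set A := √c0 * (2 * π) ^ 2
  set a := 12 * A * n2 (cx fun q => fderiv ℝ f q (pl va))
  set b := ∑ i, 6 * A * n2 (cx (f2 i))
  have hA : 0 ≤ A := by positivity
  have ha : 0 ≤ a := mul_nonneg (by positivity) (n2_nonneg _)
  have hb : 0 ≤ b := Finset.sum_nonneg fun i _ => mul_nonneg (by positivity) (n2_nonneg _)
  refine ⟨a + b, by positivity, fun φ hφ => ?_⟩
  obtain ⟨F, hF⟩ := K0.test_pr hf hφ
  have t1 : Tst fun t => t * φ t := Ap.cs_mul_l contDiff_id hφ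
  have t2 : Tst fun t => t ^ 2 * φ t := Ap.cs_mul_l (contDiff_id.pow 2) hφ
  refine ⟨chi E F, ?_, ?_⟩
  · have := k0_gen E F
    simp only [thC_apply, hF, ev_mS] at this
    convert this using 4
    · congr 3 with i; congr 2 with z; simp [pr]; ring
    · funext z
      simp [ev, mS_apply, show F z = _ from congrFun hF z, pr, d2]; ring
  have e1 : dv va (dv vb (ev (mS beL F))) =
      pr (fun q => fderiv ℝ f q (pl va)) (deriv fun t => t * φ t) := by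
    rw [← dv_pr_p hf (Ap.cs_deriv t1) be_va, ← dv_pr_b hf t1, ev_mS, hF]
    congr 2 with z; simp [pr]; ring
  have e2 (i) : dv vb (ev (mS beL (mS beL (dS (ex i) (dS (ex i) F))))) =
      pr (f2 i) (deriv fun t => t ^ 2 * φ t) := by
    rw [← dv_pr_b ((hf.fd _).fd _) t2, ev_mS, ev_mS, ev_dS, ev_dS, hF, dv_pr_p hf hφ (be_ex i),
      dv_pr_p (hf.fd _) hφ (be_ex i)]
    congr 1 with z; simp [pr]; ring
  have h1 := Th_le E (mS beL F)
  have h2 := fun i => (iv_le E (mS beL (mS beL (dS (ex i) (dS (ex i) F))))).2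
  simp only [e1, e2, n2_pr] at h1 h2
  refine (norm_sub_le _ _).trans ((add_le_add (norm_sum_le_of_le _ (n := fun i => 6 * A *
    n2 (cx (f2 i)) * n2 (cx (deriv fun t => t ^ 2 * φ t))) fun i _ => ?_)
    (d := a * n2 (cx (deriv fun t => t * φ t))) ?_).trans ?_)
  · rw [norm_smul, Complex.norm_ofNat]; linarith [h2 i]
  · rw [norm_smul, norm_mul, Complex.norm_ofNat, Complex.norm_I]; simp only [a]; linarith
  rw [← Finset.sum_mul]
  nlinarith [mul_nonneg ha (n2_nonneg (cx (deriv fun t => t ^ 2 * φ t))),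
    mul_nonneg hb (n2_nonneg (cx (deriv fun t => t * φ t)))]

lemma Th_pr {f : P3 → ℝ} {φ φ' : ℝ → ℝ} (a : ℝ) (hf : Tst f) (h : Tst φ) (h' : Tst φ') :
    Thv ell (pr f fun t => φ t + a * φ' t) = Thv ell (pr f φ) + (a : ℂ) • Thv ell (pr f φ') := by
  rw [← th_smul E a (Ap.test_pr hf h'),
    ← th_add E (Ap.test_pr hf h) (Ap.sw_cmul _ (Ap.test_pr hf h'))]
  congr 1
  funext z
  simp only [pr]
  push_cast
  ring

/-- the splitting of the form -/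
lemma split (u0 : UG c.S0) {f : P3 → ℝ} {φ : ℝ → ℝ} (hf : Tst f) (hφ : Tst φ) {χ ψ : Completion D}
    (h : Gn c.S0 (Thv ell (pr f φ)) (χ + (2 : ℂ) • ∑ i, gen (Mi c.Q i)
      (Thv ell (pr (fun y => y.2 i * f y) φ)) -
        gen (Pa c.Q) (Thv ell (pr (fun y => d2 y.2 y.2 * f y) φ))))
    (k1 : Dm c.SK ψ) (k2 : ∀ i, Dm (Mi c.Q i) ψ) (k3 : Dm (Pa c.Q) ψ) :
    AbG c.Q c.SK (Thv ell) f φ ψ = inner ℂ (Thv ell (pr f φ)) (gen c.Sk ψ) + inner ℂ χ ψ := by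
  have h1 := fun i => (c.ugM i).symm (mith E i (Ap.test_pr (Cont.tst_xi hf i) hφ)).dm.gn (k2 i).gn
  have h2 := c.ugPa.symm
    (Gn.dm (W := Pa c.Q) (uth E va (Ap.test_pr (Cont.tst_xx hf) hφ))).gn k3.gn
  have h3 := u0.symm h ((c.dom ψ).1 k1).2.gn
  rw [AbG, (c.split ψ k1).1, inner_add_right, h3, inner_sub_left, inner_add_left,
    inner_smul_left, sum_inner]
  unfold Cont.xi at h1
  unfold Cont.xx at h2
  simp only [h1, h2, map_ofNat]
  ring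

variable {cc : (ℝ → ℝ) → (ℝ → ℝ) → ℂ} {dd : (ℝ → ℝ) → ℝ} (h : Schur c ell cc dd)
include h

/-- one dilate -/
lemma dil1 {f : P3 → ℝ} {v : ℝ → ℝ} (hf : Tst f) (hv : D0 v) :
    ∃ C, 0 ≤ C ∧ ∀ ψ s, Dm c.Sk ψ → 0 < s → ‖inner ℂ (Thv ell (pr f (dil s v))) (gen c.Sk ψ)‖ ≤
      C * (‖ψ‖ + ‖gen c.Sk ψ‖) * Real.sqrt s := by
  obtain ⟨m, C, C0, hC⟩ := dt E (cx f) (Ap.dc_cx hf)
  set a := C * (n2 (cx fun t => t * deriv v t) + n2 (cx v))
  set b := ‖gen c.Sk (Tht ell (ft3 (cx f)) v)‖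
  have a0 : 0 ≤ a := mul_nonneg C0 (add_nonneg (n2_nonneg _) (n2_nonneg _))
  have b0 : 0 ≤ b := norm_nonneg _
  refine ⟨a + b, add_nonneg a0 b0, fun ψ s hψ hs => ?_⟩
  have d := Ap.d0_dil hv hs.ne'
  have h1 := hC _ d.1
  have e1 : (fun t => t * deriv (dil s v) t) = dil s fun t => t * deriv v t := by
    funext t
    rw [Ap.deriv_dil, dil]
    ring
  rw [← Ap.pr_eq, e1, n2_dil hs, n2_dil hs, ← mul_add, mul_left_comm] at h1
  have h2 : ‖gen c.Sk (Tht ell (ft3 (cx f)) (dil s v))‖ = Real.sqrt s * b := by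
    refine (pow_left_inj₀ (norm_nonneg _) (by positivity) two_ne_zero).1 ?_
    rw [h.nrm _ _ m d, h.sdd _ _ hv hs, mul_pow, Real.sq_sqrt hs.le, h.nrm _ _ m hv, mul_assoc]
  rw [← sub_add_cancel (Thv ell _) (Tht ell (ft3 (cx f)) (dil s v)), inner_add_left,
    c.ugk.symm (h.dom _ _ m d).gn hψ.gn]
  refine (norm_add_le_of_le (norm_inner_le_norm _ _) (norm_inner_le_norm _ _)).trans ?_
  rw [h2]
  have := mul_le_mul_of_nonneg_right h1 (norm_nonneg (gen c.Sk ψ))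
  have s0 := Real.sqrt_nonneg s
  nlinarith [mul_nonneg s0 (mul_nonneg a0 (norm_nonneg ψ)),
    mul_nonneg s0 (mul_nonneg b0 (norm_nonneg (gen c.Sk ψ)))]

/-- **the form above the plane is bounded** -/
theorem ab (u0 : UG c.S0) {f : P3 → ℝ} {θ1 θ : ℝ → ℝ} (hf : Tst f) (h1 : Tst θ1) (hθ : Bump θ) :
    ∃ C : ℝ, 0 ≤ C ∧ ∀ δ ψ, 0 < δ → δ ≤ 1 → Dm c.SK ψ → (∀ i, Dm (Mi c.Q i) ψ) → Dm (Pa c.Q) ψ →
      ‖AbG c.Q c.SK (Thv ell) f (abv θ1 θ δ) ψ‖ ≤ C * (‖ψ‖ + ‖gen c.SK ψ‖) := by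
  obtain ⟨C1, p1, b1⟩ := norm3 E
  obtain ⟨C2, p2, b2⟩ := k0t E hf
  obtain ⟨C3, p3, b3⟩ := dil1 E h hf (d0_om hθ one_pos four_pos)
  obtain ⟨C4, p4, b4⟩ := bds h1 hθ
  have p5 := n2_nonneg (da (cx f))
  set n := n2 (da (cx f))
  refine ⟨C2 * (C4 + C4) + |θ1 0| * C3 + C1 * n * C4, by positivity,
    fun δ ψ hδ hδ1 u1 u2 u3 => ?_⟩
  obtain ⟨d1, d2, d3⟩ := b4 δ hδ hδ1
  obtain ⟨χ, g, hχ⟩ := b2 _ (Ap.tst_abv h1 hθ hδ)
  obtain ⟨N, n1, n2'⟩ := ex_pow hδ hδ1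
  have s0 : 0 < 4 ^ N * δ := by positivity
  have k1 := (c.split ψ u1).2
  have r := tst_rem h1 hθ hδ s0
  have e : abv θ1 θ δ = fun t => rem θ1 θ δ (4 ^ N * δ) t + θ1 0 * om θ δ (4 ^ N * δ) t := by
    funext t
    rw [rem, sub_add_cancel]
  have q1 := b1 _ _ (Ap.dc_cx hf) (Ap.dc_cx r)
  have e2 : deriv (cx (rem θ1 θ δ (4 ^ N * δ))) = cx (deriv (rem θ1 θ δ (4 ^ N * δ))) :=
    funext fun t => Ap.fderiv_cx (r.1.differentiable (by simp) t) 1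
  change ‖Thv ell (pf (cx f) (cx _))‖ ≤ C1 * n * n2 (deriv (cx _)) at q1
  rw [← Ap.pr_eq, e2] at q1
  have q2 := q1.trans (mul_le_mul_of_nonneg_left (d3 _ n1 n2') (by positivity))
  have q3 := tele hθ (Λ := fun φ => inner ℂ (Thv ell (pr f φ)) (gen c.Sk ψ))
    (fun φ φ' a a' => by
      simpa [inner_add_left] using congrArg (fun v => inner ℂ v (gen c.Sk ψ)) (Th_pr E 1 hf a a'))
    (fun s hs => b3 ψ s ((c.dom ψ).1 u1).1 hs) hδ N
  have q4 : ‖inner ℂ (Thv ell (pr f (om θ δ (4 ^ N * δ)))) (gen c.Sk ψ)‖ ≤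
      C3 * (‖ψ‖ + ‖gen c.SK ψ‖) := q3.trans ((mul_le_of_le_one_right (by positivity)
    (Real.sqrt_le_one.2 n2')).trans (by gcongr))
  have q5 := hχ.trans (mul_le_mul_of_nonneg_left (add_le_add d1 d2) p2)
  rw [split E u0 hf (Ap.tst_abv h1 hθ hδ) g u1 u2 u3, e, Th_pr E _ hf r (d0_om hθ hδ s0).1,
    inner_add_left, inner_smul_left, Complex.conj_ofReal]
  refine (norm_add_le_of_le (norm_add_le_of_le (norm_inner_le_norm _ _) (norm_mul_le _ _))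
    (norm_inner_le_norm _ _)).trans ?_
  rw [Complex.norm_real, Real.norm_eq_abs]
  have x1 := mul_le_mul q2 k1 (norm_nonneg _) (by positivity)
  have x2 := mul_le_mul_of_nonneg_left q4 (abs_nonneg (θ1 0))
  have x3 := mul_le_mul_of_nonneg_right q5 (norm_nonneg ψ)
  nlinarith [mul_nonneg (mul_nonneg (mul_nonneg p1 p5) p4) (norm_nonneg ψ),
    mul_nonneg (mul_nonneg p2 p4) (norm_nonneg (gen c.SK ψ))]

end

end Vale.Agent.P352L.CZ
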