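import Vale.Agent.P352X.R.CONK.Uf
import Vale.Agent.P352L.CK.Lwf

/-!
# P352L, block CONK: rows UF and UW, uniform bounds for fields below the plane (helper54)
-/

set_option linter.all false

open MeasureTheory Filter Topology
open scoped ContDiff

namespace Vale.Agent.P352L.CK

open Vale.Agent.P352X
open Vale.Agent.P352 Vale.Agent.P352.GF Vale.Agent.P352.BW Vale.Agent.P352.H246
open Vale.Agent.P352.H496 Vale.Agent.P352.H755 Vale.Agent.P352.H15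
open UniformSpace (Completion)

noncomputable section

namespace Uf

theorem snT_bar (m : ℕ) (G : TS) : ∃ G' : TS, evT G' = barT (evT G) ∧ snT m G' ≤ snT m G := by
  choose G' h1 h2 using fun I => P352X.CK.Uf.sn_bar m (G I)
  exact ⟨G', funext fun a => funext fun b => h1 (a, b), Finset.sum_le_sum fun I _ => h2 I⟩

variable {D : Type*} [NormedAddCommGroup D] [InnerProductSpace ℂ D] {c : Ctx D}
  {ψ φ : Completion D} {Λ Λ' : ℝ}

theorem pk_mono {k : ℕ} (h : Pk c k ψ Λ) (e : Λ ≤ Λ') : Pk c k ψ Λ' :=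
  ⟨h.1, fun j hj => (h.2 j hj).trans e⟩

theorem dk_add (h : DK c ψ) (h' : DK c φ) : DK c (ψ + φ) :=
  ⟨h.1.add h'.1, fun i => (h.2.1 i).add (h'.2.1 i), h.2.2.add h'.2.2⟩

theorem dk_sub (h : DK c ψ) (h' : DK c φ) : DK c (ψ - φ) :=
  ⟨h.1.sub h'.1, fun i => (h.2.1 i).sub (h'.2.1 i), h.2.2.sub h'.2.2⟩

theorem err_add (h : DK c ψ) (h' : DK c φ) (w κ f ρ θ1 θ δ L) : Err c w κ f ρ θ1 θ δ L (ψ + φ) =
    Err c w κ f ρ θ1 θ δ L ψ + Err c w κ f ρ θ1 θ δ L φ := by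
  simp only [Err, Ctx.AbW, gen_add h.1 h'.1, fun i => gen_add (h.2.1 i) (h'.2.1 i),
    gen_add h.2.2 h'.2.2, inner_add_right, Finset.sum_add_distrib]
  ring

theorem err_sub (h : DK c ψ) (h' : DK c φ) (w κ f ρ θ1 θ δ L) : Err c w κ f ρ θ1 θ δ L (ψ - φ) =
    Err c w κ f ρ θ1 θ δ L ψ - Err c w κ f ρ θ1 θ δ L φ := by
  rw [eq_sub_iff_add_eq, ← err_add (dk_sub h h') h', sub_add_cancel]

theorem err_zero (w κ f ρ θ1 θ δ L) : Err c w κ f ρ θ1 θ δ L 0 = 0 := by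
  simp [Err, Ctx.AbW, gen_zero]

theorem norm_bas (n : Ix) : ‖bas n (eta n)‖ ≤ 1 :=
  (pi_norm_le_iff_of_nonneg zero_le_one).2 fun i => by
    simp only [bas, eta]
    split_ifs <;> simp

/-- tensor sources on slabs are in the domain of `K` -/
theorem slab (g : GEN c) (k : KD c) {b1 b2 : ℝ} (hb : b2 < 0 ∨ 0 < b1) :
    ∃ (m : ℕ) (C : ℝ), 0 ≤ C ∧ ∀ G : TS, InT {z | b1 ≤ be z ∧ be z ≤ b2} (evT G) →
      DK c (c.Tv (evT G)) ∧ ‖gen c.SK (c.Tv (evT G))‖ ≤ C * snT m G := by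
  obtain ⟨m, C, h⟩ := k.slab b1 b2 hb
  refine ⟨m, |C|, abs_nonneg C, fun G hG => ?_⟩
  have q := fun I : I2 => h (bas I.1 (eta I.1)) (bas I.2 (eta I.2)) (G I) (hG I.1 I.2).2.2
  have t := tsT_ev G
  rw [Tv_eq t]
  refine ⟨⟨Dm.sum _ fun I _ => (q I).1, fun i => Dm.sum _ fun I _ => (g.mi i _ _ _ (t _ _)).dm,
    Dm.sum _ fun I _ => (g.ut va _ _ _ (t _ _)).dm⟩, ?_⟩
  refine (congrArg _ (gen_sum _ fun I _ => (q I).1)).trans_le ?_
  rw [snT, Finset.mul_sum]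
  refine norm_sum_le_of_le _ fun I _ => (q I).2.2.1.trans
    (mul_le_mul_of_nonneg_right ?_ (Lie.sn_nonneg _ _))
  calc _ ≤ |C| * ‖bas I.1 (eta I.1)‖ * ‖bas I.2 (eta I.2)‖ := by gcongr; exact le_abs_self C
    _ ≤ |C| * 1 * 1 := by gcongr <;> exact norm_bas _
    _ = _ := by ring

end Uf

open Uf

variable {D : Type*} [NormedAddCommGroup D] [InnerProductSpace ℂ D] {c : Ctx D}

/-- **row UF** -/
theorem uf_of (t : Tools c) (ub : UB c) : UF c := by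
  intro w W κ f ρ θ1 θ a0 u0 b1 d
  obtain ⟨k, m, C, δ0, hC, hδ0, hub⟩ := ub w W κ f ρ θ1 θ a0 u0 d
  obtain ⟨m1, C1, hC1, h1⟩ := t.lwf.pk k
  obtain ⟨m2, C2, hC2, h2⟩ := t.lwf.two
  obtain ⟨m3, C3, hC3, h3⟩ := slab t.gen t.kd (b1 := b1) (b2 := -u0) (Or.inl (by linarith [d.hu]))
  have hF : ∀ j, IsTest (pr (wt (pol j) f) θ1) := fun j =>
    Ap.test_pr (tst_wt (smooth_pol j) d.tf) d.t1
  choose F hF using hF
  replace hF : ∀ j, ev (F j) = pr (wt (pol j) f) θ1 := hF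
  obtain ⟨S, hS⟩ : ∃ S : ℝ, S = ∑ j, sn m2 (F j) := ⟨_, rfl⟩
  have hS1 : ∀ j, sn m2 (F j) ≤ S := fun j => hS ▸ Finset.single_le_sum
    (f := fun j => sn m2 (F j)) (fun j _ => Lie.sn_nonneg _ _) (Finset.mem_univ j)
  have hS0 : 0 ≤ S := (Lie.sn_nonneg _ _).trans (hS1 0)
  refine ⟨m + m1 + m2 + m3, C * (C1 + C2 * S + C3), δ0, by positivity, hδ0,
    fun a g δ L ha hg hδ hδ1 hL => ?_⟩
  obtain ⟨N, hN⟩ : ∃ N : ℝ, N = snT (m + m1 + m2 + m3) g := ⟨_, rfl⟩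
  have n1 : snT m1 g ≤ N := hN ▸ snT_mono (by omega) g
  have n2 : snT m2 g ≤ N := hN ▸ snT_mono (by omega) g
  have n3 : snT m3 g ≤ N := hN ▸ snT_mono (by omega) g
  have n0 : 0 ≤ N := (snT_nonneg _ _).trans n1
  have p1 : 0 ≤ C1 * N := by positivity
  have p2 : 0 ≤ C2 * S * N := by positivity
  have p3 : 0 ≤ C3 * N := by positivity
  obtain ⟨hdk, k2⟩ := h3 g (hg.mono fun z hz => ⟨hz.1, hz.2.1⟩)
  refine ⟨hdk, ?_⟩
  obtain ⟨g', hg', hs'⟩ := snT_bar m2 g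
  have k3 := hub a _ _ _ ((C1 + C2 * S + C3) * N) δ L ha (perp_Tv t.grp hg.tst)
    (pk_mono (h1 g) (by nlinarith [mul_le_mul_of_nonneg_left n1 hC1])) hdk
    (k2.trans (by nlinarith [mul_le_mul_of_nonneg_left n3 hC3]))
    (t.tri.fld f θ1 a u0 (evT g) d.tf d.t1 (hg.mono fun z hz => hz.2)) (fun j => by
      rw [← hF j, ← hg']
      have e : ∀ G, snT m2 G ≤ N → C2 * sn m2 (F j) * snT m2 G ≤ (C1 + C2 * S + C3) * N :=
        fun G hG => by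
          have := snT_nonneg m2 G
          have : C2 * sn m2 (F j) * snT m2 G ≤ C2 * S * N := by
            gcongr
            exact hS1 j
          linarith
      exact ⟨(h2 (F j) g).1.mono (e g n2), (h2 (F j) g').2.mono (e g' (hs'.trans n2))⟩) hδ hδ1 hL
  rw [← hN]
  refine k3.trans ?_
  have e3 : a ^ m ≤ a ^ (m + m1 + m2 + m3) := pow_le_pow_right₀ ha (by omega)
  calc C * a ^ m * ((C1 + C2 * S + C3) * N) ≤
        C * a ^ (m + m1 + m2 + m3) * ((C1 + C2 * S + C3) * N) := by gcongr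
    _ = _ := by ring

/-- **row UW** -/
theorem uw_of (uf : UF c) : UW c := by
  intro w W κ f ρ θ1 θ a0 u0 b1 d
  obtain ⟨m, C, δ0, C0, d0, h⟩ := uf w W κ f ρ θ1 θ a0 u0 b1 d
  obtain ⟨k, K, K0, hK⟩ := snT_hWS m
  refine ⟨m + k, C * K, δ0, by positivity, d0, fun a g δ L ha hg hδ hδ1 hL => ?_⟩
  obtain ⟨h1, h2⟩ := h a (hWS g) δ L ha (evT_hWS g ▸ inT_hW hg) hδ hδ1 hL
  rw [Wv_ev]
  refine ⟨h1, h2.trans ?_⟩
  have := snT_nonneg m (hWS g)
  have := Lie.sn_nonneg k g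
  calc C * a ^ m * snT m (hWS g) ≤ C * a ^ (m + k) * (K * sn (m + k) g) := by
        gcongr
        · omega
        · exact (hK g).trans (mul_le_mul_of_nonneg_left (Lie.sn_mono (by omega) g) K0)
    _ = _ := by ring

end

end Vale.Agent.P352L.CK
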