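import Vale.Agent.P352X.R.CONK.Rf
import Vale.Agent.P352L.CK.Uf
import Vale.Agent.P352L.CK.Kp
import Vale.Agent.P352L.CK.Smv

/-!
# P352L, block CONK: row RF, fields to the right of the crossing leg (helper54)
-/

set_option linter.all false

open MeasureTheory Filter Topology

namespace Vale.Agent.P352L.CK

open Vale.Agent.P352X
open Vale.Agent.P352 Vale.Agent.P352.GF Vale.Agent.P352.BW Vale.Agent.P352.H246
open Vale.Agent.P352.H496 Vale.Agent.P352.H755 Vale.Agent.P352.H15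
open UniformSpace (Completion)
open Uf

noncomputable section

namespace Rf

variable {D : Type*} [NormedAddCommGroup D] [InnerProductSpace ℂ D] {c : Ctx D}
  {ψ φ : Completion D}

lemma nq_nonneg (k : ℕ) (v : Completion D) : 0 ≤ nq c k v :=
  Finset.sum_nonneg fun _ _ => norm_nonneg _

lemma tri_sub {f θ1 a u0} {R L R' L' : Fin 4 → Completion D} (h : Tri c f θ1 a u0 ψ R L)
    (h' : Tri c f θ1 a u0 φ R' L') :
    Tri c f θ1 a u0 (ψ - φ) (fun j => R j - R' j) fun j => L j - L' j :=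
  ⟨fun j g hg => by rw [inner_sub_right, inner_sub_right, h.right j g hg, h'.right j g hg],
    fun j g hg => by rw [inner_sub_right, inner_sub_left, h.left j g hg, h'.left j g hg]⟩

/-- the difference of a field and its bounded approximations is small, uniformly -/
lemma approx (T : Tools c) (ub : UB c) {w W κ f ρ θ1 θ a0 u0} (d : Dat c w W κ f ρ θ1 θ a0 u0)
    {y : V} {r : ℝ} (hr : 0 < r) (hO : dc y r ⊆ {z | be z < -u0 ∧ a0 + 2 < al z}) {f' : TS}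
    {X : ℕ → Completion D →L[ℂ] Completion D} (hf : InT (dc y r) (evT f'))
    (hX : ∀ n, X n ∈ c.N (dc y r) ∧ c.Good (X n) ∧ inner ℂ c.Om (X n c.Om) = 0)
    (hl : ∀ (v : D) (k : ℕ),
      Tendsto (fun n => nq c k (X n v - (c.Tf (evT f') v : D))) atTop (𝓝 0) ∧
      Tendsto (fun n => nq c k (star (X n) v - (c.Tf (barT (evT f')) v : D))) atTop (𝓝 0))
    {η : ℝ} (hη : 0 < η) : ∃ n, ∀ᶠ δ in 𝓝[>] (0 : ℝ), ∀ᶠ L in atTop,
      ‖Err c w κ f ρ θ1 θ δ L (X n c.Om - c.Tv (evT f'))‖ ≤ η := by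
  have g := T.grp
  have s := T.smv
  have ha := d.ha
  obtain ⟨k, m, C, δ0, C0, d0, hC⟩ := ub w W κ f ρ θ1 θ a0 u0 d
  obtain ⟨K, K0, hK⟩ := T.kp.dom y r u0 (a0 + 2) hr d.hu (by linarith) hO
  let v : Fin 4 → D := fun j => c.Wf (pr (wt (pol j) f) θ1) c.Q.vac
  let A := fun n (u : D) => X n u - (c.Tf (evT f') u : D)
  let B := fun n (u : D) => star (X n) u - (c.Tf (barT (evT f')) u : D)
  have sA : ∀ n u, Sm c (A n u) := fun n u => s.sub _ _ (s.app _ _ (hX n).2.1 (T.gen.sm u))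
    (T.gen.sm _)
  have sB : ∀ n u, Sm c (B n u) := fun n u => s.sub _ _ (s.app _ _ (s.adj _ (hX n).2.1)
    (T.gen.sm u)) (T.gen.sm _)
  let Λ := fun n => nq c k (A n c.Q.vac) + K * (nq c 2 (A n c.Q.vac) + nq c 2 (B n c.Q.vac) +
    nq c 1 (A n c.Q.vac)) + ∑ j, (nq c 2 (A n (v j)) + nq c 2 (B n (v j)))
  have lim : Tendsto (fun n => C * 1 ^ m * Λ n) atTop (𝓝 0) := by
    simpa using (((hl c.Q.vac k).1.add (((((hl c.Q.vac 2).1.add (hl c.Q.vac 2).2).add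
      (hl c.Q.vac 1).1).const_mul K))).add (tendsto_finset_sum Finset.univ fun j _ =>
        (hl (v j) 2).1.add (hl (v j) 2).2)).const_mul (C * 1 ^ m)
  obtain ⟨n, hn⟩ := (lim.eventually (gt_mem_nhds hη)).exists
  have p1 := nq_nonneg (c := c) k (A n c.Q.vac)
  have p2 : 0 ≤ K * (nq c 2 (A n c.Q.vac) + nq c 2 (B n c.Q.vac) + nq c 1 (A n c.Q.vac)) :=
    mul_nonneg K0 (add_nonneg (add_nonneg (nq_nonneg _ _) (nq_nonneg _ _)) (nq_nonneg _ _))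
  have p3 : ∀ j, 0 ≤ nq c 2 (A n (v j)) + nq c 2 (B n (v j)) := fun j =>
    add_nonneg (nq_nonneg _ _) (nq_nonneg _ _)
  have p4 : ∀ j, nq c 2 (A n (v j)) + nq c 2 (B n (v j)) ≤ Λ n := fun j =>
    (Finset.single_le_sum (fun j _ => p3 j) (Finset.mem_univ j)).trans
      (le_add_of_nonneg_left (add_nonneg p1 p2))
  have p5 := Finset.sum_nonneg (s := Finset.univ) fun j _ => p3 j
  obtain ⟨k1, k2⟩ := hK _ _ ((Pr.of_mem (hX n).1).sub (g.pr_Tv hf)) (s.dom _ (sA n c.Q.vac)).1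
  have k3 : ‖gen c.SK (A n c.Q.vac)‖ ≤ Λ n := k2.trans ((mul_le_mul_of_nonneg_left (add_le_add
    (add_le_add (s.lw _ (sA n c.Q.vac)).1.n0 (s.lw _ (sB n c.Q.vac)).1.n0)
      (s.lw _ (sA n c.Q.vac)).2.1) K0).trans (by simp only [Λ]; linarith))
  have tri := tri_sub (T.tri.opt f θ1 1 a0 u0 y r (X n) d.tf d.t1 d.sf d.s1 ha.ge
    (fun z hz => ⟨(hO hz).1, by linarith [(hO hz).2]⟩) (hX n).1) (T.tri.fld f θ1 1 u0 (evT f') d.tf
      d.t1 (hf.mono fun z hz => ⟨(hO hz).1.le, by linarith [(hO hz).2]⟩))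
  have com : ∀ j, c.Wf (pr (wt (pol j) f) θ1) (c.Tf (evT f') c.Q.vac) = c.Tf (evT f') (v j) :=
    fun j => (T.tri.com a0 u0 (evT f') _ c.Q.vac (inT_hW (Ap.in_pr (tst_wt (smooth_pol j) d.tf)
      d.t1 fun z h1 h2 => ⟨d.sf (tsupport_wt _ _ h1), d.s1 h2⟩))
      (hf.mono fun z hz => ⟨(hO hz).1.le, by linarith [(hO hz).2]⟩)).symm
  simp only [com] at tri
  refine ⟨n, ?_⟩
  filter_upwards [Ioc_mem_nhdsGT d0] with δ hδ
  filter_upwards [eventually_ge_atTop 1] with L hL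
  refine (hC 1 _ _ _ (Λ n) δ L le_rfl ?_ (pk_mono ((s.lw _ (sA n c.Q.vac)).2.2 k)
    (by simp only [Λ]; linarith)) k1 k3 tri (fun j => ⟨(s.lw _ (sA n (v j))).1.mono
      ((le_add_of_nonneg_right (nq_nonneg _ _)).trans (p4 j)), (s.lw _ (sB n (v j))).1.mono
      ((le_add_of_nonneg_left (nq_nonneg _ _)).trans (p4 j))⟩) hδ.1 hδ.2 hL).trans hn.le
  exact (inner_sub_right _ _ _).trans (sub_eq_zero.2 ((hX n).2.2.trans (perp_Tv g hf.tst).symm))

/-- the statement in one double cone -/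
lemma cone (T : Tools c) (aa : AA c) (ub : UB c) (uf : UF c) {w W κ f ρ θ1 θ a0 u0}
    (d : Dat c w W κ f ρ θ1 θ a0 u0) {y : V} {r : ℝ} (hr : 0 < r)
    (hO : dc y r ⊆ {z | be z < -u0 ∧ a0 + 2 < al z}) {G : TS} (hg : InT (dc y r) (evT G)) :
    DK c (c.Tv (evT G)) ∧ ∀ η > 0, ∀ᶠ δ in 𝓝[>] (0 : ℝ), ∀ᶠ L in atTop,
      ‖Err c w κ f ρ θ1 θ δ L (c.Tv (evT G))‖ ≤ η := by
  have ha := d.ha
  obtain ⟨m, C, δ0, C0, d0, hC⟩ := uf w W κ f ρ θ1 θ a0 u0 (-(2 * (‖y‖ + 3 * |r|))) d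
  have sub : dc y r ⊆ {z | -(2 * (‖y‖ + 3 * |r|)) ≤ be z ∧ be z ≤ -u0 ∧ -1 ≤ al z} := fun z hz =>
    ⟨by linarith [P352X.CK.Kp.norm_dc hz, (abs_le.1 (abs_be_le z)).1], (hO hz).1.le,
      by linarith [(hO hz).2]⟩
  have dk : ∀ F : TS, InT (dc y r) (evT F) → DK c (c.Tv (evT F)) := fun F hF =>
    (hC 1 F δ0 1 le_rfl (hF.mono sub) d0 le_rfl le_rfl).1
  refine ⟨dk G hg, fun η hη => ?_⟩
  obtain ⟨f', X, hf, h1, hX, hl⟩ := T.smv.fld y r G m (η / 3 / (C + 1)) hg (by positivity)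
  obtain ⟨n, hn⟩ := approx T ub d hr hO hf hX hl (η := η / 3) (by positivity)
  have h2 : InT (dc y r) (evT (f' - G)) := fun a b => Ap.in_sub' (hf a b) (hg a b)
  obtain ⟨K, -, hK⟩ := T.kp.dom y r u0 (a0 + 2) hr d.hu (by linarith) hO
  have dX : DK c (X n c.Om) := (hK _ _ (.of_mem (hX n).1)
    (T.smv.dom _ (T.smv.app _ _ (hX n).2.1 T.smv.vac)).1).1
  have e : c.Tv (evT G) = X n c.Om - (X n c.Om - c.Tv (evT f')) - c.Tv (evT (f' - G)) := by
    rw [sub_sub_cancel, Tv_sub, sub_sub_cancel]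
  filter_upwards [hn, aa w W κ f ρ θ1 θ a0 u0 (X n) d ⟨⟨y, r, hr, hO, (hX n).1⟩, (hX n).2.1,
    (hX n).2.2⟩ (η / 3) (by positivity), Ioc_mem_nhdsGT d0] with δ a1 a2 hδ
  filter_upwards [a1, a2, eventually_ge_atTop 1] with L b1 b2 hL
  have b3 := (hC 1 _ δ L le_rfl (h2.mono sub) hδ.1 hδ.2 hL).2
  rw [lt_div_iff₀ (by positivity)] at h1
  rw [e, err_sub (dk_sub dX (dk_sub dX (dk f' hf))) (dk _ h2), err_sub dX (dk_sub dX (dk f' hf))]
  refine (norm_sub_le _ _).trans ((add_le_add (norm_sub_le _ _) le_rfl).trans ?_)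
  rw [one_pow, mul_one] at b3
  linarith [snT_nonneg m (f' - G)]

end Rf

open Rf

variable {D : Type*} [NormedAddCommGroup D] [InnerProductSpace ℂ D] {c : Ctx D}

/-- **row RF** -/
theorem rf_of (T : Tools c) (aa : AA c) (ub : UB c) (uf : UF c) : RF c := by
  intro w W κ f ρ θ1 θ a0 u0 g d hg
  refine (Ap.in_ind (P := fun g => DK c (c.Wv g) ∧ ∀ η > 0, ∀ᶠ δ in 𝓝[>] (0 : ℝ), ∀ᶠ L in atTop,
    ‖Err c w κ f ρ θ1 θ δ L (c.Wv g)‖ ≤ η) ?_ (fun g g' i i' p p' => ?_) (fun x hx => ?_) hg).2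
  · rw [Wv_zero]
    exact ⟨⟨dm_zero, fun _ => dm_zero, dm_zero⟩, fun η hη => .of_forall fun _ => .of_forall fun _ =>
      by rw [err_zero, norm_zero]; exact hη.le⟩
  · rw [Wv_add i.1 i'.1]
    refine ⟨dk_add p.1 p'.1, fun η hη => ?_⟩
    filter_upwards [p.2 _ (half_pos hη), p'.2 _ (half_pos hη)] with δ a b
    filter_upwards [a, b] with L a b
    rw [err_add p.1 p'.1]
    exact (norm_add_le _ _).trans (by linarith)
  · obtain ⟨r, hr, h1, h2⟩ := P352X.CK.Rf.ex_dc (((isOpen_lt cont_be continuous_const).inter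
      (isOpen_lt continuous_const cont_al)).mem_nhds hx)
    refine ⟨_, h2, fun g hg => ?_⟩
    obtain ⟨G, rfl⟩ : ∃ G : Sch, ev G = g := ⟨_, Ap.ev_sch hg.1⟩
    rw [Wv_ev]
    exact cone T aa ub uf d hr h1 (evT_hWS G ▸ inT_hW (Ap.in_mono hg Set.inter_subset_left))

end

end Vale.Agent.P352L.CK
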