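import Vale.Agent.P352X.R.CONK.Sh
import Vale.Agent.P352L.CK.Fin
import Vale.Agent.P352L.CK.Rf

/-!
# P352L, block CONK: the centre of the cut off can be shifted (helper54)
-/

set_option linter.all false

open MeasureTheory Filter Topology Metric
open scoped ContDiff

namespace Vale.Agent.P352L.CK

open Vale.Agent.P352X
open Vale.Agent.P352 Vale.Agent.P352.GF Vale.Agent.P352.BW Vale.Agent.P352.H246
open Vale.Agent.P352.H496 Vale.Agent.P352.H755 Vale.Agent.P352.H15
open UniformSpace (Completion)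
open P352X.CK.Sh (tl df tst_tl tst_df pl_va be_va' tx_va' exK gen_comm)
open P352X.CK.Ub (qol_kL pairF_add smooth_sq2)

noncomputable section

namespace Sh

/-- a small parameter beats the running of the member -/
theorem pol_small {E : Type*} [NormedAddCommGroup E] [NormedSpace ℝ E] {J : ℕ} {F : ℝ → ℝ → E}
    (h : ∀ ε, IsPol J (F ε)) (hd : ∀ x, DifferentiableAt ℝ (fun ε => F ε x) 0)
    (h0 : ∀ x, F 0 x = 0) (s : ℝ) :
    Tendsto (fun L => F (s / L) (-(Real.log L / 2))) atTop (𝓝 0) := by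
  obtain ⟨C, -, hC⟩ := IsPol.bd (E := E) J
  obtain ⟨K, -, hK⟩ := log_le_rpow_top J (-1 / 2) 0 one_half_pos
  have t0 : Tendsto (fun L : ℝ => s / L) atTop (𝓝 0) := tendsto_const_nhds.div_atTop tendsto_id
  have t1 : Tendsto (fun L : ℝ => (1 + |-(Real.log L / 2)|) ^ J * (s / L)) atTop (𝓝 0) := by
    refine squeeze_zero_norm' ?_ (by
      simpa only [mul_zero] using (tendsto_rpow_neg_atTop one_half_pos).const_mul (K * |s|))
    filter_upwards [eventually_ge_atTop 1] with L hL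
    have L0 : 0 < L := by linarith
    have := hK L hL
    rw [show 0 + -1 / 2 * Real.log L = -(Real.log L / 2) by ring] at this
    rw [norm_mul, Real.norm_of_nonneg (by positivity), Real.norm_eq_abs, abs_div, abs_of_pos L0,
      show (-(1 / 2) : ℝ) = 1 / 2 - 1 by ring, Real.rpow_sub_one L0.ne']
    exact (mul_le_mul_of_nonneg_right this (by positivity)).trans_eq (by ring)
  have t2 := (tendsto_finset_sum (Finset.range (J + 1)) fun (i : ℕ) _ =>
    ((Asymptotics.isBigO_refl (fun L : ℝ => (1 + |-(Real.log L / 2)|) ^ J) atTop).mul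
      (by simpa only [h0, sub_zero, Function.comp_def] using
        ((hd i).isBigO_sub.comp_tendsto t0).norm_left : (fun L => ‖F (s / L) i‖) =O[atTop]
          fun L => s / L)).trans_tendsto t1).const_mul C
  refine squeeze_zero_norm (fun L => (hC _ _ (h _) (fun i hi => Finset.single_le_sum
    (f := fun i : ℕ => ‖F (s / L) i‖) (fun _ _ => norm_nonneg _) hi) _).trans_eq ?_)
    (by simpa only [Finset.sum_const_zero, mul_zero] using t2)
  rw [← Finset.mul_sum, mul_assoc]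

variable {D : Type*} [NormedAddCommGroup D] [InnerProductSpace ℂ D] {c : Ctx D}

theorem abw (g : GRP c) (s : ℝ) {f : P3 → ℝ} {φ : ℝ → ℝ} (hf : Tst f) (hφ : Tst φ)
    (ψ : Completion D) : c.AbW f φ (Pa c.Q s ψ) = c.AbW (tl s f) φ ψ := by
  have k : ∀ p : R2 → ℝ, ContDiff ℝ ∞ p → c.Wv (pr (fun y => p y.2 * f y) φ) =
      Pa c.Q s (c.Wv (pr (fun y => p y.2 * tl s f y) φ)) := fun p hp => by
    refine (Wv_tr g (s • va) (Ap.test_pr (tst_wt hp hf) hφ)).symm.trans ?_
    simp only [pr, wt, pl_va, be_va', tl, Prod.snd_add, add_zero]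
    rfl
  have k0 := k (fun _ => 1) contDiff_const
  simp only [one_mul] at k0
  have i := g.ugPa.inv_mul s
  rw [Ctx.AbW, Ctx.AbW, k0, k (fun x => d2 x x) smooth_sq2, gen_comm i (g.pa_S s) (g.pa_S _),
    gen_comm (W := Pa c.Q) i (fun t => g.ut_comm _ _) fun t => g.ut_comm _ _]
  simp only [fun j : Fin 2 => k (fun x => x j) (by fun_prop), fun j =>
    gen_comm (W := Mi c.Q j) i (fun t => (g.ga_pa _ _).symm) (fun t => (g.ga_pa _ _).symm) ψ,
    g.ugPa.inn]

/-- `T_aa` as a continuous linear map -/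
def taL (c : Ctx D) : Sch →L[ℂ] Completion D := (Gen.th c c.Q.vac va va).comp ofSch

theorem taL_sch {F : Fn} (h : IsTest F) : taL c (sch F) = c.Tv (hk va va F) :=
  (Gen.th_apply _ _ _ _).trans (congrArg (fun F => c.Tv (hk va va F)) (Ap.ev_sch h))

theorem norm_le (t : Tools c) (j : Fin 4) {u : P3 → ℝ} {ρ : ℝ → ℝ} (hu : Tst u) (hρ : Tst ρ)
    {L : ℝ} (hL : 1 ≤ L) :
    ‖((Taa c (pr (wt (qol j) (kL u L)) ρ) c.Q.vac : D) : Completion D)‖ ≤
      ‖taL (c.sh (-(Real.log L / 2))) (sch (pr (wt (qol j) u) ρ))‖ := by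
  obtain ⟨s, s0, s1, e⟩ := qol_kL j hL
  have L0 : 0 < L := by linarith
  have q := tst_wt (smooth_qol j) hu
  have p := Ap.test_pr (Ap.tst_kL q L0) hρ
  have e' : pr (wt (qol j) (kL u L)) ρ = fun z => (s : ℂ) * pr (kL (wt (qol j) u) L) ρ z := by
    funext z
    simp only [pr, e]
    push_cast
    ring
  have g := (t.sh (-(Real.log L / 2))).grp
  have k := congrArg norm (usc_Tv g q hρ L0)
  rw [Usc, g.ug_norm, norm_smul, Complex.norm_real, Real.norm_of_nonneg L0.le,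
    show rn (c.sh (-(Real.log L / 2))) L = c by
      rw [rn, c.sh_sh, neg_add_cancel, c.sh_zero]] at k
  change ‖c.Tv _‖ ≤ _
  rw [taL_sch (Ap.test_pr q hρ), k, e', ← taL_sch (Ap.sw_cmul _ p), Ap.sch_cmul _ p, map_smul,
    taL_sch p, norm_smul, Complex.norm_real, Real.norm_of_nonneg s0]
  gcongr

theorem small (t : Tools c) (j : Fin 4) {u κ : P3 → ℝ} {ρ : ℝ → ℝ} (hu : ContDiff ℝ ∞ u)
    (hκ : Cut κ) (hρ : Tst ρ) (s : ℝ) : Tendsto (fun L : ℝ => ((Taa c (pr (wt (qol j)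
      (kL (fun y => u y * df κ (s / L) y) L)) ρ) c.Q.vac : D) : Completion D)) atTop (𝓝 0) := by
  obtain ⟨K, r, hK, -, r0, h⟩ := exK hκ
  have q := smooth_qol j
  have k := hκ.1.1
  have p := hρ.1
  have tu := fun ε => Ap.cs_mul_l hu (tst_df hκ.1 ε)
  have F : Api4.Fam (ball (0 : ℝ) r) fun ε => pr (wt (qol j) fun y => u y * df κ ε y) ρ := by
    refine Api4.fam_of_compact isOpen_ball (ContDiff.contDiffOn ?_)
      (plE.toHomeomorph.isCompact_preimage.2 (hK.prod hρ.2.isCompact)) fun ε hε z hz => ?_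
    · simp only [pr, wt, df]
      exact Ap.smooth_cx (by fun_prop)
    · by_contra n
      have := Ap.tsupport_pr _ _ (subset_tsupport _ n)
      exact hz ⟨h ε (by simpa using hε) (tsupport_mul_subset_right (tsupport_wt _ _ this.1)), this.2⟩
  have z : sch (pr (wt (qol j) fun y => u y * df κ 0 y) ρ) = 0 :=
    Ap.sch_eq fun z => by simp [pr, wt, df, Prod.mk_zero_zero]
  have := pol_small (F := fun ε x => taL (c.sh x)
    (sch (pr (wt (qol j) fun y => u y * df κ ε y) ρ))) (fun ε => (t.grp.polv _ (tsT_hk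
      (Ap.test_pr (tst_wt q (tu ε)) hρ) va va)).congr fun x =>
        taL_sch (Ap.test_pr (tst_wt q (tu ε)) hρ))
    (fun x => (F.contDiffAt _ (mem_ball_self r0)).differentiableAt (by simp))
    (fun x => by rw [z, map_zero]) s
  refine squeeze_zero_norm' ?_ (by simpa only [norm_zero] using this.norm)
  filter_upwards [eventually_ge_atTop 1] with L hL
  exact norm_le t j (tu _) hρ hL

theorem rest (t : Tools c) {w κ f ρ θ1 f3} (hw : TP2 c.Q c.TT false w) (hκ : Cut κ) (hf : Tst f)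
    (hρ : Tst ρ) (sρ : tsupport ρ ⊆ Set.Icc (-1 / 2) (1 / 2)) (h1 : Tst θ1)
    (h3 : InT {z | be z < 0} f3) (s : ℝ) : ∀ᶠ δ in 𝓝[>] (0 : ℝ), Tendsto (fun L : ℝ =>
      inner ℂ (R0 c w (pairF sq2 (df κ (s / L)) f ρ θ1 δ L)) (c.Tv f3)) atTop (𝓝 0) := by
  obtain ⟨W, hW⟩ := t.exW
  have cp : IsCompact (⋃ I : I2, tsupport (f3 I.1 I.2)) :=
    isCompact_iUnion fun I => (h3 _ _).2.1.isCompact
  obtain ⟨u0, hu, su⟩ := cp.exists_forall_le' (f := fun z => -be z) (a := 0)
    cont_be.neg.continuousOn fun z hz => by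
      obtain ⟨I, hI⟩ := Set.mem_iUnion.1 hz
      exact neg_pos.2 ((h3 _ _).2.2 hI)
  obtain ⟨a, sa⟩ := (cp.image cont_al).bddBelow
  have tri := t.tri.fld f θ1 (-a) u0 f3 hf h1 fun m n => ⟨(h3 m n).1, (h3 m n).2.1, fun z hz =>
    ⟨le_neg.1 (su z (Set.mem_iUnion.2 ⟨(m, n), hz⟩)),
      (neg_neg a).trans_le (sa ⟨z, Set.mem_iUnion.2 ⟨(m, n), hz⟩, rfl⟩)⟩⟩
  obtain ⟨K, r, hK, K0, r0, h⟩ := exK hκ
  obtain ⟨B, -, hB⟩ := Ap.ex_Icc h1
  obtain ⟨σ, c0, A0, hσ, c00, A01, sσ, hs⟩ := t.ann.split2 K f B hK K0 hf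
  filter_upwards [Ioo_mem_nhdsGT (lt_min one_pos hu)] with δ hδ
  obtain ⟨δ0, δ1, δu⟩ : 0 < δ ∧ δ < 1 ∧ δ < u0 := by simpa only [Set.mem_Ioo, lt_min_iff] using hδ
  have td := Ap.tst_dlt hρ δ0.ne'
  have sd := Ap.tsupport_dlt_Icc sρ δ0
  have hσ' : ContDiff ℝ ∞ fun y => 1 - σ y := contDiff_const.sub hσ
  have lim := tendsto_finset_sum Finset.univ fun j _ =>
    ((tendsto_const_nhds (x := ((c.Tf (barT f3) (c.Wf (pr (wt (pol j) f) θ1) c.Q.vac) : D) :
      Completion D))).inner (𝕜 := ℂ) (small t j hσ hκ td s)).add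
    ((small t j hσ' hκ td s).inner (𝕜 := ℂ) (tendsto_const_nhds
      (x := ((c.Wf (pr (wt (pol j) f) θ1) (c.Tf f3 c.Q.vac) : D) : Completion D))))
  simp only [inner_zero_left, inner_zero_right, add_zero, Finset.sum_const_zero] at lim
  refine lim.congr' ?_
  have t0 : Tendsto (fun L : ℝ => |s / L|) atTop (𝓝 0) := by
    simpa using (tendsto_const_nhds (x := s).div_atTop tendsto_id).abs
  filter_upwards [eventually_ge_atTop A0, eventually_gt_atTop (-a / c0), t0.eventually_lt_const r0]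
    with L l1 l2 l3
  have L0 : 0 < L := by linarith
  have tg := tst_df hκ.1 (s / L)
  have tL : Tst fun y => σ y * df κ (s / L) y := Ap.cs_mul_l hσ tg
  have tR : Tst fun y => (1 - σ y) * df κ (s / L) y := Ap.cs_mul_l hσ' tg
  obtain ⟨s1, s2⟩ := hs _ sq2 ρ θ1 δ L tg (h _ l3) smooth_sq2 hρ
    (sρ.trans (Set.Icc_subset_Icc (by norm_num) (by norm_num))) h1 hB δ0 δ1.le l1
  rw [pairF_add t.ann smooth_sq2 tg tL tR hf hρ h1 δ0 L0 fun y => by ring, map_add,
    t.cv.late w W _ hw hW s1, t.cv.early w W _ hw hW s2,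
    (t.cv.pair W _ _ _ _ _ _ hW tL hf hρ h1 δ0 L0).1,
    (t.cv.pair W _ _ _ _ _ _ hW tR hf hρ h1 δ0 L0).2, ← Finset.sum_add_distrib, sum_inner]
  refine Finset.sum_congr rfl fun j _ => ?_
  have tq := fun g (hg : Tst g) => tst_wt (smooth_qol j) (Ap.tst_kL hg L0)
  rw [inner_add_left, tri.right j _ (Ap.in_pr (tq _ tR) td fun _ _ _ => trivial),
    tri.left j _ (Ap.in_pr (tq _ tL) td fun z h1 h2 => ⟨?_, ?_⟩), Ap.bar_pr]
  · have : al z / L ≤ -c0 :=
      sσ (tsupport_mul_subset_left (Ap.tsupport_kL _ L (tsupport_wt _ _ h1)))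
    rw [div_le_iff₀ L0] at this
    rw [div_lt_iff₀ c00] at l2
    linarith
  · linarith [(sd h2).1]

end Sh

open Sh

/-- **row CONK from CONK0** -/
theorem sh_of {D : Type*} [NormedAddCommGroup D] [InnerProductSpace ℂ D] {c : Ctx D}
    (t : Tools c) (h0 : CONK0 c) : CONK c := by
  intro w κ f ρ θ1 θ f3 hw hκ hf hρ sρ h1 hθ h3 η hη
  obtain ⟨R, hR⟩ := hf.2.isCompact.isBounded.subset_closedBall 0
  set s := R + 2
  have tf := tst_tl s hf
  have sf : tsupport (tl s f) ⊆ {y | y.1 < -1} := fun y hy => by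
    have := (norm_fst_le _).trans (mem_closedBall_zero_iff.1 (hR
      (tsupport_comp_subset_preimage f (f := fun y : P3 => y + (s, 0)) (by fun_prop) hy)))
    have := (le_abs_self _).trans this
    simp only [Prod.fst_add, s] at this
    show y.1 < -1
    linarith
  have h3' : In {z | be z < 0} fun z => f3 (z + s • va) :=
    Ap.in_mono (Ap.in_tr _ h3) fun z hz => by simpa using hz
  filter_upwards [h0 w κ _ ρ θ1 θ _ hw hκ tf sf hρ sρ h1 hθ h3' _ (half_pos hη),
    rest t hw hκ tf hρ sρ h1 (inT_hW h3') s, self_mem_nhdsWithin] with δ a b δ0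
  replace δ0 : 0 < δ := δ0
  filter_upwards [a, b.norm.eventually_le_const (norm_zero.trans_lt (half_pos hη)),
    eventually_gt_atTop 0] with L a b L0
  have tk := tst_tl (s / L) hκ.1
  obtain ⟨k, e⟩ := (t.cv.cvw _ _ hw).tra (s • va) (pairF sq2 κ f ρ θ1 δ L)
    (pairF sq2 (tl (s / L) κ) (tl s f) ρ θ1 δ L) fun x y => by
      rw [t.ann.app _ _ _ _ _ _ _ smooth_sq2 tk tf hρ h1 δ0 L0,
        t.ann.app _ _ _ _ _ _ _ smooth_sq2 hκ.1 hf hρ h1 δ0 L0]
      simp only [pl_va, be_va', tx_va', tl, kL, Prod.fst_add, Prod.snd_add, Prod.mk_add_mk, add_div,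
        add_zero]
  rw [pairF_add t.ann smooth_sq2 tk hκ.1 (tst_df hκ.1 (s / L)) tf hρ h1 δ0 L0
    fun y => by simp [tl, df], map_add] at e
  rw [show (fun x => d2 x x) = sq2 from rfl, show ww0 (w c.tau c.tau) = R0 c w from rfl, e,
    inner_add_left, inner_smul_left, perp_Wv t.grp h3.1, mul_zero, add_zero,
    ← Wv_tr t.grp (s • va) h3.1, Ut, t.grp.ug_inner, inner_add_left]
  change ‖_ - _ * c.AbW f _ (Pa c.Q s _)‖ ≤ η
  rw [abw t.grp s hf (Ap.tst_abv h1 hθ δ0), add_sub_right_comm]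
  exact (norm_add_le_of_le a b).trans_eq (add_halves η)

/-- **the outer chain** -/
theorem outer_of {D : Type*} [NormedAddCommGroup D] [InnerProductSpace ℂ D] {c : Ctx D}
    (t : Tools c) (tl : TAIL c) (aa : AA c) (ub : UB c) : CONK c :=
  sh_of t (fin_of t tl (rf_of t aa ub (uf_of t ub)) (uw_of (uf_of t ub)))

end

end Vale.Agent.P352L.CK
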